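import Vale.Agent.P150.Beyond.Good
import Vale.Agent.P150.Fast.Order
import Vale.Agent.P150.Fast.Ent.Decay

/-!
# P150 beyond one half: the events of the disorder
-/

open Finset MeasureTheory Real
open Vale.Agent.P150.Fast
open Vale.Agent.P150.Fast.Ent (ent entAt)

namespace Vale.Agent.P150.Beyond

variable {n : ℕ}

/-- The coupling bounds at strength `β`. -/
def coupSet (n : ℕ) (β ε K : ℝ) : Set (Edge n → ℝ) :=
  {g | (∀ i j, |skMat n β g i j| ≤ ε) ∧
    (∀ i, ∑ j, skMat n β g i j ^ 2 ≤ β ^ 2 + ε) ∧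
    (∀ v : Fin n → ℝ, ∑ i, ∑ j, eff (skMat n β g i j) * v i * v j ≤
      (2 * β + ε) * ∑ i, v i ^ 2) ∧
    ∀ (S : Finset (Fin n)), S.Nonempty →
      (∀ v : Fin n → ℝ, ∑ i ∈ S, ∑ j ∈ S, eff (skMat n β g i j) * v i * v j ≤
        K * √(√((S.card : ℝ) / n)) * ∑ i ∈ S, v i ^ 2) ∧
      ∀ i ∈ S, ∑ j ∈ S, skMat n β g i j ^ 2 ≤ K * √(√((S.card : ℝ) / n))}

theorem continuous_skMat_apply (β : ℝ) (i j : Fin n) :
    Continuous fun g : Edge n → ℝ => skMat n β g i j := by
  unfold skMat; split_ifs <;> fun_prop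

theorem measurableSet_coupSet (β ε K : ℝ) : MeasurableSet (coupSet n β ε K) := by
  have hc := continuous_skMat_apply (n := n) β
  have he : Continuous eff := by unfold eff; fun_prop
  refine IsClosed.measurableSet ?_
  simp only [coupSet, Set.ofPred_and, Set.ofPred_forall]
  refine ((isClosed_iInter fun i => isClosed_iInter fun j => isClosed_le (hc i j).abs continuous_const).inter
    ((isClosed_iInter fun i => isClosed_le ?_ continuous_const).inter
    ((isClosed_iInter fun v => isClosed_le ?_ continuous_const).inter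
    (isClosed_iInter fun S => isClosed_iInter fun _ => (isClosed_iInter fun v =>
      isClosed_le ?_ continuous_const).inter
      (isClosed_iInter fun i => isClosed_iInter fun _ => isClosed_le ?_ continuous_const)))))
  · exact continuous_finsetSum _ fun j _ => (hc i j).pow 2
  · exact continuous_finsetSum _ fun i _ => continuous_finsetSum _ fun j _ =>
      ((he.comp (hc i j)).mul continuous_const).mul continuous_const
  · exact continuous_finsetSum _ fun i _ => continuous_finsetSum _ fun j _ =>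
      ((he.comp (hc i j)).mul continuous_const).mul continuous_const
  · exact continuous_finsetSum _ fun j _ => (hc i j).pow 2

theorem measurableSet_square (ε : ℝ) : MeasurableSet {g : Edge n → ℝ | ∀ a : Fin n → ℝ,
    ∑ i, ∑ j, skMat n 1 g i j ^ 2 * a i * a j ≤ (∑ i, a i) ^ 2 / n + ε * ∑ i, a i ^ 2} := by
  have hc := continuous_skMat_apply (n := n) 1
  refine IsClosed.measurableSet ?_
  simp only [Set.ofPred_forall]
  exact isClosed_iInter fun a => isClosed_le (by fun_prop) continuous_const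

theorem measurableSet_stable (c ε : ℝ) : MeasurableSet {g : Edge n → ℝ |
    ∀ θ : ℝ, 0 ≤ θ → θ ≤ 3 / 5 → StableFields n θ g c ε} := by
  refine IsClosed.measurableSet ?_
  simp only [StableFields, Set.ofPred_forall]
  refine isClosed_iInter fun θ => isClosed_iInter fun _ => isClosed_iInter fun _ =>
    isClosed_iInter fun h => isClosed_iInter fun f => isClosed_iInter fun hf => ?_
  have hc := continuous_skMat_apply (n := n) θ
  have := continuous_phi
  refine isClosed_le ?_ ?_ <;>
  · simp only [magShift, ent, Ent.mag, mean, weight, ham]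
    fun_prop (disch := exact fun _ => (Finset.sum_pos (fun _ _ => Real.exp_pos _) univ_nonempty).ne')

/-- Intersecting with a measurable event. -/
theorem ofReal_inter {Ω : Type*} [MeasurableSpace Ω] (μ : Measure Ω) [IsProbabilityMeasure μ]
    {A B : Set Ω} (hB : MeasurableSet B) {a b : ℝ} (ha : ENNReal.ofReal (1 - a) ≤ μ A)
    (hb : ENNReal.ofReal (1 - b) ≤ μ B) : ENNReal.ofReal (1 - (a + b)) ≤ μ (A ∩ B) := by
  rw [← ofReal_measureReal] at ha hb ⊢
  rw [ENNReal.ofReal_le_ofReal_iff measureReal_nonneg] at ha hb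
  refine ENNReal.ofReal_le_ofReal ?_
  have h1 : μ.real A ≤ μ.real (A ∩ B) + μ.real Bᶜ :=
    (measureReal_mono (fun x hx => (em (x ∈ B)).elim (fun h => Or.inl ⟨hx, h⟩) Or.inr)).trans
      (measureReal_union_le _ _)
  rw [measureReal_compl hB, probReal_univ] at h1
  linarith

/-- Plain quadratic forms from the two-sided bounds on the corrected couplings. -/
theorem form_of_eff {g : Edge n → ℝ} {τ K : ℝ} (hτ0 : 0 ≤ τ) (hτ : τ ≤ 1 / 20)
    (hg : g ∈ coupSet n 1 τ K) (hg' : -g ∈ coupSet n 1 τ K) :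
    (∀ i, ∑ j, skMat n 1 g i j ^ 2 ≤ 2) ∧
      ∀ v : Fin n → ℝ, |∑ i, ∑ j, skMat n 1 g i j * v i * v j| ≤ 3 * ∑ i, v i ^ 2 := by
  obtain ⟨he, hr, hp, -⟩ := hg
  have hr' : ∀ i, ∑ j, skMat n 1 g i j ^ 2 ≤ 2 := fun i => (hr i).trans (by linarith)
  refine ⟨hr', fun v => ?_⟩
  have hs : ∀ i j, skMat n 1 g i j = skMat n 1 g j i := (isCoupling_skMat n 1 g).1
  have hv : 0 ≤ ∑ i, v i ^ 2 := Finset.sum_nonneg fun i _ => sq_nonneg _
  have hsmall : ∀ i j, |eff (skMat n 1 g i j) - skMat n 1 g i j| ≤ τ * skMat n 1 g i j ^ 2 :=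
    fun i j => (abs_eff_le ((he i j).trans hτ)).1.trans
      (mul_le_mul_of_nonneg_right (he i j) (sq_nonneg _))
  have h1 := abs_form_le (A := fun i j => eff (skMat n 1 g i j) - skMat n 1 g i j) hτ0 hs hsmall hr' v
  have h2 := abs_form_le (A := fun i j => skMat n 1 g i j - eff (skMat n 1 g i j)) hτ0 hs
    (fun i j => (abs_sub_comm _ _).trans_le (hsmall i j)) hr' v
  have hn' := hg'.2.2.1 v
  simp only [skMat_neg, eff_neg, neg_mul, Finset.sum_neg_distrib] at hn'
  simp only [sub_mul, Finset.sum_sub_distrib] at h1 h2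
  have h3 := hp v
  have h4 := mul_le_mul_of_nonneg_right (show 2 + τ + τ * 2 ≤ 3 by linarith) hv
  rw [abs_le]
  constructor <;> linarith

/-- The entropy inequality at strength `49/100`. -/
theorem base_lsi {g : Edge n → ℝ} {K : ℝ} (hK : 0 < K)
    (hn : (16 * K) ^ 4 * (2 / ((1 - 2 * (49 / 100)) / 8) + 1) ≤ n)
    (hg : g ∈ coupSet n (49 / 100) ((1 - 2 * (49 / 100)) / 800) K)
    (h : Fin n → ℝ) {f : (Fin n → Bool) → ℝ} (hf : ∀ x, 0 < f x) :
    ent (skMat n (49 / 100) g) h f ≤ Real.exp (256 * K / ((1 - 2 * (49 / 100)) / 8)) *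
      ∑ j, entAt (skMat n (49 / 100) g) h j f := by
  obtain ⟨hτ, hρ, hL, hS⟩ := hg
  have hc : (0 : ℝ) < (1 - 2 * (49 / 100)) / 8 := by norm_num
  have hc1 : (1 - 2 * (49 / 100 : ℝ)) / 8 ≤ 1 := by norm_num
  obtain ⟨-, hA⟩ := allCovBound_of_bounds (isCoupling_skMat n _ g) hc (by norm_num) (by norm_num) hK
    (param_bound (by norm_num) (by norm_num)) hτ hρ hL hS
  have hη : ∀ m, 2 ≤ m → m ≤ Fintype.card (Fin n) →
      1 ≤ etaSK ((1 - 2 * (49 / 100)) / 8) K n m ∧ etaSK ((1 - 2 * (49 / 100)) / 8) K n m < m :=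
    fun m hm hmn => by
      rw [Fintype.card_fin] at hmn
      have := etaSK_spec hc hc1 hK hn hm hmn
      exact ⟨this.1, this.2.2.2.2⟩
  refine (Ent.tensor _ _ (isCoupling_skMat n _ g) hA hη h hf).2.trans
    (mul_le_mul_of_nonneg_right ?_ (Finset.sum_nonneg fun j _ => ?_))
  · rw [Fintype.card_fin]
    exact atConst_le hc hc1 hK hn
  · rw [entAt, sub_nonneg, ← Ent.mean_cond (isCoupling_skMat n _ g) j (fun x => Ent.phi (f x))]
    refine mean_le_mean h fun y => ?_
    obtain ⟨h1, h2⟩ := Ent.half_tanh (field (skMat n (49 / 100) g) h j y)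
    exact Real.convexOn_mul_log.2 (hf (Function.update y j true)).le
      (hf (Function.update y j false)).le
      (by simp only [cmean, h1]; positivity) (by simp only [cmean, h2]; positivity) (by ring)

end Vale.Agent.P150.Beyond
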