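import Vale.Agent.P150.Fast.Ent.Decay
import Vale.Agent.P150.Fast.Bridge

/-!
# P150 beyond one half: a small defect still gives mixing
-/

open Finset Real
open Vale.Agent.P150.Fast
open Vale.Agent.P150.Fast.Ent (ent entAt phi sg)

namespace Vale.Agent.P150.Beyond

variable {ι : Type} [Fintype ι] [DecidableEq ι] {J : ι → ι → ℝ} {h : ι → ℝ}

/-- Entropy decays down to the defect. -/
theorem entropy_decay_defect (hJ : IsCoupling J) {C δ : ℝ} (hC : 0 < C) (hδ : 0 ≤ δ)
    (hT : ∀ f : (ι → Bool) → ℝ, (∀ x, 0 < f x) → mean J h f = 1 →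
      ent J h f ≤ C * ∑ j, entAt J h j f + δ)
    {g : (ι → Bool) → ℝ} (hg : ∀ x, 0 < g x) (h1 : mean J h g = 1) {t : ℝ} (ht : 0 ≤ t) :
    mean J h (fun x => phi (sg J h t g x))
      ≤ Real.exp (-t / C) * mean J h (fun x => phi (g x)) + δ := by
  obtain ⟨z, -, hz⟩ := Finset.exists_min_image Finset.univ g Finset.univ_nonempty
  have hpos : ∀ s, 0 ≤ s → ∀ x, 0 < sg J h s g x := fun s hs x =>
    (hg z).trans_le (Ent.sg_ge hs (fun w => hz w (Finset.mem_univ w)) x)
  set E : ℝ → ℝ := fun s =>
    (mean J h (fun x => phi (sg J h s g x)) - δ) * Real.exp (s / C) with hE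
  have hd : ∀ s, 0 ≤ s → HasDerivAt E
      (mean J h (fun x => (Real.log (sg J h s g x) + 1) * lap J h (sg J h s g) x)
          * Real.exp (s / C)
        + (mean J h (fun x => phi (sg J h s g x)) - δ) * (Real.exp (s / C) * (1 / C))) s :=
    fun s hs => by
    refine HasDerivAt.mul (HasDerivAt.sub_const δ
      (HasDerivAt.fun_sum fun x _ => HasDerivAt.const_mul _ ?_))
      ((Real.hasDerivAt_exp _).comp s ((hasDerivAt_id s).div_const C))
    exact (Real.hasDerivAt_mul_log (hpos s hs x).ne').comp s (Ent.sg_hasDerivAt s g x)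
  have hanti : AntitoneOn E (Set.Ici 0) := by
    refine antitoneOn_of_hasDerivWithinAt_nonpos (convex_Ici 0)
      (fun s hs => (hd s hs).continuousAt.continuousWithinAt)
      (fun s hs => (hd s (interior_subset hs)).hasDerivWithinAt) fun s hs => ?_
    have hs0 : 0 ≤ s := interior_subset hs
    have p := Ent.production_le (h := h) hJ (hpos s hs0)
    have hm1 : mean J h (sg J h s g) = 1 := by rw [Ent.mean_sg hJ, h1]
    have q := hT _ (hpos s hs0) hm1
    rw [ent, hm1] at q
    simp only [phi, Real.log_one, mul_zero, sub_zero] at q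
    have q' : (mean J h (fun x => phi (sg J h s g x)) - δ) / C ≤
        ∑ j, entAt J h j (sg J h s g) := by
      rw [div_le_iff₀ hC, mul_comm]
      exact sub_le_iff_le_add.2 q
    have := mul_le_mul_of_nonneg_right
      (show mean J h (fun x => (Real.log (sg J h s g x) + 1) * lap J h (sg J h s g) x)
        + (mean J h (fun x => phi (sg J h s g x)) - δ) / C ≤ 0 by linarith) (Real.exp_pos (s / C)).le
    rw [zero_mul] at this
    refine le_trans (le_of_eq ?_) this
    ring
  have := hanti Set.self_mem_Ici ht ht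
  simp only [hE, Ent.sg_zero, zero_div, Real.exp_zero, mul_one] at this
  have h2 : Real.exp (-t / C) * Real.exp (t / C) = 1 := by
    rw [← Real.exp_add, neg_div, neg_add_cancel, Real.exp_zero]
  have h3 := mul_le_mul_of_nonneg_left this (Real.exp_pos (-t / C)).le
  have h4 : 0 ≤ Real.exp (-t / C) * δ := mul_nonneg (Real.exp_pos _).le hδ
  rw [mul_comm (mean J h _ - δ), ← mul_assoc, h2, one_mul] at h3
  linarith

/-- A small defect bounds the total variation distance at logarithmic times. -/
theorem tv_of_defect {n : ℕ} {β : ℝ} {g : Edge n → ℝ} {C δ : ℝ} (hC : 0 < C) (hδ : 0 ≤ δ)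
    (hδ' : δ ≤ 1 / 64)
    (hT : ∀ f : (Fin n → Bool) → ℝ, (∀ x, 0 < f x) → mean (skMat n β g) 0 f = 1 →
      ent (skMat n β g) 0 f ≤ C * ∑ j, entAt (skMat n β g) 0 j f + δ)
    (x : Fin n → Bool) {t : ℝ} (ht : 0 ≤ t)
    (hsmall : Real.exp (-t / C) * Real.log (1 / weight (skMat n β g) 0 x) ≤ 1 / 64) :
    tvDist n β g t x ≤ 1 / 4 := by
  set J := skMat n β g with hJdef
  have hJ : IsCoupling J := isCoupling_skMat n β g
  rw [tvDist_skMat, ← hJdef]
  set P := NormedSpace.exp (t • lapMat J 0) with hP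
  set D := ∑ y, |P x y - weight J 0 y| with hD
  have hw := weight_pos (J := J) 0 x
  set w := weight J 0 x with hwdef
  set L := Real.log (1 / w) with hL
  set e : ℝ := 1 / 10
  set u : (Fin n → Bool) → ℝ := (1 - e) • Pi.single x w⁻¹ + e • fun _ => (1 : ℝ) with hu
  have huy : ∀ y, u y = (1 - e) * (if y = x then w⁻¹ else 0) + e := fun y => by
    simp [hu, Pi.single_apply]
  have hup : ∀ y, 0 < u y := fun y => by
    rw [huy]
    exact add_pos_of_nonneg_of_pos (mul_nonneg (by norm_num [e]) (by split_ifs <;> positivity))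
      (by norm_num [e])
  have hum : mean J 0 u = 1 := by
    rw [show u = fun y => _ from funext huy, mean_add, mean_const, mean_smul]
    simp [mean, ← hwdef, hw.ne']
  have hL0 : 0 ≤ L := Real.log_nonneg (by
    rw [le_div_iff₀ hw, one_mul, hwdef, ← sum_weight (J := J) 0]
    exact Finset.single_le_sum (fun y _ => (weight_pos 0 y).le) (mem_univ x))
  have hent : mean J 0 (fun y => phi (u y)) ≤ L := by
    refine le_trans (mean_le_mean 0 (g := fun y => (1 - e) * phi (if y = x then w⁻¹ else 0))
      fun y => ?_) ?_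
    · rw [huy]
      have := Real.convexOn_mul_log.2 (x := if y = x then w⁻¹ else 0)
        (by show (0 : ℝ) ≤ _; split_ifs <;> positivity) (y := 1)
        (show (1 : ℝ) ∈ Set.Ici 0 from zero_le_one' ℝ)
        (show (0 : ℝ) ≤ 1 - e by norm_num [e]) (show (0 : ℝ) ≤ e by norm_num [e]) (by ring)
      simpa [phi] using this
    · rw [mean_smul]
      have : mean J 0 (fun y => phi (if y = x then w⁻¹ else 0)) = L := by
        simp [mean, phi, hL, apply_ite, ← hwdef, hw.ne']
      rw [this]
      exact mul_le_of_le_one_left hL0 (by norm_num [e])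
  obtain ⟨z, -, hz⟩ := Finset.exists_min_image Finset.univ u Finset.univ_nonempty
  have hpos : ∀ y, 0 < sg J 0 t u y := fun y =>
    (hup z).trans_le (Ent.sg_ge ht (fun w => hz w (Finset.mem_univ w)) y)
  have hft : ∀ y, sg J 0 t u y - 1 = (1 - e) * ((P x y - weight J 0 y) / weight J 0 y) := fun y => by
    have e' : (Pi.single x w⁻¹ : (Fin n → Bool) → ℝ) = w⁻¹ • Pi.single x 1 := by
      rw [← Pi.single_smul]; simp
    rw [hu, Ent.sg_add, Ent.sg_smul, Ent.sg_smul, Ent.sg_one, e', Ent.sg_smul]
    simp only [Pi.add_apply, Pi.smul_apply, smul_eq_mul, Ent.sg_single]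
    have hy := (weight_pos (J := J) 0 y).ne'
    have := Ent.weight_mul_exp_symm (h := 0) hJ t x y
    rw [hP]
    field_simp
    rw [hwdef] at *
    linear_combination (1 - e) * this
  have habs : mean J 0 (fun y => |sg J 0 t u y - 1|) = (1 - e) * D := by
    simp only [mean, hft, abs_mul, abs_div, abs_of_pos (show (0:ℝ) < 1 - e by norm_num [e]),
      abs_of_pos (weight_pos (J := J) 0 _), hD, Finset.mul_sum]
    exact Finset.sum_congr rfl fun y _ => by field_simp [(weight_pos (J := J) 0 y).ne']
  have hpin := Ent.pinsker hpos (by rw [Ent.mean_sg hJ, hum])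
  rw [habs] at hpin
  have hdec := entropy_decay_defect hJ hC hδ hT hup hum ht
  have hent' : Real.exp (-t / C) * mean J 0 (fun y => phi (u y)) ≤ 1 / 64 :=
    (mul_le_mul_of_nonneg_left hent (Real.exp_pos _).le).trans hsmall
  have hD0 : 0 ≤ D := Finset.sum_nonneg fun y _ => abs_nonneg _
  have : ((1 - e) * D) ^ 2 ≤ 1 / 16 := hpin.trans (by linarith)
  have h5 : (1 - e) * D ≤ 1 / 4 := by
    refine (pow_le_pow_iff_left₀ (mul_nonneg (by norm_num [e]) hD0) (by norm_num) two_ne_zero).1 ?_
    exact this.trans_eq (by norm_num)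
  norm_num [e] at h5
  linarith

end Vale.Agent.P150.Beyond
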