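import Vale.Agent.P150.Beyond.Interfaces

/-!
# P150 beyond one half: the square root of the shifted couplings
-/

open Finset Real Matrix

namespace Vale.Agent.P150.Beyond

variable {n : ℕ}

private theorem exists_diag_real (K : Matrix (Fin n) (Fin n) ℝ) (hK : K.IsSymm) :
    ∃ (U : Matrix (Fin n) (Fin n) ℝ) (e : Fin n → ℝ),
      Uᵀ * U = 1 ∧ U * Uᵀ = 1 ∧ K = U * diagonal e * Uᵀ := by
  have hH : K.IsHermitian := by
    rw [Matrix.IsHermitian, conjTranspose_eq_transpose_of_trivial]
    exact hK
  set U : Matrix (Fin n) (Fin n) ℝ := (hH.eigenvectorUnitary : Matrix (Fin n) (Fin n) ℝ) with hU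
  have h1 : Uᵀ * U = 1 := by
    have := (Matrix.mem_unitaryGroup_iff' (A := U)).1 hH.eigenvectorUnitary.2
    simpa [star_eq_conjTranspose, conjTranspose_eq_transpose_of_trivial] using this
  have h2 : U * Uᵀ = 1 := mul_eq_one_comm.1 h1
  refine ⟨U, hH.eigenvalues, h1, h2, ?_⟩
  have := hH.spectral_theorem
  rw [Unitary.conjStarAlgAut_apply] at this
  simpa [star_eq_conjTranspose, conjTranspose_eq_transpose_of_trivial, hU] using this

private theorem sum_sq_mulVec {U : Matrix (Fin n) (Fin n) ℝ} (h : Uᵀ * U = 1) (x : Fin n → ℝ) :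
    ∑ i, (U *ᵥ x) i ^ 2 = ∑ i, x i ^ 2 := by
  have e : ∀ y : Fin n → ℝ, ∑ i, y i ^ 2 = y ⬝ᵥ y := fun y => by simp [dotProduct, sq]
  rw [e, e, dotProduct_mulVec, ← mulVec_transpose, mulVec_mulVec, h, one_mulVec]

/-- (Root) holds. -/
theorem rootExists : RootExists := by
  intro n K c L hK hL hLc hop
  have hc : 0 < c := hL.trans hLc
  obtain ⟨U, e, h1, h2, hd⟩ :=
    exists_diag_real (Matrix.of K) (Matrix.IsSymm.ext fun i j => hK j i)
  have he : ∀ l, |e l| ≤ L := by
    intro l
    have hUl : ∑ i, U i l ^ 2 = 1 := by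
      have := congrFun (congrFun h1 l) l
      simpa [Matrix.mul_apply, sq] using this
    have hel : ∑ i, ∑ j, K i j * U i l * U j l = e l := by
      have h3 : Uᵀ * Matrix.of K * U = diagonal e := by
        rw [hd]
        simp only [Matrix.mul_assoc, h1, Matrix.mul_one]
        rw [← Matrix.mul_assoc, h1, Matrix.one_mul]
      have := congrFun (congrFun h3 l) l
      simp only [Matrix.mul_apply, transpose_apply, diagonal_apply_eq, Finset.sum_mul,
        of_apply] at this
      rw [← this, Finset.sum_comm]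
      exact Finset.sum_congr rfl fun i _ => Finset.sum_congr rfl fun j _ => by ring
    have := hop fun i => U i l
    rwa [hel, hUl, mul_one] at this
  set s : Fin n → ℝ := fun l => √(e l + c) with hs
  set A : Matrix (Fin n) (Fin n) ℝ := U * diagonal s * Uᵀ with hA
  have hpos : ∀ l, 0 ≤ e l + c := fun l => by linarith [(abs_le.1 (he l)).1]
  have hgram : A * Aᵀ = Matrix.of K + c • (1 : Matrix (Fin n) (Fin n) ℝ) := by
    have hss : diagonal s * diagonal s =
        diagonal e + c • (1 : Matrix (Fin n) (Fin n) ℝ) := by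
      rw [diagonal_mul_diagonal, ← diagonal_one, ← diagonal_smul, diagonal_add]
      congr 1
      funext l
      simp [hs, Real.mul_self_sqrt (hpos l)]
    calc A * Aᵀ = U * diagonal s * (Uᵀ * U) * diagonal s * Uᵀ := by
          simp only [hA, transpose_mul, transpose_transpose, diagonal_transpose,
            Matrix.mul_assoc]
      _ = U * (diagonal s * diagonal s) * Uᵀ := by
          rw [h1, Matrix.mul_one]
          simp only [Matrix.mul_assoc]
      _ = Matrix.of K + c • (1 : Matrix (Fin n) (Fin n) ℝ) := by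
          rw [hss, hd]
          simp [Matrix.mul_add, Matrix.add_mul, h2]
  refine ⟨A, ⟨fun i j => ?_, fun v => ?_⟩⟩
  · have := congrFun (congrFun hgram i) j
    simp only [Matrix.mul_apply, transpose_apply, Matrix.add_apply, of_apply, Matrix.smul_apply,
      Matrix.one_apply, smul_eq_mul, mul_ite, mul_one, mul_zero] at this
    exact this
  · set d : Fin n → ℝ := fun l => s l - √c with hdd
    have hdiag : diagonal d = diagonal s - √c • (1 : Matrix (Fin n) (Fin n) ℝ) := by
      rw [← diagonal_one, ← diagonal_smul, diagonal_sub]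
      congr 1
      funext l
      simp [hdd]
    have hsub : A *ᵥ v - √c • v = U *ᵥ (diagonal d *ᵥ (Uᵀ *ᵥ v)) := by
      rw [mulVec_mulVec, mulVec_mulVec, hdiag, hA]
      simp [Matrix.mul_sub, Matrix.sub_mul, h2, sub_mulVec, Matrix.smul_mulVec, Matrix.mul_assoc]
    have hUt : Uᵀᵀ * Uᵀ = 1 := by rw [transpose_transpose, h2]
    calc ∑ i, ((∑ k, A i k * v k) - √c * v i) ^ 2
        = ∑ i, (A *ᵥ v - √c • v) i ^ 2 := by simp [mulVec, dotProduct]
      _ = ∑ l, (d l * (Uᵀ *ᵥ v) l) ^ 2 := by
          rw [hsub, sum_sq_mulVec h1]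
          simp [mulVec_diagonal]
      _ ≤ ∑ l, L ^ 2 / c * (Uᵀ *ᵥ v) l ^ 2 := by
          refine Finset.sum_le_sum fun l _ => ?_
          rw [mul_pow]
          refine mul_le_mul_of_nonneg_right ?_ (sq_nonneg _)
          rw [le_div_iff₀ hc]
          have h0 : 0 ≤ s l := Real.sqrt_nonneg _
          have hsq : s l ^ 2 = e l + c := Real.sq_sqrt (hpos l)
          have hcq : √c ^ 2 = c := Real.sq_sqrt hc.le
          have hmul : d l * (s l + √c) = e l := by
            simp only [hdd]
            nlinarith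
          calc d l ^ 2 * c ≤ d l ^ 2 * (s l + √c) ^ 2 := by
                refine mul_le_mul_of_nonneg_left ?_ (sq_nonneg _)
                nlinarith [Real.sqrt_nonneg c]
            _ = e l ^ 2 := by rw [← mul_pow, hmul]
            _ ≤ L ^ 2 := by
                rw [← sq_abs (e l)]
                exact pow_le_pow_left₀ (abs_nonneg _) (he l) 2
      _ = L ^ 2 / c * ∑ i, v i ^ 2 := by rw [← Finset.mul_sum, sum_sq_mulVec hUt]

end Vale.Agent.P150.Beyond
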