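import Vale.Agent.P150.Beyond.Defs
import Vale.Agent.P150.Fast.Coupling

/-!
# P150 beyond one half: the squared couplings as a quadratic form

The trace of the fourth power of the centred squares has mean of order `1 / n`.
-/

open Finset MeasureTheory ProbabilityTheory Real Filter Topology

namespace Vale.Agent.P150.Beyond

open Vale.Agent.P150.Fast

variable {n : ℕ}

/-- The centred square of a standard normal. -/
noncomputable def sqc (x : ℝ) : ℝ := x ^ 2 - 1

theorem integrable_sqc_four : Integrable (fun x => sqc x ^ 4) std := by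
  refine Integrable.mono' ((exp_sq_std (s := 1 / 4) (by norm_num)).1.const_mul 10000)
    (by unfold sqc; fun_prop) (Eventually.of_forall fun x => ?_)
  rw [Real.norm_of_nonneg (by positivity), sqc]
  have h := Real.pow_div_factorial_le_exp (x ^ 2 / 4) (by positivity) 4
  have h1 : 1 ≤ exp (x ^ 2 / 4) := one_le_exp (by positivity)
  norm_num [Nat.factorial] at h
  have h2 : (x ^ 2 - 1) ^ 4 ≤ (x ^ 2) ^ 4 + 1 := by
    rcases le_total 1 (x ^ 2) with hx | hx
    · linarith [pow_le_pow_left₀ (sub_nonneg.2 hx) (by linarith : x ^ 2 - 1 ≤ x ^ 2) 4]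
    · have hy := pow_le_pow_left₀ (sub_nonneg.2 hx) (by nlinarith [sq_nonneg x] : 1 - x ^ 2 ≤ 1) 4
      linarith [show (x ^ 2 - 1) ^ 4 = (1 - x ^ 2) ^ 4 by ring, pow_nonneg (sq_nonneg x) 4]
  rw [show (1 : ℝ) / 4 * x ^ 2 = x ^ 2 / 4 by ring]
  nlinarith

theorem integral_sqc : ∫ x, sqc x ∂std = 0 := by
  have h := variance_id_gaussianReal (μ := 0) (v := 1)
  rw [variance_eq_sub (memLp_id_gaussianReal' 2 (by norm_num))] at h
  have hi : Integrable (fun x : ℝ => x ^ 2) std := (memLp_id_gaussianReal' 2 (by norm_num)).integrable_sq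
  simp only [id_eq, Pi.pow_apply, integral_id_gaussianReal, NNReal.coe_one] at h
  simp only [sqc]
  rw [integral_sub hi (integrable_const _)]
  simp [std] at h ⊢
  linarith

theorem integral_coord {κ : Type*} [Fintype κ] (p : κ) {φ : ℝ → ℝ}
    (hφ : AEStronglyMeasurable φ std) : ∫ g, φ (g p) ∂stdPi κ = ∫ x, φ x ∂std := by
  rw [← (measurePreserving_coord p).map_eq] at hφ
  rw [← integral_map (f := φ) (measurePreserving_coord p).measurable.aemeasurable hφ,
    (measurePreserving_coord p).map_eq]

theorem integral_coord_factor {κ : Type*} [Fintype κ] [DecidableEq κ] (p : κ) (φ : ℝ → ℝ)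
    (R : (κ → ℝ) → ℝ) (hi : Integrable (fun g => φ (g p) * R g) (stdPi κ))
    (hR : ∀ g x, R (Function.update g p x) = R g) :
    ∫ g, φ (g p) * R g ∂stdPi κ = (∫ x, φ x ∂std) * ∫ g, R g ∂stdPi κ := by
  have hu := measurePreserving_update (κ := κ) p
  conv_lhs => rw [← hu.map_eq]
  rw [integral_map hu.measurable.aemeasurable (by rw [hu.map_eq]; exact hi.1),
    integral_prod (fun z : (κ → ℝ) × ℝ => φ (Function.update z.1 p z.2 p) * R (Function.update z.1 p z.2))
      (hu.integrable_comp_of_integrable hi)]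
  simp only [Function.update_self, hR, integral_mul_const, integral_const_mul]

/-- The centred squares, with zero diagonal. -/
noncomputable def qent (g : Edge n → ℝ) (i j : Fin n) : ℝ :=
  if h : j = i then 0 else sqc (g (edgeOf i j (by exact h))) / n

theorem qent_self (g : Edge n → ℝ) (i : Fin n) : qent g i i = 0 := by simp [qent]

theorem qent_symm (g : Edge n → ℝ) (i j : Fin n) : qent g i j = qent g j i := by
  by_cases h : j = i
  · rw [h]
  · rw [qent, qent, dif_neg h, dif_neg (Ne.symm h), ← gmat_edgeOf g i j h,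
      ← gmat_edgeOf g j i (Ne.symm h), gmat_symm]

theorem edgeOf_ne {i k a b : Fin n} (hk : k ≠ i) (hb : b ≠ a)
    (h : ¬((a = i ∧ b = k) ∨ (a = k ∧ b = i))) : edgeOf a b hb ≠ edgeOf i k hk := by
  intro e
  apply h
  unfold edgeOf at e
  split_ifs at e <;> simp only [Subtype.mk.injEq, Prod.mk.injEq] at e <;> tauto

theorem qent_update (g : Edge n → ℝ) {i k : Fin n} (hk : k ≠ i) (a b : Fin n)
    (h : ¬((a = i ∧ b = k) ∨ (a = k ∧ b = i))) (x : ℝ) :
    qent (Function.update g (edgeOf i k hk) x) a b = qent g a b := by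
  unfold qent
  split_ifs with hb
  · rfl
  · rw [Function.update_of_ne (edgeOf_ne hk hb h)]

theorem skMat_sq_eq (g : Edge n → ℝ) (i j : Fin n) :
    skMat n 1 g i j ^ 2 = qent g i j + if j = i then 0 else 1 / (n : ℝ) := by
  by_cases h : j = i
  · subst h; simp [skMat, qent]
  · rw [if_neg h, qent, dif_neg h, skMat_eq, gmat_edgeOf g i j h, sqc, mul_pow, div_pow, one_pow,
      sq_sqrt (Nat.cast_nonneg n)]
    ring

/-- The trace of the fourth power. -/
noncomputable def qfour (g : Edge n → ℝ) : ℝ := ∑ i, ∑ j, (∑ k, qent g i k * qent g k j) ^ 2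

theorem qent_form_le (g : Edge n → ℝ) (a : Fin n → ℝ) :
    (∑ i, ∑ j, qent g i j * a i * a j) ^ 4 ≤ (∑ i, a i ^ 2) ^ 4 * qfour g := by
  set w : Fin n → ℝ := fun i => ∑ j, qent g i j * a j with hw
  set r : Fin n → ℝ := fun i => ∑ j, (∑ k, qent g i k * qent g k j) * a j with hr
  set S := ∑ i, a i ^ 2
  have hS : 0 ≤ S := Finset.sum_nonneg fun i _ => sq_nonneg _
  have e : ∑ i, ∑ j, qent g i j * a i * a j = ∑ i, a i * w i :=
    Finset.sum_congr rfl fun i _ => by
      rw [hw, Finset.mul_sum]; exact Finset.sum_congr rfl fun j _ => by ring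
  have e2 : ∑ i, w i ^ 2 = ∑ i, a i * r i := by
    simp only [hw, hr, sq, Finset.sum_mul_sum, Finset.mul_sum, Finset.sum_mul]
    rw [Finset.sum_comm]
    refine Finset.sum_congr rfl fun i _ => ?_
    rw [Finset.sum_comm]
    refine Finset.sum_congr rfl fun j _ => Finset.sum_congr rfl fun k _ => ?_
    rw [qent_symm g k i]
    ring
  have h1 : (∑ i, a i * w i) ^ 2 ≤ S * ∑ i, w i ^ 2 := Finset.sum_mul_sq_le_sq_mul_sq _ _ _
  have h2 : (∑ i, a i * r i) ^ 2 ≤ S * ∑ i, r i ^ 2 := Finset.sum_mul_sq_le_sq_mul_sq _ _ _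
  have h3 : ∑ i, r i ^ 2 ≤ qfour g * S := by
    rw [qfour, Finset.sum_mul]
    exact Finset.sum_le_sum fun i _ => Finset.sum_mul_sq_le_sq_mul_sq _ _ _
  rw [e]
  calc (∑ i, a i * w i) ^ 4 = ((∑ i, a i * w i) ^ 2) ^ 2 := by ring
    _ ≤ (S * ∑ i, w i ^ 2) ^ 2 := pow_le_pow_left₀ (sq_nonneg _) h1 2
    _ = S ^ 2 * (∑ i, a i * r i) ^ 2 := by rw [e2]; ring
    _ ≤ S ^ 2 * (S * (qfour g * S)) := by
        gcongr
        exact h2.trans (mul_le_mul_of_nonneg_left h3 hS)
    _ = S ^ 4 * qfour g := by ring

theorem integrable_qent_four (i j : Fin n) :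
    Integrable (fun g => qent g i j ^ 4) (stdPi (Edge n)) := by
  by_cases h : j = i
  · simp [qent, h]
  · simp only [qent, dif_neg h, div_pow]
    exact ((measurePreserving_coord _).integrable_comp_of_integrable integrable_sqc_four).div_const _

theorem measurable_qent (i j : Fin n) : Measurable fun g : Edge n → ℝ => qent g i j := by
  by_cases h : j = i
  · simp [qent, h]
  · simp only [qent, dif_neg h, sqc]
    fun_prop

theorem integrable_qent_prod (i j k l a b c d : Fin n) :
    Integrable (fun g => qent g i j * (qent g k l * (qent g a b * qent g c d))) (stdPi (Edge n)) := by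
  refine Integrable.mono' ((integrable_qent_four i j).add ((integrable_qent_four k l).add
    ((integrable_qent_four a b).add (integrable_qent_four c d))))
    ((measurable_qent i j).mul ((measurable_qent k l).mul
      ((measurable_qent a b).mul (measurable_qent c d)))).aestronglyMeasurable
    (Eventually.of_forall fun g => ?_)
  simp only [Pi.add_apply, Real.norm_eq_abs]
  generalize qent g i j = p
  generalize qent g k l = q
  generalize qent g a b = r
  generalize qent g c d = s
  rw [abs_le]
  constructor <;>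
    nlinarith [sq_nonneg (p * q - r * s), sq_nonneg (p * q + r * s), sq_nonneg (p ^ 2 - q ^ 2),
      sq_nonneg (r ^ 2 - s ^ 2), sq_nonneg (p ^ 2), sq_nonneg (q ^ 2), sq_nonneg (r ^ 2),
      sq_nonneg (s ^ 2)]

theorem cross_zero {i j k l : Fin n} (hij : i ≠ j) (hkl : k ≠ l) :
    ∫ g, qent g i k * (qent g k j * (qent g i l * qent g l j)) ∂stdPi (Edge n) = 0 := by
  by_cases hki : k = i
  · simp [hki, qent_self]
  by_cases hkj : k = j
  · simp [hkj, qent_self]
  by_cases hli : l = i
  · simp [hli, qent_self]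
  by_cases hlj : l = j
  · simp [hlj, qent_self]
  have e : ∀ g, qent g i k * (qent g k j * (qent g i l * qent g l j))
      = sqc (g (edgeOf i k hki)) * ((qent g k j * (qent g i l * qent g l j)) / n) := fun g => by
    rw [show qent g i k = sqc (g (edgeOf i k hki)) / n from dif_neg hki]
    ring
  simp only [e]
  rw [integral_coord_factor (edgeOf i k hki) sqc
    (fun g => (qent g k j * (qent g i l * qent g l j)) / n)
    ((integrable_qent_prod i k k j i l l j).congr (Eventually.of_forall e)) fun g x => ?_,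
    integral_sqc, zero_mul]
  rw [qent_update g hki k j (by tauto), qent_update g hki i l (by tauto),
    qent_update g hki l j (by tauto)]

theorem square_term {i j k : Fin n} (hij : i ≠ j) :
    ∫ g, qent g i k * (qent g k j * (qent g i k * qent g k j)) ∂stdPi (Edge n)
      ≤ (∫ x, sqc x ^ 2 ∂std) ^ 2 / (n : ℝ) ^ 4 := by
  by_cases hki : k = i
  · simp [hki, qent_self]; positivity
  by_cases hkj : k = j
  · simp [hkj, qent_self]; positivity
  have e : ∀ g, qent g i k * (qent g k j * (qent g i k * qent g k j))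
      = sqc (g (edgeOf i k hki)) ^ 2 * (qent g k j ^ 2 / (n : ℝ) ^ 2) := fun g => by
    rw [show qent g i k = sqc (g (edgeOf i k hki)) / n from dif_neg hki]
    ring
  simp only [e]
  rw [integral_coord_factor (edgeOf i k hki) (fun x => sqc x ^ 2)
    (fun g => qent g k j ^ 2 / (n : ℝ) ^ 2)
    ((integrable_qent_prod i k k j i k k j).congr (Eventually.of_forall e)) fun g x => ?_]
  · refine le_of_eq ?_
    have hjk : j ≠ k := Ne.symm hkj
    simp only [qent, dif_neg hjk, div_pow, integral_div]
    rw [integral_coord (φ := fun x => sqc x ^ 2) _ (by unfold sqc; fun_prop)]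
    ring
  · rw [qent_update g hki k j (by tauto)]

theorem integral_qfour (n : ℕ) :
    Integrable (qfour (n := n)) (stdPi (Edge n)) ∧ ∫ g, qfour g ∂stdPi (Edge n) ≤
      ((∫ x, sqc x ^ 2 ∂std) ^ 2 + ∫ x, sqc x ^ 4 ∂std) / n := by
  set v := ∫ x, sqc x ^ 2 ∂std
  set C := ∫ x, sqc x ^ 4 ∂std
  have hC : 0 ≤ C := integral_nonneg fun x => by positivity
  have e : ∀ g : Edge n → ℝ, qfour g
      = ∑ i, ∑ j, ∑ k, ∑ l, qent g i k * (qent g k j * (qent g i l * qent g l j)) := fun g => by
    simp only [qfour, sq, Finset.sum_mul_sum]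
    exact Finset.sum_congr rfl fun i _ => Finset.sum_congr rfl fun j _ =>
      Finset.sum_congr rfl fun k _ => Finset.sum_congr rfl fun l _ => by ring
  have hi := fun i j k l : Fin n => integrable_qent_prod i k k j i l l j
  have hi4 : Integrable (qfour (n := n)) (stdPi (Edge n)) := by
    rw [funext e]
    exact integrable_finsetSum _ fun i _ => integrable_finsetSum _ fun j _ =>
      integrable_finsetSum _ fun k _ => integrable_finsetSum _ fun l _ => hi i j k l
  refine ⟨hi4, ?_⟩
  rcases Nat.eq_zero_or_pos n with rfl | hn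
  · simp [qfour]
  have hn' : (0 : ℝ) < n := by exact_mod_cast hn
  simp only [e]
  rw [integral_finsetSum _ fun i _ => integrable_finsetSum _ fun j _ =>
    integrable_finsetSum _ fun k _ => integrable_finsetSum _ fun l _ => hi i j k l]
  have hrow : ∀ i : Fin n,
      ∫ g, ∑ j, ∑ k, ∑ l, qent g i k * (qent g k j * (qent g i l * qent g l j)) ∂stdPi (Edge n)
        ≤ (v ^ 2 + C) / (n : ℝ) ^ 2 := by
    intro i
    rw [integral_finsetSum _ fun j _ => integrable_finsetSum _ fun k _ =>
      integrable_finsetSum _ fun l _ => hi i j k l, ← Finset.add_sum_erase _ _ (Finset.mem_univ i)]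
    have hdiag : ∫ g, ∑ k, ∑ l, qent g i k * (qent g k i * (qent g i l * qent g l i)) ∂stdPi (Edge n)
        ≤ C / (n : ℝ) ^ 2 := by
      refine (integral_mono (g := fun g => (n : ℝ) * ∑ k, qent g i k ^ 4)
        (integrable_finsetSum _ fun k _ => integrable_finsetSum _ fun l _ => hi i i k l)
        ((integrable_finsetSum _ fun k _ => integrable_qent_four i k).const_mul _) fun g => ?_).trans ?_
      · have h := Finset.sum_mul_sq_le_sq_mul_sq (univ : Finset (Fin n)) (fun _ => (1 : ℝ))
          (fun k => qent g i k ^ 2)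
        simp only [one_mul, one_pow, Finset.sum_const, Finset.card_univ, Fintype.card_fin,
          nsmul_eq_mul, mul_one, ← pow_mul] at h
        refine le_of_eq_of_le ?_ h
        rw [sq, Finset.sum_mul_sum]
        exact Finset.sum_congr rfl fun k _ => Finset.sum_congr rfl fun l _ => by
          rw [qent_symm g k i, qent_symm g l i]; ring
      · rw [integral_const_mul, integral_finsetSum _ fun k _ => integrable_qent_four i k]
        have hk : ∀ k, ∫ g, qent g i k ^ 4 ∂stdPi (Edge n) ≤ C / (n : ℝ) ^ 4 := fun k => by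
          by_cases h : k = i
          · simp [qent, h]; positivity
          · simp only [qent, dif_neg h, div_pow, integral_div]
            rw [integral_coord (φ := fun x => sqc x ^ 4) _ integrable_sqc_four.1]
        refine (mul_le_mul_of_nonneg_left (Finset.sum_le_sum fun k _ => hk k) hn'.le).trans
          (le_of_eq ?_)
        simp
        field_simp
    have hoff : ∀ j ∈ (univ : Finset (Fin n)).erase i,
        ∫ g, ∑ k, ∑ l, qent g i k * (qent g k j * (qent g i l * qent g l j)) ∂stdPi (Edge n)
          ≤ v ^ 2 / (n : ℝ) ^ 3 := by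
      intro j hj
      have hij : i ≠ j := (Finset.ne_of_mem_erase hj).symm
      rw [integral_finsetSum _ fun k _ => integrable_finsetSum _ fun l _ => hi i j k l]
      refine (Finset.sum_le_sum fun k _ => (?_ : _ ≤ v ^ 2 / (n : ℝ) ^ 4)).trans (le_of_eq ?_)
      · rw [integral_finsetSum _ fun l _ => hi i j k l,
          Finset.sum_eq_single k (fun l _ hl => cross_zero hij (Ne.symm hl)) (by simp)]
        exact square_term hij
      · simp
        field_simp
    refine (add_le_add hdiag (Finset.sum_le_card_nsmul _ _ _ hoff)).trans ?_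
    rw [nsmul_eq_mul, add_comm, add_div]
    refine add_le_add_left ?_ _
    calc (((univ : Finset (Fin n)).erase i).card : ℝ) * (v ^ 2 / (n : ℝ) ^ 3)
        ≤ n * (v ^ 2 / (n : ℝ) ^ 3) := by
          refine mul_le_mul_of_nonneg_right ?_ (by positivity)
          exact_mod_cast (Finset.card_erase_le).trans (by simp)
      _ = _ := by field_simp
  refine (Finset.sum_le_sum fun i _ => hrow i).trans (le_of_eq ?_)
  simp
  field_simp

/-- (Squares). -/
theorem squareBound : SquareBound := by
  intro ε hε η hη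
  set K := (∫ x, sqc x ^ 2 ∂std) ^ 2 + ∫ x, sqc x ^ 4 ∂std
  refine ⟨⌈K / (ε ^ 4 * η)⌉₊ + 1, fun n hn => ?_⟩
  obtain ⟨hi, hb⟩ := integral_qfour n
  have hn' : K / (ε ^ 4 * η) < n := (Nat.le_ceil _).trans_lt (by exact_mod_cast hn)
  have hn0 : (0 : ℝ) < n := by exact_mod_cast (by omega : 0 < n)
  set G := {g : Edge n → ℝ | qfour g < ε ^ 4}
  have hq : Measurable (qfour (n := n)) := by
    unfold qfour
    exact Finset.measurable_sum _ fun i _ => Finset.measurable_sum _ fun j _ =>
      (Finset.measurable_sum _ fun k _ => (measurable_qent i k).mul (measurable_qent k j)).pow_const 2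
  have hGm : MeasurableSet G := measurableSet_lt hq measurable_const
  have hbad : (stdPi (Edge n)).real Gᶜ ≤ η := by
    have hm := mul_meas_ge_le_integral_of_nonneg (Eventually.of_forall fun g => by
      unfold qfour; positivity) hi (ε ^ 4)
    have he : Gᶜ = {g : Edge n → ℝ | ε ^ 4 ≤ qfour g} := by ext g; simp [G]
    rw [he]
    have h2 : K / n ≤ ε ^ 4 * η := by
      rw [div_le_iff₀ hn0]
      rw [div_lt_iff₀ (by positivity)] at hn'
      linarith
    exact le_of_mul_le_mul_left ((hm.trans hb).trans h2) (by positivity)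
  refine le_trans ?_ (measure_mono (μ := disorder n) (s := G) fun g hg a => ?_)
  · change _ ≤ stdPi (Edge n) G
    rw [← ofReal_measureReal (measure_ne_top _ _)]
    refine ENNReal.ofReal_le_ofReal ?_
    rw [measureReal_compl hGm, probReal_univ] at hbad
    linarith
  · simp only [skMat_sq_eq, add_mul, Finset.sum_add_distrib]
    set S := ∑ i, a i ^ 2
    have hS : 0 ≤ S := Finset.sum_nonneg fun i _ => sq_nonneg _
    have h1 : ∑ i, ∑ j, qent g i j * a i * a j ≤ ε * S := by
      refine le_trans (le_abs_self _) ((pow_le_pow_iff_left₀ (abs_nonneg _) (by positivity)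
        (by norm_num : 4 ≠ 0)).1 ?_)
      rw [show |∑ i, ∑ j, qent g i j * a i * a j| ^ 4 = (∑ i, ∑ j, qent g i j * a i * a j) ^ 4 from
        Even.pow_abs ⟨2, rfl⟩ _, mul_pow, mul_comm (ε ^ 4)]
      exact (qent_form_le g a).trans (mul_le_mul_of_nonneg_left (le_of_lt hg) (by positivity))
    have h2 : ∑ i, ∑ j, (if j = i then 0 else 1 / (n : ℝ)) * a i * a j
        = ((∑ i, a i) ^ 2 - S) / n := by
      simp only [S, sq, Finset.sum_mul_sum, ← Finset.sum_sub_distrib, Finset.sum_div]
      refine Finset.sum_congr rfl fun i _ => ?_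
      rw [sub_div, ← Finset.add_sum_erase _ _ (Finset.mem_univ i), if_pos rfl, zero_mul, zero_mul,
        zero_add, Finset.sum_div, ← Finset.add_sum_erase _ (fun j => a i * a j / (n : ℝ)) (Finset.mem_univ i),
        add_sub_cancel_left]
      exact Finset.sum_congr rfl fun j hj => by rw [if_neg (Finset.ne_of_mem_erase hj)]; ring
    rw [h2]
    have : ((∑ i, a i) ^ 2 - S) / n ≤ (∑ i, a i) ^ 2 / n :=
      div_le_div_of_nonneg_right (by linarith) hn0.le
    linarith

end Vale.Agent.P150.Beyond
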