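import Vale.Agent.P150.Beyond.Chain
import Vale.Agent.P150.Beyond.Events
import Vale.Agent.P150.Beyond.Mix
import Vale.Agent.P150.Beyond.Root
import Vale.Agent.P150.Beyond.Squares
import Vale.Agent.P150.Beyond.Stability.Main
import Vale.Agent.P150.Beyond.Planted.Main

/-!
# P150 beyond one half: assembly
-/

open Finset MeasureTheory Real Filter Topology
open Vale.Agent.P150.Fast
open Vale.Agent.P150.Fast.Ent (ent entAt)

namespace Vale.Agent.P150.Beyond

/-- A failure at margin `γ₀` is one at every smaller margin's complement. -/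
theorem CritFails.mono {n : ℕ} {θ γ γ₀ : ℝ} (hγ : γ ≤ γ₀) {M : Fin n → Fin n → ℝ} {h : Fin n → ℝ}
    (hf : CritFails θ γ M h) : CritFails θ γ₀ M h := by
  obtain ⟨u, hu⟩ := hf
  exact ⟨u, lt_of_le_of_lt (mul_le_mul_of_nonneg_right (by linarith)
    (Finset.sum_nonneg fun i _ => mul_nonneg (sq_nonneg _) (sq_nonneg _))) hu⟩

/-- The gap from a Poincaré inequality at zero field. -/
theorem gap_ge {n : ℕ} (hn : 0 < n) {β c : ℝ} {g : Edge n → ℝ}
    (hP : ∀ f, c * var (skMat n β g) 0 f ≤ ∑ i, site (skMat n β g) 0 i f) : c ≤ gap n β g := by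
  haveI : Nonempty {f : (Fin n → Bool) → ℝ // 0 < gibbsVar n β g f} :=
    ⟨⟨linStat (Pi.single ⟨0, hn⟩ 1), by
      rw [(gibbsVar_spin (β := β) (g := g) ⟨0, hn⟩).1]; exact one_pos⟩⟩
  refine le_ciInf fun f => ?_
  rw [le_div_iff₀ f.2, gibbsVar_skMat, dirichlet_skMat]
  exact hP f.1

/-- The constants that do not depend on the disorder. -/
structure Params (ε r cS CB : ℝ) (γ κ ε₁ c L α τ s εS : ℝ) : Prop where
  consts : GoodConsts γ (ε / 4) (Real.exp (14 / cS) * CB)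
    (Real.exp (14 / cS) * (7 / cS + 1) * εS) r (64 * c ^ 2) κ ε₁ L α
  pos_τ : 0 < τ
  τ_le : τ ≤ 1 / 20
  τ_γ : 8020 * τ ≤ γ / 4
  pos_s : 0 < s
  s_γ : s * (2 / γ) ≤ 1
  s_ε : 4 * s ^ 2 ≤ ε₁
  pos_εS : 0 < εS
  three_lt_c : 3 < c
  c_ε : 54 / c ≤ ε / 2
  small : Real.exp (2 * ((c + 3) * (2 / s + 1 / cS))) * ((c + 3) / cS * εS / (r / 2)) ≤ 1 / 1024

theorem exists_params {γ₀ ε r cS CB : ℝ} (hγ₀ : 0 < γ₀) (hε : 0 < ε) (hr : 0 < r) (hcS : 0 < cS)
    (hCB : 0 < CB) :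
    ∃ γ κ ε₁ c L α τ s εS : ℝ, γ ≤ γ₀ ∧ Params ε r cS CB γ κ ε₁ c L α τ s εS := by
  set γ := min γ₀ 1 with hγdef
  have hγ : 0 < γ := lt_min hγ₀ one_pos
  set κ := ε / 2000 with hκdef
  set ε₁ := min (ε / 32) ((r / 4) ^ 2) with hε₁def
  have hε₁ : 0 < ε₁ := lt_min (by positivity) (by positivity)
  have hsq : √ε₁ ≤ r / 4 := by
    rw [Real.sqrt_le_left (by positivity)]
    exact min_le_right _ _
  set c := 108 / ε + 4 with hcdef
  have hc : 3 < c := by
    have : 0 < 108 / ε := by positivity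
    linarith
  set s := min (γ / 2) (√ε₁ / 2) with hsdef
  have hs : 0 < s := lt_min (by positivity) (by positivity)
  set C := Real.exp (14 / cS) * CB with hCdef
  have hC : 0 < C := mul_pos (Real.exp_pos _) hCB
  set Af := 2 * (2 * (64 * c ^ 2) + 2 * ε₁) + 18 with hAfdef
  have hAf : 0 < Af := by positivity
  set L := max 1 (24 * C * Af / r) with hLdef
  have hL1 : 1 ≤ L := le_max_left _ _
  set α := r / 4 / (C * (4 * Real.exp (2 * L))) with hαdef
  set W := Real.exp (14 / cS) * (7 / cS + 1) with hWdef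
  set V := Real.exp (2 * ((c + 3) * (2 / s + 1 / cS))) * ((c + 3) / cS / (r / 2)) with hVdef
  have hW : 0 < W := by positivity
  have hV : 0 < V := by
    have : 0 < c + 3 := by linarith
    positivity
  set εS := min (r / 8 / W) (1 / 1024 / V) with hεSdef
  have hεS : 0 < εS := lt_min (by positivity) (by positivity)
  refine ⟨γ, κ, ε₁, c, L, α, γ / 40000, s, εS, min_le_left _ _, ⟨⟨hγ, min_le_right _ _, hC,
    by positivity, by positivity, hε₁.le, hL1, ?_, ?_⟩, by positivity, ?_, by linarith, hs, ?_, ?_,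
    hεS, hc, ?_, ?_⟩⟩
  · have := min_le_left (ε / 32) ((r / 4) ^ 2)
    rw [hκdef]
    linarith
  · have h1 : 3 * C * Af / L ≤ r / 8 := by
      rw [div_le_iff₀ (by linarith)]
      have := (div_le_iff₀ hr).1 (le_max_right 1 (24 * C * Af / r))
      linarith
    have h2 : W * εS ≤ r / 8 := by
      have := (le_div_iff₀ hW).1 (min_le_left (r / 8 / W) (1 / 1024 / V))
      linarith
    have e : C * (4 * Real.exp (2 * L)) * α = r / 4 := by rw [hαdef]; field_simp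
    rw [e]
    linarith
  · have := min_le_right γ₀ 1
    linarith
  · rw [← le_div_iff₀ (by positivity), one_div_div]
    exact min_le_left _ _
  · have h1 : s ≤ √ε₁ / 2 := min_le_right _ _
    have h2 := pow_le_pow_left₀ hs.le h1 2
    rw [div_pow, Real.sq_sqrt hε₁.le] at h2
    linarith
  · have h1 : 108 / ε ≤ c := by linarith
    rw [div_le_iff₀ hε] at h1
    rw [div_le_iff₀ (by linarith)]
    linarith
  · have := (le_div_iff₀ hV).1 (min_le_right (r / 8 / W) (1 / 1024 / V))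
    refine le_trans (le_of_eq ?_) this
    rw [hVdef, hεSdef]
    ring

/-- The disorder event. -/
def goodEvent (n : ℕ) (β γ ε r c cS εS τ εb Kb : ℝ) (Kβ K1 K0 : ℝ) : Set (Edge n → ℝ) :=
  {g | (g ∈ coupSet n 1 τ K1 ∧ -g ∈ coupSet n 1 τ K1) ∧
    g ∈ coupSet n (49 / 100) εb K0 ∧ (g ∈ coupSet n β Kb Kβ ∧ -g ∈ coupSet n β Kb Kβ) ∧
    (∀ a : Fin n → ℝ,
      ∑ i, ∑ j, skMat n 1 g i j ^ 2 * a i * a j ≤ (∑ i, a i) ^ 2 / n + τ * ∑ i, a i ^ 2) ∧
    (∀ θ : ℝ, 0 ≤ θ → θ ≤ 3 / 5 → StableFields n θ g cS εS) ∧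
    ∀ k ≤ n ^ 4, ∀ t : ℝ, t = (β - 49 / 100) * k / (n : ℝ) ^ 4 →
      ∑ x, weight (skMat n β g) 0 x * (stdPi (Fin n)).real
        {z | ∃ w : Fin n → ℝ, ∑ i, w i ^ 2 ≤ ε * n ∧ CritFails (β - t) γ (skMat n 1 g)
          fun i => field (skMat n β g) 0 i x + t * c * spin (x i) + √(t * c) * z i + w i} ≤
        Real.exp (-r * n)}

/-- What holds for all large `n`. -/
structure Large (n : ℕ) (γ κ α c s cS r K0 : ℝ) : Prop where
  pos : 4097 ≤ n
  κn : 1 ≤ κ * n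
  αn : 100 ≤ α * n
  err : 6 / (α * n) * (200 + 2 / κ) ≤ γ / 4
  steps : 4 * ((c + 3) * n) ≤ (n : ℝ) ^ 4
  stepsK : 2 * ((c + 3) * (2 / s + 1 / cS)) ≤ (n : ℝ) ^ 4
  second : Real.exp (2 * ((c + 3) * (2 / s + 1 / cS))) * (144 * ((c + 3) * n) ^ 2 / (n : ℝ) ^ 4) ≤
    1 / 1024
  tail : 3 * Real.exp (-(r / 2 * n)) ≤ 1
  base : (16 * K0) ^ 4 * (2 / ((1 - 2 * (49 / 100)) / 8) + 1) ≤ n

theorem eventually_large {γ κ α c s cS r K0 : ℝ} (hγ : 0 < γ) (hκ : 0 < κ) (hα : 0 < α)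
    (hr : 0 < r) : ∀ᶠ n : ℕ in atTop, Large n γ κ α c s cS r K0 := by
  have hcast := tendsto_natCast_atTop_atTop (R := ℝ)
  set E := Real.exp (2 * ((c + 3) * (2 / s + 1 / cS)))
  set M := |4 * (c + 3)| + |2 * ((c + 3) * (2 / s + 1 / cS))| + |1024 * (E * (144 * (c + 3) ^ 2))| + 1
  filter_upwards [eventually_ge_atTop 4097, hcast.eventually_ge_atTop (1 / κ),
    hcast.eventually_ge_atTop (100 / α),
    hcast.eventually_ge_atTop (6 * (200 + 2 / κ) * 4 / (α * γ)), hcast.eventually_ge_atTop M,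
    hcast.eventually_ge_atTop (4 / r),
    hcast.eventually_ge_atTop ((16 * K0) ^ 4 * (2 / ((1 - 2 * (49 / 100)) / 8) + 1))]
    with n h1 h2 h3 h4 h5 h6 h7
  have hn : (1 : ℝ) ≤ n := by exact_mod_cast (show 1 ≤ n by omega)
  have hn0 : (0 : ℝ) < n := by linarith
  have hnn : (n : ℝ) ≤ (n : ℝ) ^ 2 := by nlinarith
  have hM1 : 4 * (c + 3) ≤ n := by
    linarith [le_abs_self (4 * (c + 3)), abs_nonneg (2 * ((c + 3) * (2 / s + 1 / cS))),
      abs_nonneg (1024 * (E * (144 * (c + 3) ^ 2)))]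
  have hM2 : 2 * ((c + 3) * (2 / s + 1 / cS)) ≤ n := by
    linarith [le_abs_self (2 * ((c + 3) * (2 / s + 1 / cS))), abs_nonneg (4 * (c + 3)),
      abs_nonneg (1024 * (E * (144 * (c + 3) ^ 2)))]
  have hM3 : 1024 * (E * (144 * (c + 3) ^ 2)) ≤ n := by
    linarith [le_abs_self (1024 * (E * (144 * (c + 3) ^ 2))), abs_nonneg (4 * (c + 3)),
      abs_nonneg (2 * ((c + 3) * (2 / s + 1 / cS)))]
  have h24 : (n : ℝ) ^ 2 ≤ (n : ℝ) ^ 4 := pow_le_pow_right₀ hn (by norm_num)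
  refine ⟨h1, (div_le_iff₀' hκ).1 h2, (div_le_iff₀' hα).1 h3, ?_, ?_, by linarith, ?_, ?_, h7⟩
  · rw [div_mul_eq_mul_div, div_le_iff₀ (by positivity)]
    have := (div_le_iff₀ (by positivity)).1 h4
    linarith
  · calc 4 * ((c + 3) * n) = 4 * (c + 3) * n := by ring
      _ ≤ n * n := mul_le_mul_of_nonneg_right hM1 hn0.le
      _ = (n : ℝ) ^ 2 := by ring
      _ ≤ _ := h24
  · rw [← mul_div_assoc, div_le_iff₀ (by positivity)]
    have h8 := mul_le_mul_of_nonneg_right (hM3.trans hnn) (sq_nonneg (n : ℝ))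
    have e4 : (n : ℝ) ^ 2 * (n : ℝ) ^ 2 = (n : ℝ) ^ 4 := by ring
    rw [e4] at h8
    linarith
  · have h9 : (2 : ℝ) ≤ r / 2 * n := by
      have := (div_le_iff₀ hr).1 h6
      linarith
    have h10 : Real.exp (-(r / 2 * n)) ≤ Real.exp (-2) := Real.exp_le_exp.2 (by linarith)
    have h11 : Real.exp (-2 : ℝ) ≤ 1 / 3 := by
      rw [Real.exp_neg, one_div]
      exact inv_anti₀ (by norm_num) (by linarith [Real.add_one_le_exp (2 : ℝ)])
    linarith

/-- The Poincaré inequality and the small defect on the good event. -/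
theorem of_good {n : ℕ} {β ε r₀ cS CB γ κ ε₁ c L α τ s εS εb Kb Kβ K1 K0 : ℝ} {g : Edge n → ℝ}
    (hP : Params ε r₀ cS CB γ κ ε₁ c L α τ s εS) (hcS : 0 < cS) (hCB : 0 < CB)
    (hεb : εb = (1 - 2 * (49 / 100)) / 800) (hK0 : 0 < K0)
    (hCBeq : CB = Real.exp (256 * K0 / ((1 - 2 * (49 / 100)) / 8)))
    (hβ0 : 1 / 2 ≤ β) (hβ1 : β ≤ 3 / 5) (hε : 0 < ε) {r : ℝ} (hr : 3 * r₀ ≤ r) (hr8 : 3 * r₀ ≤ 1 / 4)
    (hr₀ : 0 < r₀) (hL : Large n γ κ α c s cS r₀ K0)
    (hg : g ∈ goodEvent n β γ ε r c cS εS τ εb Kb Kβ K1 K0) :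
    γ / 2 ≤ gap n β g ∧
      ∀ f : (Fin n → Bool) → ℝ, (∀ x, 0 < f x) → mean (skMat n β g) 0 f = 1 →
        ent (skMat n β g) 0 f ≤
          2 * (Real.exp (2 * ((c + 3) * (2 / s + 1 / cS))) * CB) *
            ∑ j, entAt (skMat n β g) 0 j f + 1 / 128 := by
  classical
  obtain ⟨⟨hc1, hc1'⟩, hbase, -, hsq, hst, hmass⟩ := hg
  obtain ⟨hrows, hform⟩ := form_of_eff hP.pos_τ.le hP.τ_le hc1 hc1'
  have hR : Regular n g τ := ⟨hc1.1, hrows, hform, hsq⟩
  have hnpos : 0 < n := lt_of_lt_of_le (by norm_num) hL.pos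
  have hn : (0 : ℝ) < n := by exact_mod_cast hnpos
  have hb : ∀ (h : Fin n → ℝ) (f : (Fin n → Bool) → ℝ), (∀ x, 0 < f x) →
      ent (skMat n (49 / 100) g) h f ≤ CB * ∑ j, entAt (skMat n (49 / 100) g) h j f :=
    fun h f hf => by
      rw [hCBeq]
      exact base_lsi hK0 hL.base (hεb ▸ hbase) h hf
  have hD : ∀ θ : ℝ, 49 / 100 ≤ θ → θ ≤ 3 / 5 → ∀ h, DefectLSI (skMat n θ g) h
      (Real.exp (14 / cS) * CB) (Real.exp (14 / cS) * (7 / cS + 1) * εS * n) := fun θ h1 h2 h =>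
    defect_uniform rootExists hnpos hform hcS hP.pos_εS hCB.le hst hb h1 h2 h
  have herr : 8020 * τ + 6 / (α * n) * (200 + 2 / κ) ≤ γ / 2 := by linarith [hL.err, hP.τ_γ]
  have hε4 : ∀ k ≤ n ^ 4, ∀ t : ℝ, t = (β - 49 / 100) * k / ((n ^ 4 : ℕ) : ℝ) →
      ∑ x, weight (skMat n β g) 0 x * (stdPi (Fin n)).real
        {z | ∃ w : Fin n → ℝ, ∑ i, w i ^ 2 ≤ ε * n ∧ CritFails (β - t) γ (skMat n 1 g)
          fun i => field (skMat n β g) 0 i x + t * c * spin (x i) + √(t * c) * z i + w i} ≤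
        Real.exp (-r * n) := fun k hk t ht => hmass k hk t (by rw [ht]; push_cast; rfl)
  refine ⟨gap_ge hnpos fun f => ?_, fun f hf h1 => ?_⟩
  · have h0 := hε4 0 (Nat.zero_le _) 0 (by simp)
    have hm0 : mean (skMat n β g) 0
        (fun x => if x ∈ failSet β γ (ε / 4 * n) g 0 then 1 else 0) ≤ Real.exp (-(r₀ * n)) := by
      refine le_trans (Finset.sum_le_sum fun x _ => mul_le_mul_of_nonneg_left ?_
        (weight_pos (J := skMat n β g) 0 x).le)
        (h0.trans (Real.exp_le_exp.2 (by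
          have := mul_le_mul_of_nonneg_right (show r₀ ≤ r by linarith) hn.le
          linarith)))
      by_cases hx : x ∈ failSet β γ (ε / 4 * n) g 0
      · simp only [if_pos hx]
        obtain ⟨w, hw, hf⟩ := hx
        have he : {z : Fin n → ℝ | ∃ w : Fin n → ℝ, ∑ i, w i ^ 2 ≤ ε * n ∧
            CritFails (β - 0) γ (skMat n 1 g) fun i =>
              field (skMat n β g) 0 i x + 0 * c * spin (x i) + √(0 * c) * z i + w i} = Set.univ :=
          Set.eq_univ_of_forall fun z => ⟨w, hw.trans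
            (mul_le_mul_of_nonneg_right (by linarith) hn.le), by simpa using hf⟩
        rw [he, probReal_univ]
      · simp only [if_neg hx]
        exact measureReal_nonneg
    have h := poincare_near (θ := β) hP.consts hR hP.pos_τ.le hP.τ_le (by linarith) (by linarith)
      hL.κn hL.αn herr (hD β (by linarith) hβ1) (y := 0)
      (by simp; positivity) hm0 (w := 0) (by simpa using mul_nonneg hP.consts.nn_ε₁ hn.le) f
    have e : (fun i => (0 : Fin n → ℝ) i + (0 : Fin n → ℝ) i) = 0 := funext fun i => by simp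
    rwa [e] at h
  · obtain ⟨A, hA⟩ := rootExists n (skMat n 1 g) c 3 (isCoupling_skMat n 1 g).1 (by norm_num)
      hP.three_lt_c hform
    refine defect_zero (N := n ^ 4) (l₁ := r₀ * n) (l₂ := r₀ / 2 * n) (q := Real.exp (-r * n))
      hA hP.three_lt_c.le hε.le hP.c_ε hR hP.pos_τ.le hP.τ_le hP.consts rfl rfl hL.κn hL.αn herr
      hP.pos_s hP.s_γ hP.s_ε hcS hP.pos_εS hCB.le hst hb hD hβ0 hβ1
      (by push_cast; exact hL.steps) (by push_cast; exact hL.stepsK) (by positivity) ?_ hε4 ?_ ?_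
      hf h1
    · have a1 : Real.exp (-((n : ℝ) / 4)) ≤ Real.exp (-(3 * r₀ * n)) := Real.exp_le_exp.2 (by
        linarith [mul_le_mul_of_nonneg_right hr8 hn.le])
      have a2 : Real.exp (-r * n) ≤ Real.exp (-(3 * r₀ * n)) := Real.exp_le_exp.2 (by
        linarith [mul_le_mul_of_nonneg_right hr hn.le])
      have a3 : Real.exp (-(3 * r₀ * n)) ≤ Real.exp (r₀ * n) * Real.exp (-(3 * r₀ * n)) :=
        le_mul_of_one_le_left (Real.exp_pos _).le (Real.one_le_exp (by positivity))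
      refine le_trans (mul_le_mul_of_nonneg_left (show _ ≤ 3 * (Real.exp (r₀ * n) *
        Real.exp (-(3 * r₀ * n))) from ?_) (Real.exp_pos _).le) ?_
      · have := mul_le_mul_of_nonneg_left (add_le_add a2 a1) (Real.exp_pos (r₀ * n)).le
        linarith
      · rw [mul_left_comm, ← Real.exp_add, ← Real.exp_add]
        refine le_trans (mul_le_mul_of_nonneg_left (Real.exp_le_exp.2 ?_) (by norm_num)) hL.tail
        linarith [mul_nonneg hr₀.le hn.le]
    · refine le_trans (le_of_eq ?_) hP.small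
      field_simp
    · push_cast; exact hL.second

/-- Fast mixing from one half to three fifths. -/
theorem fast_upper {β : ℝ} (hβ0 : 1 / 2 ≤ β) (hβ1 : β ≤ 3 / 5) :
    ∃ a : ℝ, 0 < a ∧ ∃ C : ℝ, 0 < C ∧ ∀ η : ℝ, 0 < η → ∃ n₀ : ℕ, ∀ n ≥ n₀,
      ENNReal.ofReal (1 - η) ≤ disorder n {g | a ≤ gap n β g ∧ gap n β g ≤ 1 ∧
        (∀ t ∈ Set.Icc 0 (a * Real.log n), ∃ x, 1 / 4 < tvDist n β g t x) ∧
        ∀ t, C * Real.log n ≤ t → ∀ x, tvDist n β g t x ≤ 1 / 4} := by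
  obtain ⟨γ₀, hγ₀, ε, hε, r, hr, htr⟩ := transferBound Planted.plantedBound β hβ0 hβ1
  obtain ⟨cS, hcS, hstab⟩ := stabilityBound
  obtain ⟨K1, hK1, hb1⟩ := couplingBounds 1 zero_le_one
  obtain ⟨K0, hK0, hb0⟩ := couplingBounds (49 / 100) (by norm_num)
  obtain ⟨Kβ, hKβ, hbβ⟩ := couplingBounds β (by linarith)
  set CB := Real.exp (256 * K0 / ((1 - 2 * (49 / 100)) / 8)) with hCB
  set r₀ := min r (1 / 4) / 3 with hr₀def
  have hr₀ : 0 < r₀ := div_pos (lt_min hr (by norm_num)) three_pos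
  obtain ⟨γ, κ, ε₁, c, L, α, τ, s, εS, hγle, hP⟩ :=
    exists_params (CB := CB) hγ₀ hε hr₀ hcS (Real.exp_pos _)
  set a₀ := 1 / (2 * (2 * (2 * β + 1) + 200 * (β ^ 2 + 1) + 5)) with ha₀
  set Cm := 2 * (Real.exp (2 * ((c + 3) * (2 / s + 1 / cS))) * CB) with hCmdef
  have hγ := hP.consts.pos_γ
  have hCm : 0 < Cm := by positivity
  refine ⟨min a₀ (γ / 2), lt_min (by positivity) (by positivity), 3 * Cm, by positivity,
    fun η hη => ?_⟩
  have hη7 : 0 < η / 8 := by positivity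
  obtain ⟨n1, h1⟩ := hb1 τ hP.pos_τ (η / 8) hη7
  obtain ⟨n2, h2⟩ := hb0 ((1 - 2 * (49 / 100)) / 800) (by norm_num) (η / 8) hη7
  obtain ⟨n3, h3⟩ := hbβ (1 / 20) (by norm_num) (η / 8) hη7
  obtain ⟨n4, h4⟩ := squareBound τ hP.pos_τ (η / 8) hη7
  obtain ⟨n5, h5⟩ := hstab εS hP.pos_εS (η / 8) hη7
  obtain ⟨n6, h6⟩ := htr (β - 49 / 100) (by linarith) (by linarith) c (by linarith [hP.three_lt_c]) 4
    (η / 8) hη7
  obtain ⟨n7, h7⟩ := eventually_atTop.1 (eventually_large (γ := γ) (κ := κ) (α := α) (c := c)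
    (s := s) (cS := cS) (r := r₀) (K0 := K0) hγ hP.consts.pos_κ hP.consts.pos_α hr₀)
  refine ⟨n1 + n2 + n3 + n4 + n5 + n6 + n7 + 128, fun n hn => ?_⟩
  have : IsProbabilityMeasure (disorder n) := by unfold disorder; infer_instance
  have hneg := measurePreserving_neg_disorder n
  have m1 := measurableSet_coupSet (n := n) 1 τ K1
  have m3 := measurableSet_coupSet (n := n) β (1 / 20) Kβ
  have e1 : ENNReal.ofReal (1 - η / 8) ≤ disorder n (coupSet n 1 τ K1) := h1 n (by omega)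
  have e2 : ENNReal.ofReal (1 - η / 8) ≤
      disorder n (coupSet n (49 / 100) ((1 - 2 * (49 / 100)) / 800) K0) := h2 n (by omega)
  have e3 : ENNReal.ofReal (1 - η / 8) ≤ disorder n (coupSet n β (1 / 20) Kβ) := h3 n (by omega)
  have e1' : ENNReal.ofReal (1 - η / 8) ≤ disorder n ((fun g => -g) ⁻¹' coupSet n 1 τ K1) := by
    rwa [hneg.measure_preimage m1.nullMeasurableSet]
  have e3' : ENNReal.ofReal (1 - η / 8) ≤
      disorder n ((fun g => -g) ⁻¹' coupSet n β (1 / 20) Kβ) := by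
    rwa [hneg.measure_preimage m3.nullMeasurableSet]
  have hall := ofReal_inter _ (hneg.measurable m3) (ofReal_inter _ m3 (ofReal_inter _
    (hneg.measurable m1) (ofReal_inter _ m1 (ofReal_inter _
      (measurableSet_coupSet (n := n) (49 / 100) _ K0) (ofReal_inter _ (measurableSet_square τ)
        (ofReal_inter _ (measurableSet_stable cS εS) (h6 n (by omega)) (h5 n (by omega)))
        (h4 n (by omega))) e2) e1) e1') e3) e3'
  refine le_trans (le_of_eq (congrArg ENNReal.ofReal (by ring))) (hall.trans (measure_mono ?_))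
  rintro g ⟨⟨⟨⟨⟨⟨⟨hm, hs⟩, hq⟩, hb⟩, hp1⟩, hn1'⟩, hp3⟩, hn3'⟩
  have hLn : Large n γ κ α c s cS r₀ K0 := h7 n (by omega)
  have hgood : g ∈ goodEvent n β γ ε r c cS εS τ ((1 - 2 * (49 / 100)) / 800) (1 / 20) Kβ K1 K0 := by
    refine ⟨⟨hp1, hn1'⟩, hb, ⟨hp3, hn3'⟩, hq, hs, fun k hk t ht => le_trans
      (Finset.sum_le_sum fun x _ => mul_le_mul_of_nonneg_left (measureReal_mono fun z hz => ?_)
        (weight_pos (J := skMat n β g) 0 x).le) (hm k hk t ht)⟩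
    obtain ⟨w, hw, hf⟩ := hz
    exact ⟨w, hw, hf.mono hγle⟩
  have hr' : 3 * r₀ ≤ r ∧ 3 * r₀ ≤ 1 / 4 := by
    rw [hr₀def, mul_div_cancel₀ _ (by norm_num : (3 : ℝ) ≠ 0)]
    exact ⟨min_le_left _ _, min_le_right _ _⟩
  obtain ⟨hgap, hT⟩ := of_good hP hcS (Real.exp_pos _) rfl hK0 hCB hβ0 hβ1 hε hr'.1 hr'.2 hr₀ hLn
    hgood
  have hnpos : 0 < n := by omega
  obtain ⟨hτβ, hρβ, hLβ, -⟩ := hp3
  have hLabs : ∀ v : Fin n → ℝ, |∑ i, ∑ j, eff (skMat n β g i j) * v i * v j| ≤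
      (2 * β + 1 / 20) * ∑ i, v i ^ 2 := fun v => by
    refine abs_le.2 ⟨?_, hLβ v⟩
    have b' := hn3'.2.2.1 v
    simp only [skMat_neg, eff_neg, neg_mul, Finset.sum_neg_distrib] at b'
    linarith
  refine ⟨(min_le_right _ _).trans hgap, gap_le_one hnpos β g, fun t ht => ?_, fun t ht x => ?_⟩
  · refine tv_large_log hnpos (by positivity)
      (drift_of_event (by linarith) le_rfl (by norm_num) hτβ hρβ hLabs) hLn.pos ht.1 ?_
    exact ht.2.trans (mul_le_mul_of_nonneg_right (min_le_left _ _) (Real.log_natCast_nonneg n))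
  · have hn128 : (128 : ℝ) ≤ n := by exact_mod_cast (show 128 ≤ n by omega)
    have ht0 : 0 ≤ t := le_trans (by positivity) ht
    refine tv_of_defect hCm (by norm_num) (by norm_num : (1 : ℝ) / 128 ≤ 1 / 64) hT x ht0 ?_
    have hw := log_inv_weight_le (J := skMat n β g) hτβ x
    have hl2 : Real.log 2 ≤ 1 := by
      linarith [Real.log_le_sub_one_of_pos (show (0 : ℝ) < 2 by norm_num)]
    have hw2 : Real.log (1 / weight (skMat n β g) 0 x) ≤ 2 * (n : ℝ) ^ 2 := by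
      have := mul_le_mul_of_nonneg_left hl2 (Nat.cast_nonneg (α := ℝ) n)
      have h : (n : ℝ) ≤ (n : ℝ) ^ 2 := by nlinarith
      linarith [sq_nonneg (n : ℝ)]
    have hexp : Real.exp (-t / Cm) ≤ ((n : ℝ) ^ 3)⁻¹ := by
      rw [← Real.exp_log (show (0 : ℝ) < ((n : ℝ) ^ 3)⁻¹ by positivity), Real.log_inv, Real.log_pow]
      refine Real.exp_le_exp.2 ?_
      rw [neg_div, neg_le_neg_iff, le_div_iff₀ hCm]
      push_cast
      linarith
    refine (mul_le_mul_of_nonneg_left hw2 (Real.exp_pos _).le).trans ?_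
    refine (mul_le_mul_of_nonneg_right hexp (by positivity)).trans ?_
    rw [inv_mul_eq_div, div_le_iff₀ (by positivity)]
    nlinarith [pow_pos (show (0 : ℝ) < n by linarith) 2]

/-- Fast mixing up to three fifths. -/
theorem fast_to_three_fifths {β : ℝ} (hβ0 : 0 ≤ β) (hβ1 : β ≤ 3 / 5) :
    ∃ a : ℝ, 0 < a ∧ ∃ C : ℝ, 0 < C ∧ ∀ η : ℝ, 0 < η → ∃ n₀ : ℕ, ∀ n ≥ n₀,
      ENNReal.ofReal (1 - η) ≤ disorder n {g | a ≤ gap n β g ∧ gap n β g ≤ 1 ∧
        (∀ t ∈ Set.Icc 0 (a * Real.log n), ∃ x, 1 / 4 < tvDist n β g t x) ∧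
        ∀ t, C * Real.log n ≤ t → ∀ x, tvDist n β g t x ≤ 1 / 4} := by
  rcases lt_or_ge β (1 / 2) with h | h
  · obtain ⟨a, ha, C, hC, H⟩ := order_of_entropy Ent.entropyFromCov hβ0 h
    refine ⟨min a ((1 - 2 * β) / 8), lt_min ha (by linarith), C, hC, fun η hη => ?_⟩
    obtain ⟨n₀, hn₀⟩ := H η hη
    refine ⟨max n₀ 1, fun n hn => (hn₀ n (by omega)).trans (measure_mono fun g hg => ?_)⟩
    obtain ⟨g1, g2, g3, g4⟩ := hg
    exact ⟨(min_le_right _ _).trans g1, g2, fun t ht => g3 t ⟨ht.1, ht.2.trans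
      (mul_le_mul_of_nonneg_right (min_le_left _ _) (Real.log_natCast_nonneg n))⟩, g4⟩
  · exact fast_upper h hβ1

end Vale.Agent.P150.Beyond
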