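import Vale.Agent.P150.Beyond.Pair
import Vale.Agent.P150.Fast.Criterion
import Vale.Agent.P150.Fast.Coupling

/-!
# P150 beyond one half: a Poincaré inequality from the criterion outside a rare set

The Bochner identity with the sharp pair inequality keeps one half of the squared mixed differences.
They absorb the configurations at which the criterion fails, once functions supported near that set
have a Dirichlet form of order `n` times their square.
-/

open Finset Real
open Vale.Agent.P150.Fast

namespace Vale.Agent.P150.Beyond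

variable {ι : Type*} [Fintype ι] [DecidableEq ι] {J : ι → ι → ℝ} (h : ι → ℝ)

/-- The squared mixed difference. -/
noncomputable def hess (J : ι → ι → ℝ) (h : ι → ℝ) (i j : ι) (f : (ι → Bool) → ℝ)
    (x : ι → Bool) : ℝ :=
  (1 - cmean J h i x ^ 2) * (1 - cmean J h j x ^ 2) *
    (grad i f (Function.update x j true) - grad i f (Function.update x j false)) ^ 2 / 16

/-- The integrand of `site`. -/
noncomputable def siteDens (J : ι → ι → ℝ) (h : ι → ℝ) (i : ι) (f : (ι → Bool) → ℝ)
    (x : ι → Bool) : ℝ :=
  (1 - cmean J h i x ^ 2) * grad i f x ^ 2 / 4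

/-- What the criterion has to control in the pair `(i, j)`. -/
noncomputable def pairForm (J : ι → ι → ℝ) (h : ι → ℝ) (i j : ι) (f : (ι → Bool) → ℝ)
    (x : ι → Bool) : ℝ :=
  eff (J i j) * (smooth J h i f x * smooth J h j f x) +
    2 * Real.tanh (J i j) ^ 2 *
      ((cmean J h i x * smooth J h i f x) * (cmean J h j x * smooth J h j f x))

theorem mean_siteDens (i : ι) (f : (ι → Bool) → ℝ) :
    mean J h (siteDens J h i f) = site J h i f := rfl

omit [DecidableEq ι] in
theorem one_sub_cmean_sq_pos (i : ι) (x : ι → Bool) : 0 < 1 - cmean J h i x ^ 2 :=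
  sub_pos.2 (Real.tanh_sq_lt_one _)

theorem siteDens_nonneg (i : ι) (f : (ι → Bool) → ℝ) (x : ι → Bool) : 0 ≤ siteDens J h i f x :=
  div_nonneg (mul_nonneg (one_sub_cmean_sq_pos h i x).le (sq_nonneg _)) (by norm_num)

theorem hess_nonneg (i j : ι) (f : (ι → Bool) → ℝ) (x : ι → Bool) : 0 ≤ hess J h i j f x :=
  div_nonneg (mul_nonneg (mul_nonneg (one_sub_cmean_sq_pos h i x).le
    (one_sub_cmean_sq_pos h j x).le) (sq_nonneg _)) (by norm_num)

/-- The pair `(i, j)` of the Bochner identity. -/
theorem pair_mean (hJ : IsCoupling J) {i j : ι} (hij : i ≠ j) (hθ : |J i j| ≤ 1 / 20)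
    (f : (ι → Bool) → ℝ) :
    mean J h (hess J h i j f) / 2 ≤
      mean J h (fun x => dev J h i f x * dev J h j f x) + mean J h (pairForm J h i j f) +
        2000 * |Real.tanh (J i j)| ^ 3 * (site J h i f + site J h j f) := by
  set Φ : (ι → Bool) → ℝ := fun y => dev J h i f y * dev J h j f y + pairForm J h i j f y +
    2000 * |Real.tanh (J i j)| ^ 3 * (siteDens J h i f y + siteDens J h j f y) -
    1 / 2 * hess J h i j f y with hΦ
  have a := sum_update j (fun x => weight J h x * Φ x)
  have b := sum_update i (fun x =>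
    weight J h (Function.update x j true) * Φ (Function.update x j true) +
      weight J h (Function.update x j false) * Φ (Function.update x j false))
  have key : ∀ x, 0 ≤
      weight J h (Function.update (Function.update x i true) j true) *
          Φ (Function.update (Function.update x i true) j true) +
        weight J h (Function.update (Function.update x i true) j false) *
          Φ (Function.update (Function.update x i true) j false) +
      (weight J h (Function.update (Function.update x i false) j true) *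
          Φ (Function.update (Function.update x i false) j true) +
        weight J h (Function.update (Function.update x i false) j false) *
          Φ (Function.update (Function.update x i false) j false)) := fun x => by
    obtain ⟨c, hc, hw⟩ := weight_pair h hJ hij x
    set θ := Real.tanh (J i j) with hθdef
    set t := Real.tanh (field J h i x - J i j * spin (x j)) with htdef
    set u := Real.tanh (field J h j x - J i j * spin (x i)) with hudef
    have hm' : ∀ a b, cmean J h j (Function.update (Function.update x i a) j b) =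
        pairMean θ u (spin a) := fun a b => by
      rw [Function.update_comm hij, cmean_pair h hJ hij.symm, hJ.1 j i]
    have hg' : ∀ a b, grad j f (Function.update (Function.update x i a) j b) =
        grad j f (Function.update x i a) := fun a b => by
      rw [grad_update_self]
    have hterm : ∀ a b, weight J h (Function.update (Function.update x i a) j b) *
        Φ (Function.update (Function.update x i a) j b) =
        c * (pairCross θ t u (spin a) (spin b) (grad i f (Function.update x j b))
              (grad j f (Function.update x i a)) +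
            2 * θ ^ 2 * pairRank θ t u (spin a) (spin b) (grad i f (Function.update x j b))
              (grad j f (Function.update x i a)) +
            2000 * |θ| ^ 3 * pairMass θ t u (spin a) (spin b) (grad i f (Function.update x j b))
              (grad j f (Function.update x i a)) -
            1 / 2 * pairHess θ t u (spin a) (spin b)
              (grad i f (Function.update x j true) - grad i f (Function.update x j false))) :=
      fun a b => by
      rw [hw a b]
      simp only [hΦ, pairForm, hess, siteDens, dev_eq, smooth, eff_eq, cmean_pair h hJ hij x a b,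
        hm' a b, grad_pair hij, hg' a b, Function.update_idem, ← htdef, ← hθdef,
        Function.update_of_ne hij, Function.update_self, pairCross, pairRank, pairMass, pairHess]
      ring
    have hAB : grad i f (Function.update x j true) - grad i f (Function.update x j false) =
        grad j f (Function.update x i true) - grad j f (Function.update x i false) := by
      simp only [grad, Function.update_comm hij]
      ring
    have := mul_nonneg hc (sub_nonneg.2 (pair_sharp (θ := θ) (t := t) (u := u)
      ((abs_tanh_le _).trans hθ) (Real.abs_tanh_lt_one _) (Real.abs_tanh_lt_one _) hAB))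
    simp only [hterm, spin_true, spin_false]
    linarith
  have hpos : 0 ≤ mean J h Φ := by
    have := Finset.sum_nonneg (s := univ) fun x _ => key x
    simp only [mean]
    linarith
  simp only [hΦ] at hpos
  rw [mean_sub, mean_add, mean_add, mean_smul, mean_smul, mean_add, mean_siteDens,
    mean_siteDens] at hpos
  linarith

theorem abs_tanh_cube_le {t τ : ℝ} (ht : |t| ≤ τ) : |Real.tanh t| ^ 3 ≤ τ * t ^ 2 := by
  calc |Real.tanh t| ^ 3 ≤ |t| ^ 3 := pow_le_pow_left₀ (abs_nonneg _) (abs_tanh_le t) 3
    _ = |t| * t ^ 2 := by rw [pow_succ' |t| 2, sq_abs]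
    _ ≤ τ * t ^ 2 := mul_le_mul_of_nonneg_right ht (sq_nonneg _)

/-- The Bochner identity, keeping the mixed differences. -/
theorem bochner_hess (hJ : IsCoupling J) {τ ρ : ℝ} (hτ : ∀ i j, |J i j| ≤ τ) (hτ' : τ ≤ 1 / 20)
    (hρ : ∀ i, ∑ j, J i j ^ 2 ≤ ρ) (f : (ι → Bool) → ℝ) :
    (∑ i, site J h i f) + (∑ i, ∑ j, mean J h (hess J h i j f)) / 2 ≤
      mean J h (fun x => lap J h f x ^ 2) + (∑ i, ∑ j, mean J h (pairForm J h i j f)) +
        4000 * τ * ρ * ∑ i, site J h i f := by
  have hexp : mean J h (fun x => lap J h f x ^ 2) =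
      ∑ i, ∑ j, mean J h (fun x => dev J h i f x * dev J h j f x) := by
    simp only [← mean_sum]
    refine congrArg (mean J h) (funext fun x => ?_)
    rw [lap_eq, neg_sq, sq, Finset.sum_mul_sum]
  have hterm : ∀ i j, (if i = j then site J h i f else 0) + mean J h (hess J h i j f) / 2 ≤
      mean J h (fun x => dev J h i f x * dev J h j f x) + mean J h (pairForm J h i j f) +
        2000 * τ * (J i j ^ 2 * site J h i f + J i j ^ 2 * site J h j f) := fun i j => by
    by_cases hij : i = j
    · subst hij
      rw [if_pos rfl, dev_sq h hJ, show hess J h i i f = fun _ => (0 : ℝ) from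
          funext fun x => by simp [hess, grad_update_self],
        show pairForm J h i i f = fun _ => (0 : ℝ) from
          funext fun x => by simp [pairForm, hJ.2, eff]]
      simp [hJ.2, mean_const]
    · rw [if_neg hij, zero_add]
      have := pair_mean h hJ hij ((hτ i j).trans hτ') f
      have h3 := mul_le_mul_of_nonneg_right (abs_tanh_cube_le (hτ i j))
        (add_nonneg (site_nonneg (J := J) h i f) (site_nonneg (J := J) h j f))
      linarith
  have hsum := Finset.sum_le_sum (s := univ) fun i _ =>
    Finset.sum_le_sum (s := univ) fun j _ => hterm i j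
  simp only [Finset.sum_add_distrib, Finset.sum_ite_eq, Finset.mem_univ, if_true, ← Finset.sum_div,
    ← Finset.mul_sum] at hsum
  rw [← hexp] at hsum
  have e1 : ∑ i, (∑ j, J i j ^ 2 * site J h i f) ≤ ρ * ∑ i, site J h i f := by
    rw [Finset.mul_sum]
    refine Finset.sum_le_sum fun i _ => ?_
    rw [← Finset.sum_mul]
    exact mul_le_mul_of_nonneg_right (hρ i) (site_nonneg h i f)
  have e2 : ∑ i, ∑ j, J i j ^ 2 * site J h j f ≤ ρ * ∑ i, site J h i f := by
    refine le_trans (le_of_eq ?_) e1
    rw [Finset.sum_comm]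
    exact Finset.sum_congr rfl fun i _ => Finset.sum_congr rfl fun j _ => by rw [hJ.1 i j]
  rcases isEmpty_or_nonempty ι with hι | ⟨⟨k⟩⟩
  · simp [lap, mean_const]
  have hτ0 : 0 ≤ τ := (abs_nonneg _).trans (hτ k k)
  linarith [mul_le_mul_of_nonneg_left e1 hτ0, mul_le_mul_of_nonneg_left e2 hτ0]

theorem cosh_shift_le (a d : ℝ) : Real.cosh (a + d) ≤ Real.exp |d| * Real.cosh a := by
  rw [Real.cosh_eq, Real.cosh_eq, mul_div_assoc', mul_add, ← Real.exp_add, ← Real.exp_add]
  exact div_le_div_of_nonneg_right (add_le_add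
    (Real.exp_le_exp.2 (by linarith [le_abs_self d]))
    (Real.exp_le_exp.2 (by linarith [neg_abs_le d]))) zero_le_two

theorem inv_cosh_diff (a d : ℝ) (hd : |d| ≤ 1 / 20) :
    ((Real.cosh (a + 2 * d))⁻¹ - (Real.cosh a)⁻¹) ^ 2 ≤ 25 * d ^ 2 * (Real.cosh a)⁻¹ ^ 2 := by
  have hc := Real.cosh_pos a
  have hc' := Real.cosh_pos (a + 2 * d)
  have h1 : Real.exp |2 * d| ≤ 1 + 5 * |d| := by
    have := Real.abs_exp_sub_one_sub_id_le (x := |2 * d|) (by rw [abs_abs, abs_mul, abs_two]; linarith)
    rw [abs_mul, abs_two] at this ⊢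
    nlinarith [(abs_le.1 this).2, abs_nonneg d]
  have h2 := cosh_shift_le a (2 * d)
  have h3 : Real.cosh a ≤ Real.exp |2 * d| * Real.cosh (a + 2 * d) := by
    simpa [abs_neg] using cosh_shift_le (a + 2 * d) (-(2 * d))
  have key : |Real.cosh a / Real.cosh (a + 2 * d) - 1| ≤ 5 * |d| := by
    rw [abs_le]
    constructor
    · have : 1 - 5 * |d| ≤ Real.cosh a / Real.cosh (a + 2 * d) := by
        rw [le_div_iff₀ hc']
        rcases le_total (1 - 5 * |d|) 0 with h0 | h0
        · nlinarith
        · nlinarith [mul_le_mul_of_nonneg_left (h2.trans (mul_le_mul_of_nonneg_right h1 hc.le)) h0,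
            mul_nonneg (sq_nonneg |d|) hc.le]
      linarith
    · have : Real.cosh a / Real.cosh (a + 2 * d) ≤ 1 + 5 * |d| := by
        rw [div_le_iff₀ hc']
        exact h3.trans (mul_le_mul_of_nonneg_right h1 hc'.le)
      linarith
  rw [show (Real.cosh (a + 2 * d))⁻¹ - (Real.cosh a)⁻¹ =
    (Real.cosh a / Real.cosh (a + 2 * d) - 1) * (Real.cosh a)⁻¹ by field_simp, mul_pow]
  refine mul_le_mul_of_nonneg_right ?_ (sq_nonneg _)
  rw [← sq_abs (Real.cosh a / _ - 1), ← sq_abs d]
  calc |Real.cosh a / Real.cosh (a + 2 * d) - 1| ^ 2 ≤ (5 * |d|) ^ 2 :=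
        pow_le_pow_left₀ (abs_nonneg _) key 2
    _ = _ := by ring

theorem one_sub_tanh_sq (a : ℝ) : 1 - Real.tanh a ^ 2 = (Real.cosh a)⁻¹ ^ 2 := by
  have hc := (Real.cosh_pos a).ne'
  rw [Real.tanh_eq_sinh_div_cosh]
  field_simp
  linarith [Real.cosh_sq a]

theorem one_sub_tanh_sq_shift {a d : ℝ} (hd : |d| ≤ 1 / 10) :
    1 - Real.tanh (a + d) ^ 2 ≤ 2 * (1 - Real.tanh a ^ 2) := by
  have h1 : Real.exp |d| ^ 2 ≤ 2 := by
    rw [← Real.exp_nat_mul]
    refine (Real.exp_le_exp.2 (show _ ≤ Real.log 2 from ?_)).trans_eq (Real.exp_log two_pos)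
    have := Real.log_two_gt_d9
    push_cast
    linarith
  have h2 : Real.cosh a ≤ Real.exp |d| * Real.cosh (a + d) := by
    simpa [abs_neg] using cosh_shift_le (a + d) (-d)
  have hc := Real.cosh_pos a
  have hc' := Real.cosh_pos (a + d)
  rw [one_sub_tanh_sq, one_sub_tanh_sq, inv_pow, inv_pow, inv_eq_one_div, inv_eq_one_div,
    mul_one_div, div_le_div_iff₀ (by positivity) (by positivity), one_mul]
  calc Real.cosh a ^ 2 ≤ (Real.exp |d| * Real.cosh (a + d)) ^ 2 := pow_le_pow_left₀ hc.le h2 2
    _ = Real.exp |d| ^ 2 * Real.cosh (a + d) ^ 2 := mul_pow _ _ _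
    _ ≤ 2 * Real.cosh (a + d) ^ 2 := mul_le_mul_of_nonneg_right h1 (sq_nonneg _)

/-- The square root of the integrand of `site`, with a sign. -/
noncomputable def siteRoot (J : ι → ι → ℝ) (h : ι → ℝ) (i : ι) (f : (ι → Bool) → ℝ)
    (x : ι → Bool) : ℝ :=
  (Real.cosh (field J h i x))⁻¹ * grad i f x / 2

theorem siteRoot_sq (i : ι) (f : (ι → Bool) → ℝ) (x : ι → Bool) :
    siteRoot J h i f x ^ 2 = siteDens J h i f x := by
  rw [siteRoot, siteDens, cmean, one_sub_tanh_sq]
  ring

theorem mul_sq_update_le (j : ι) (φ : (ι → Bool) → ℝ) (hφ : ∀ x, 0 ≤ φ x) (x : ι → Bool) :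
    (1 - cmean J h j x ^ 2) * (φ (Function.update x j true) + φ (Function.update x j false)) ≤
      4 * cond J h j φ x := by
  obtain ⟨h1, h2⟩ := abs_le.1 (Real.abs_tanh_lt_one (field J h j x)).le
  have e1 := mul_nonneg (mul_nonneg (sub_nonneg.2 h2) (sub_nonneg.2 h2)) (hφ (Function.update x j false))
  have a : 0 ≤ (1 + cmean J h j x) ^ 2 * φ (Function.update x j true) :=
    mul_nonneg (sq_nonneg _) (hφ _)
  rw [Fast.cond]
  simp only [cmean] at a ⊢
  nlinarith

theorem grad_siteRoot_le {i j : ι} (hd : |J i j| ≤ 1 / 20)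
    (f : (ι → Bool) → ℝ) (x : ι → Bool) :
    (1 - cmean J h j x ^ 2) * grad j (siteRoot J h i f) x ^ 2 ≤
      16 * hess J h i j f x + 200 * J i j ^ 2 * cond J h j (siteDens J h i f) x := by
  set a := field J h i (Function.update x j false) with ha
  have hplus : field J h i (Function.update x j true) = a + 2 * J i j := by
    rw [ha, field_update h, field_update h, spin_true, spin_false]; ring
  have hx : 1 - Real.tanh (a + 2 * J i j) ^ 2 ≤ 2 * (1 - cmean J h i x ^ 2) := by
    rw [cmean, show a + 2 * J i j = field J h i x + J i j * (1 - spin (x j)) by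
      rw [ha, field_update h, spin_false]; ring]
    refine one_sub_tanh_sq_shift ?_
    rw [abs_mul]
    rcases spin_cases (x j) with e | e <;> rw [e] <;> norm_num <;> linarith
  set P := grad i f (Function.update x j true)
  set Q := grad i f (Function.update x j false) with hQ
  set sp := (Real.cosh (a + 2 * J i j))⁻¹
  set sm := (Real.cosh a)⁻¹
  have hgrad : grad j (siteRoot J h i f) x = sp * P / 2 - sm * Q / 2 := by
    simp only [grad, siteRoot, hplus, ← ha]; rfl
  have hsm : siteDens J h i f (Function.update x j false) = sm ^ 2 * Q ^ 2 / 4 := by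
    rw [siteDens, cmean, ← ha, one_sub_tanh_sq, ← hQ]
  have hsp : sp ^ 2 ≤ 2 * (1 - cmean J h i x ^ 2) := by rwa [← one_sub_tanh_sq]
  have hdiff := inv_cosh_diff a (J i j) hd
  have hj := (one_sub_cmean_sq_pos (J := J) h j x).le
  have hle : grad j (siteRoot J h i f) x ^ 2 ≤
      (1 - cmean J h i x ^ 2) * (P - Q) ^ 2 + 50 * J i j ^ 2 * (sm ^ 2 * Q ^ 2 / 4) := by
    rw [hgrad, show sp * P / 2 - sm * Q / 2 = (sp * (P - Q) + (sp - sm) * Q) / 2 by ring, div_pow]
    have k1 := mul_le_mul_of_nonneg_right hsp (sq_nonneg (P - Q))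
    have k2 := mul_le_mul_of_nonneg_right hdiff (sq_nonneg Q)
    have k3 := add_sq_le (a := sp * (P - Q)) (b := (sp - sm) * Q)
    rw [mul_pow, mul_pow] at k3
    linarith
  have hc := mul_sq_update_le (J := J) h j (siteDens J h i f) (siteDens_nonneg h i f) x
  have h0 := mul_nonneg hj (siteDens_nonneg (J := J) h i f (Function.update x j true))
  have k4 := mul_le_mul_of_nonneg_left hle hj
  rw [← hsm] at k4
  have k5 := mul_le_mul_of_nonneg_left (show (1 - cmean J h j x ^ 2) *
    siteDens J h i f (Function.update x j false) ≤ 4 * cond J h j (siteDens J h i f) x by linarith)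
    (show 0 ≤ 50 * J i j ^ 2 by positivity)
  simp only [hess]
  linarith

/-- The Dirichlet form of a cutoff times `siteRoot`. -/
theorem dirichlet_cutoff_le (hJ : IsCoupling J) {τ ρ κ : ℝ} (hτ : ∀ i j, |J i j| ≤ τ)
    (hτ' : τ ≤ 1 / 20) (hρ : ∀ i, ∑ j, J i j ^ 2 ≤ ρ) {χ : (ι → Bool) → ℝ}
    (hχ : ∀ x, |χ x| ≤ 1) (hχ' : ∀ j x, |grad j χ x| ≤ κ) (i : ι) (f : (ι → Bool) → ℝ) :
    ∑ j, site J h j (fun x => χ x * siteRoot J h i f x) ≤
      8 * (∑ j, mean J h (hess J h i j f)) +
        (100 * ρ + 2 * κ ^ 2 * Fintype.card ι) * site J h i f := by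
  have hj : ∀ j, site J h j (fun x => χ x * siteRoot J h i f x) ≤
      8 * mean J h (hess J h i j f) + (100 * J i j ^ 2 + 2 * κ ^ 2) * site J h i f := fun j => by
    rw [show site J h i f = mean J h (cond J h j (siteDens J h i f)) by
      rw [← mean_cond h hJ, mean_siteDens], site, ← mean_smul, ← mean_smul, ← mean_add]
    refine mean_le_mean h fun x => ?_
    have hD := (one_sub_cmean_sq_pos (J := J) h j x).le
    set χp := χ (Function.update x j true)
    set χm := χ (Function.update x j false)
    set vp := siteRoot J h i f (Function.update x j true)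
    set vm := siteRoot J h i f (Function.update x j false)
    have hp : χp ^ 2 ≤ 1 := (sq_le_one_iff_abs_le_one _).2 (hχ _)
    have hg : (χp - χm) ^ 2 ≤ κ ^ 2 := by
      rw [← sq_abs]; exact pow_le_pow_left₀ (abs_nonneg _) (hχ' j x) 2
    have hsplit : grad j (fun x => χ x * siteRoot J h i f x) x ^ 2 ≤
        2 * (vp - vm) ^ 2 + 2 * κ ^ 2 * (vp ^ 2 + vm ^ 2) := by
      show (χp * vp - χm * vm) ^ 2 ≤ _
      have k1 := mul_le_mul_of_nonneg_right hp (sq_nonneg (vp - vm))
      have k2 := mul_le_mul_of_nonneg_right hg (sq_nonneg vm)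
      have k3 := add_sq_le (a := χp * (vp - vm)) (b := (χp - χm) * vm)
      rw [mul_pow, mul_pow, show χp * (vp - vm) + (χp - χm) * vm = χp * vp - χm * vm by ring] at k3
      linarith [mul_nonneg (sq_nonneg κ) (sq_nonneg vp)]
    have hv := grad_siteRoot_le h ((hτ i j).trans hτ') f x
    have hc := mul_sq_update_le (J := J) h j (siteDens J h i f) (siteDens_nonneg h i f) x
    rw [← siteRoot_sq h i f (Function.update x j true),
      ← siteRoot_sq h i f (Function.update x j false)] at hc
    have k4 := mul_le_mul_of_nonneg_left hsplit hD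
    have k5 := mul_le_mul_of_nonneg_left hc (show 0 ≤ 2 * κ ^ 2 by positivity)
    change (1 - cmean J h j x ^ 2) * grad j (siteRoot J h i f) x ^ 2 ≤ _ at hv
    rw [show grad j (siteRoot J h i f) x = vp - vm from rfl] at hv
    linarith
  refine (Finset.sum_le_sum fun j _ => hj j).trans ?_
  rw [Finset.sum_add_distrib, ← Finset.mul_sum, ← Finset.sum_mul, Finset.sum_add_distrib,
    ← Finset.mul_sum, Finset.sum_const, Finset.card_univ, nsmul_eq_mul]
  refine add_le_add le_rfl (mul_le_mul_of_nonneg_right ?_ (site_nonneg h i f))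
  linarith [mul_le_mul_of_nonneg_left (hρ i) (show (0 : ℝ) ≤ 100 by norm_num)]

/-- Functions supported on `U` have Dirichlet form at least `a` times their square. -/
def SmallSet (J : ι → ι → ℝ) (h : ι → ℝ) (U : Set (ι → Bool)) (a : ℝ) : Prop :=
  ∀ φ : (ι → Bool) → ℝ, (∀ x, x ∉ U → φ x = 0) →
    a * mean J h (fun x => φ x ^ 2) ≤ ∑ j, site J h j φ

/-- Configurations within Hamming distance less than `k` of `B`. -/
def near (B : Set (ι → Bool)) (k : ℕ) : Set (ι → Bool) := {x | ∃ y ∈ B, hammingDist x y < k}

theorem exists_cutoff (B : Set (ι → Bool)) {k : ℕ} (hk : 0 < k) :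
    ∃ χ : (ι → Bool) → ℝ, (∀ x, |χ x| ≤ 1) ∧ (∀ x ∈ B, χ x = 1) ∧
      (∀ x, x ∉ near B k → χ x = 0) ∧ ∀ j x, |grad j χ x| ≤ 1 / k := by
  classical
  set e : (ι → Bool) → ℕ := fun x => (univ.filter (· ∈ B)).sup fun y => k - hammingDist x y
  have hk' : (0 : ℝ) < k := by exact_mod_cast hk
  have hle : ∀ x, e x ≤ k := fun x => Finset.sup_le fun y _ => Nat.sub_le _ _
  have hlip : ∀ x x', e x ≤ e x' + hammingDist x x' := fun x x' => by
    refine Finset.sup_le fun y hy => ?_
    have h1 : k - hammingDist x' y ≤ e x' := Finset.le_sup (f := fun y => k - hammingDist x' y) hy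
    have h2 := hammingDist_triangle x' x y
    rw [hammingDist_comm x' x] at h2
    omega
  refine ⟨fun x => (e x : ℝ) / k, fun x => ?_, fun x hx => ?_, fun x hx => ?_, fun j x => ?_⟩
  · rw [abs_of_nonneg (by positivity), div_le_one hk']
    exact_mod_cast hle x
  · rw [div_eq_one_iff_eq hk'.ne', Nat.cast_inj]
    refine le_antisymm (hle x) ?_
    have := Finset.le_sup (f := fun y => k - hammingDist x y) (b := x)
      (s := univ.filter (· ∈ B)) (by simp [hx])
    simpa using this
  · have : e x = 0 := by
      refine Nat.le_zero.1 (Finset.sup_le fun y hy => ?_)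
      simp only [Finset.mem_filter] at hy
      by_contra hne
      exact hx ⟨y, hy.2, by omega⟩
    simp [this]
  · have hd : hammingDist (Function.update x j true) (Function.update x j false) ≤ 1 := by
      rw [hammingDist]
      refine Finset.card_le_one.2 fun a ha b hb => ?_
      simp only [Finset.mem_filter] at ha hb
      have : ∀ c, Function.update x j true c ≠ Function.update x j false c → c = j := fun c hc => by
        by_contra hne
        simp [hne] at hc
      rw [this a ha.2, this b hb.2]
    have h1 := hlip (Function.update x j true) (Function.update x j false)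
    have h2 := hlip (Function.update x j false) (Function.update x j true)
    rw [hammingDist_comm] at h2
    rw [grad, ← sub_div, abs_div, abs_of_pos hk', div_le_div_iff_of_pos_right hk', abs_le]
    have h1' : (e (Function.update x j true) : ℝ) ≤ e (Function.update x j false) + 1 := by
      exact_mod_cast h1.trans (by omega)
    have h2' : (e (Function.update x j false) : ℝ) ≤ e (Function.update x j true) + 1 := by
      exact_mod_cast h2.trans (by omega)
    constructor <;> linarith

/-- Bochner's criterion outside a rare set gives a Poincaré inequality at this field. -/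
theorem poincare_typical (hJ : IsCoupling J) {τ ρ lam M γ a : ℝ} (hτ : ∀ i j, |J i j| ≤ τ)
    (hτ' : τ ≤ 1 / 20) (hρ : ∀ i, ∑ j, J i j ^ 2 ≤ ρ) (B : Set (ι → Bool)) {k : ℕ} (hk : 0 < k)
    (hM : 0 ≤ M) (ha : 0 < a) (hU : SmallSet J h (near B k) a) (hMa : 16 * M ≤ a)
    (hgood : ∀ (f : (ι → Bool) → ℝ) (x), x ∉ B →
      ∑ i, ∑ j, pairForm J h i j f x ≤ lam * ∑ i, siteDens J h i f x)
    (hbad : ∀ (f : (ι → Bool) → ℝ) (x), x ∈ B →
      ∑ i, ∑ j, pairForm J h i j f x ≤ (lam + M) * ∑ i, siteDens J h i f x)
    (hγ : γ ≤ 1 - lam - 4000 * τ * ρ -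
      M / a * (100 * ρ + 2 * (1 / k) ^ 2 * Fintype.card ι))
    (f : (ι → Bool) → ℝ) : γ * var J h f ≤ ∑ i, site J h i f := by
  refine poincare_of_bochner h hJ (fun f => ?_) f
  obtain ⟨χ, hχ1, hχB, hχU, hχd⟩ := exists_cutoff B hk
  have hboch := bochner_hess h hJ hτ hτ' hρ f
  set H := ∑ i, ∑ j, mean J h (hess J h i j f)
  set S := ∑ i, site J h i f
  have hS : 0 ≤ S := Finset.sum_nonneg fun i _ => site_nonneg h i f
  have hH : 0 ≤ H := Finset.sum_nonneg fun i _ => Finset.sum_nonneg fun j _ =>
    mean_nonneg h fun x => hess_nonneg h i j f x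
  set X := ∑ i, mean J h (fun x => (χ x * siteRoot J h i f x) ^ 2) with hX
  have hpf : (∑ i, ∑ j, mean J h (pairForm J h i j f)) ≤ lam * S + M * X := by
    simp only [S, X, ← mean_siteDens, ← mean_sum]
    rw [← mean_smul, ← mean_smul, ← mean_add]
    refine mean_le_mean h fun x => ?_
    by_cases hx : x ∈ B
    · refine (hbad f x hx).trans (le_of_eq ?_)
      simp only [hχB x hx, one_mul, siteRoot_sq]
      ring
    · exact (hgood f x hx).trans (le_add_of_nonneg_right
        (mul_nonneg hM (Finset.sum_nonneg fun i _ => sq_nonneg _)))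
  have hXle : a * X ≤ 8 * H + (100 * ρ + 2 * (1 / k) ^ 2 * Fintype.card ι) * S := by
    simp only [X, H, S, Finset.mul_sum, ← Finset.sum_add_distrib]
    refine Finset.sum_le_sum fun i _ => (hU _ fun x hx => by rw [hχU x hx, zero_mul]).trans ?_
    exact (dirichlet_cutoff_le h hJ hτ hτ' hρ hχ1 hχd i f).trans_eq (by rw [Finset.mul_sum])
  set R := 100 * ρ + 2 * (1 / k : ℝ) ^ 2 * Fintype.card ι
  have h1 := mul_le_mul_of_nonneg_left hXle (div_nonneg hM ha.le)
  have e1 : M / a * (a * X) = M * X := by field_simp
  have h2 : M / a * (8 * H) ≤ H / 2 := by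
    have : M / a ≤ 1 / 16 := by rw [div_le_iff₀ ha]; linarith
    linarith [mul_le_mul_of_nonneg_right this hH]
  have h3 := mul_le_mul_of_nonneg_right hγ hS
  rw [e1] at h1
  linarith

end Vale.Agent.P150.Beyond
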