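import Vale.Agent.P150.Beyond.Defs

/-!
# P150 beyond one half: the channel and the transfer from the planted model
-/

open Finset MeasureTheory Real
open Vale.Agent.P150.Fast

namespace Vale.Agent.P150.Beyond

variable {n : ℕ}

/-- Configurations whose local fields are within `√R` of a failure of the criterion. -/
def failSet (θ γ R : ℝ) (g : Edge n → ℝ) (y : Fin n → ℝ) : Set (Fin n → Bool) :=
  {x | ∃ w : Fin n → ℝ, ∑ i, w i ^ 2 ≤ R ∧
    CritFails θ γ (skMat n 1 g) fun i => field (skMat n θ g) y i x + w i}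

/-- `A A^T = K + c` and `A` is within `L / √c` of `√c`. -/
structure IsRoot (K : Fin n → Fin n → ℝ) (c L : ℝ) (A : Fin n → Fin n → ℝ) : Prop where
  gram : ∀ i j, ∑ k, A i k * A j k = K i j + if i = j then c else 0
  near : ∀ v : Fin n → ℝ, ∑ i, ((∑ k, A i k * v k) - √c * v i) ^ 2 ≤ L ^ 2 / c * ∑ i, v i ^ 2

/-- (Root): a square root of `K + c`. -/
def RootExists : Prop :=
  ∀ (n : ℕ) (K : Fin n → Fin n → ℝ) (c L : ℝ), (∀ i j, K i j = K j i) → 0 < L → L < c →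
    (∀ v : Fin n → ℝ, |∑ i, ∑ j, K i j * v i * v j| ≤ L * ∑ i, v i ^ 2) →
    ∃ A : Fin n → Fin n → ℝ, IsRoot K c L A

/-- (Transfer): with high probability, along a polynomial grid of channel strengths, the criterion
fails near the observed fields with exponentially small probability. -/
def TransferBound : Prop :=
  ∀ β : ℝ, 1 / 2 ≤ β → β ≤ 3 / 5 → ∃ γ : ℝ, 0 < γ ∧ ∃ ε : ℝ, 0 < ε ∧ ∃ r : ℝ, 0 < r ∧
    ∀ T : ℝ, 0 ≤ T → T ≤ β → ∀ c : ℝ, 0 ≤ c → ∀ p : ℕ, ∀ η : ℝ, 0 < η → ∃ n₀ : ℕ, ∀ n ≥ n₀,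
      ENNReal.ofReal (1 - η) ≤ disorder n {g | ∀ k ≤ n ^ p, ∀ t : ℝ, t = T * k / (n : ℝ) ^ p →
        ∑ x, weight (skMat n β g) 0 x * (stdPi (Fin n)).real
          {z | ∃ w : Fin n → ℝ, ∑ i, w i ^ 2 ≤ ε * n ∧ CritFails (β - t) γ (skMat n 1 g)
            fun i => field (skMat n β g) 0 i x + t * c * spin (x i) + √(t * c) * z i + w i} ≤
          Real.exp (-r * n)}

end Vale.Agent.P150.Beyond
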