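import Vale.Agent.P150.Beyond.Interfaces
import Vale.Agent.P150.Rate.Overlap
import Vale.Agent.P161.Noise

/-!
# P150 beyond one half: transfer from the planted model

The tilted measure `E_g ∑_x exp (H x)` is, configuration by configuration, the Gaussian law shifted
by `β x_i x_j / √n`; the gauge `x ↦ all ones` turns it into the planted model.
-/

open Finset MeasureTheory ProbabilityTheory Real Filter Topology
open Vale.Agent.P150.Fast

namespace Vale.Agent.P150.Beyond

variable {n : ℕ}

/-- Disorders and channel noises at which the criterion fails near the observed fields of `x`. -/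
def badSet (β θ γ R σ : ℝ) (x : Fin n → Bool) : Set ((Edge n → ℝ) × (Fin n → ℝ)) :=
  {q | ∃ w : Fin n → ℝ, ∑ i, w i ^ 2 ≤ R ∧ CritFails θ γ (skMat n 1 q.1)
    fun i => field (skMat n β q.1) 0 i x + σ * spin (x i) + √σ * q.2 i + w i}

/-- The same event in the planted model. -/
def plantedSet (β θ γ R σ : ℝ) : Set ((Edge n → ℝ) × (Fin n → ℝ)) :=
  {q | ∃ w : Fin n → ℝ, ∑ i, w i ^ 2 ≤ R ∧
    CritFails θ γ (plantMat n β q.1) fun i => plantField n β σ q i + w i}

private theorem continuous_skMat_entry (b : ℝ) (i j : Fin n) :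
    Continuous fun g : Edge n → ℝ => skMat n b g i j := by
  unfold skMat
  split_ifs <;> fun_prop

@[fun_prop]
theorem continuous_tanh_real : Continuous Real.tanh := by
  rw [funext Real.tanh_eq_sinh_div_cosh]
  exact Real.continuous_sinh.div₀ Real.continuous_cosh fun x => (Real.cosh_pos x).ne'

theorem measurableSet_badSet (β θ γ R σ : ℝ) (x : Fin n → Bool) :
    MeasurableSet (badSet β θ γ R σ x) := by
  refine IsOpen.measurableSet ?_
  simp only [badSet, CritFails, Set.ofPred_exists, Set.ofPred_and]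
  refine isOpen_iUnion fun w => ?_
  by_cases hw : ∑ i, w i ^ 2 ≤ R
  · simp only [hw, Set.ofPred_true, Set.univ_inter]
    refine isOpen_iUnion fun u => ?_
    have h1 : ∀ b i j, Continuous fun q : (Edge n → ℝ) × (Fin n → ℝ) => skMat n b q.1 i j :=
      fun b i j => (continuous_skMat_entry b i j).comp continuous_fst
    refine isOpen_lt ?_ ?_ <;> (unfold field; fun_prop)
  · simp [hw]

private theorem spin_cases (b : Bool) : spin b = 1 ∨ spin b = -1 := by cases b <;> simp [spin]

private theorem mp_signs {κ : Type*} [Fintype κ] (a : κ → ℝ) (ha : ∀ k, a k = 1 ∨ a k = -1) :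
    MeasurePreserving (fun g : κ → ℝ => fun k => a k * g k) (stdPi κ) (stdPi κ) := by
  unfold stdPi
  refine measurePreserving_pi (fun _ : κ => std) (fun _ : κ => std) fun k => ?_
  rcases ha k with h | h
  · rw [h, show (HMul.hMul (1 : ℝ)) = id from funext one_mul]
    exact MeasurePreserving.id std
  · rw [h, show (HMul.hMul (-1 : ℝ)) = Neg.neg from funext neg_one_mul]
    exact ⟨measurable_neg, by rw [std, gaussianReal_map_neg, neg_zero]⟩

private theorem pairA_cases (x : Fin n → Bool) (e : Edge n) :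
    pairA n x e = 1 ∨ pairA n x e = -1 :=
  sq_eq_one_iff.1 (pairA_sq n x e)

theorem skMat_scale (b : ℝ) (g : Edge n → ℝ) (i j : Fin n) :
    skMat n b g i j = b * skMat n 1 g i j := by
  unfold skMat
  split_ifs <;> ring

theorem skMat_gauge (β : ℝ) (x : Fin n → Bool) (g : Edge n → ℝ) (i j : Fin n) :
    skMat n 1 (fun e => β / √n * pairA n x e + pairA n x e * g e) i j =
      spin (x i) * spin (x j) * plantMat n β g i j := by
  have hn : (0 : ℝ) < n := by exact_mod_cast i.pos
  have hs : √(n : ℝ) * √(n : ℝ) = n := Real.mul_self_sqrt hn.le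
  have hne : √(n : ℝ) ≠ 0 := (Real.sqrt_pos.2 hn).ne'
  have key : β / (n : ℝ) = 1 / √n * (β / √n) := by
    rw [div_mul_div_comm, hs, one_mul]
  rcases lt_trichotomy i j with h | h | h
  · simp only [plantMat, skMat, dif_pos h, h.ne, if_false, pairA, key]
    ring
  · simp [plantMat, skMat, h]
  · simp only [plantMat, skMat, dif_neg h.not_gt, dif_pos h, h.ne', if_false, pairA, key]
    ring

theorem field_gauge (β : ℝ) (x : Fin n → Bool) (g : Edge n → ℝ) (i : Fin n) :
    field (skMat n β fun e => β / √n * pairA n x e + pairA n x e * g e) 0 i x =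
      spin (x i) * (β * ∑ j, plantMat n β g i j) := by
  simp only [field, Pi.zero_apply, zero_add, skMat_scale β, skMat_gauge, Finset.mul_sum]
  refine Finset.sum_congr rfl fun j _ => ?_
  linear_combination β * spin (x i) * plantMat n β g i j * spin_mul_self (x j)

theorem critFails_gauge (θ γ : ℝ) (s : Fin n → ℝ) (hs : ∀ i, s i = 1 ∨ s i = -1)
    (M : Fin n → Fin n → ℝ) (h : Fin n → ℝ)
    (hf : CritFails θ γ (fun i j => s i * s j * M i j) fun i => s i * h i) :
    CritFails θ γ M h := by
  obtain ⟨u, hu⟩ := hf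
  have h1 : ∀ i, Real.cosh (s i * h i) = Real.cosh (h i) := fun i => by
    rcases hs i with e | e <;> simp [e]
  have h2 : ∀ i, Real.tanh (s i * h i) = s i * Real.tanh (h i) := fun i => by
    rcases hs i with e | e <;> simp [e]
  have h3 : ∀ i, s i ^ 2 = 1 := fun i => sq_eq_one_iff.2 (hs i)
  refine ⟨fun i => s i * u i, ?_⟩
  simp only [h1, h2] at hu
  simp only [mul_pow, h3, one_mul]
  refine lt_of_lt_of_eq hu (congrArg₂ (· + ·) (congrArg (θ * ·) ?_) ?_)
  · exact Finset.sum_congr rfl fun i _ => Finset.sum_congr rfl fun j _ => by ring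
  · congr 2
    exact Finset.sum_congr rfl fun i _ => by ring

theorem gauge_subset (β θ γ R σ : ℝ) (x : Fin n → Bool) :
    (fun q : (Edge n → ℝ) × (Fin n → ℝ) =>
      ((fun e => β / √n * pairA n x e + pairA n x e * q.1 e), fun i => spin (x i) * q.2 i)) ⁻¹'
        badSet β θ γ R σ x ⊆ plantedSet β θ γ R σ := by
  rintro q ⟨w, hw, hf⟩
  refine ⟨fun i => spin (x i) * w i, by simpa [mul_pow, spin_sq] using hw, ?_⟩
  refine critFails_gauge θ γ (fun i => spin (x i)) (fun i => spin_cases (x i)) _ _ ?_
  simp only at hf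
  have e1 : (fun i j => spin (x i) * spin (x j) * plantMat n β q.1 i j) =
      skMat n 1 fun e => β / √n * pairA n x e + pairA n x e * q.1 e :=
    funext fun i => funext fun j => (skMat_gauge β x q.1 i j).symm
  rw [e1]
  convert hf using 1
  funext i
  simp only [field_gauge, plantField]
  linear_combination w i * spin_mul_self (x i)

/-- The Cameron-Martin formula, real valued. -/
theorem integral_exp_dot_mul {κ : Type*} [Fintype κ] (b : κ → ℝ) {F : (κ → ℝ) → ℝ}
    (hF : Measurable F) :
    ∫ g, Real.exp (∑ k, b k * g k) * F g ∂stdPi κ =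
      Real.exp ((∑ k, b k ^ 2) / 2) * ∫ g, F (fun k => b k + g k) ∂stdPi κ := by
  have h := P161.pi_gaussian_shift b (v := 1) one_ne_zero (fun g => (F g : ℂ))
    (Complex.measurable_ofReal.comp hF)
  simp only [NNReal.coe_one, div_one, ← Complex.ofReal_mul] at h
  rw [integral_complex_ofReal, integral_complex_ofReal, Complex.ofReal_inj] at h
  simp only [stdPi, std]
  rw [h, ← integral_const_mul]
  refine integral_congr_ae (Eventually.of_forall fun g => ?_)
  simp only [← mul_assoc, ← Real.exp_add, Finset.sum_sub_distrib, ← Finset.sum_div]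
  congr 2
  ring

/-- One configuration: the tilted probability of failure is at most the planted one. -/
theorem shifted_le (β θ γ R σ : ℝ) (x : Fin n → Bool) :
    ∫ g, (stdPi (Fin n)).real
        (Prod.mk (fun e => β / √n * pairA n x e + g e) ⁻¹' badSet β θ γ R σ x) ∂stdPi (Edge n) ≤
      ((stdPi (Edge n)).prod (stdPi (Fin n))).real (plantedSet β θ γ R σ) := by
  have hm := measurableSet_badSet β θ γ R σ x
  have hT : Measurable fun q : (Edge n → ℝ) × (Fin n → ℝ) =>
      ((fun e => β / √n * pairA n x e + q.1 e), q.2) := by fun_prop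
  have hS := hT hm
  have e1 : ∫ g, (stdPi (Fin n)).real
      (Prod.mk (fun e => β / √n * pairA n x e + g e) ⁻¹' badSet β θ γ R σ x) ∂stdPi (Edge n) =
      ((stdPi (Edge n)).prod (stdPi (Fin n))).real
        ((fun q : (Edge n → ℝ) × (Fin n → ℝ) =>
          ((fun e => β / √n * pairA n x e + q.1 e), q.2)) ⁻¹' badSet β θ γ R σ x) := by
    rw [measureReal_def, Measure.prod_apply hS,
      ← integral_toReal (measurable_measure_prodMk_left hS).aemeasurable
        (Eventually.of_forall fun g => measure_lt_top _ _)]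
    rfl
  have hΦ := (mp_signs (pairA n x) (pairA_cases x)).prod
    (mp_signs (fun i => spin (x i)) fun i => spin_cases (x i))
  rw [e1, measureReal_def, ← hΦ.measure_preimage hS.nullMeasurableSet, ← measureReal_def]
  exact measureReal_mono (gauge_subset β θ γ R σ x)

/-- The tilted sum of the failure probabilities. -/
noncomputable def tiltFail (β θ γ R σ : ℝ) (g : Edge n → ℝ) : ℝ :=
  ∑ x, Real.exp (expo (pairA n) (fun _ => β / √n) g x) *
    (stdPi (Fin n)).real (Prod.mk g ⁻¹' badSet β θ γ R σ x)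

theorem tiltFail_nonneg (β θ γ R σ : ℝ) (g : Edge n → ℝ) : 0 ≤ tiltFail β θ γ R σ g :=
  Finset.sum_nonneg fun _ _ => mul_nonneg (Real.exp_pos _).le measureReal_nonneg

private theorem measurable_slice (β θ γ R σ : ℝ) (x : Fin n → Bool) :
    Measurable fun g : Edge n → ℝ =>
      (stdPi (Fin n)).real (Prod.mk g ⁻¹' badSet β θ γ R σ x) :=
  (measurable_measure_prodMk_left (measurableSet_badSet β θ γ R σ x)).ennreal_toReal

private theorem integrable_tilt_term (β θ γ R σ : ℝ) (x : Fin n → Bool) :
    Integrable (fun g => Real.exp (expo (pairA n) (fun _ => β / √n) g x) *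
      (stdPi (Fin n)).real (Prod.mk g ⁻¹' badSet β θ γ R σ x)) (stdPi (Edge n)) := by
  simp only [expo_eq_dot]
  refine (integrable_exp_dot _).mul_bdd (c := 1)
    (measurable_slice β θ γ R σ x).aestronglyMeasurable (Eventually.of_forall fun g => ?_)
  rw [Real.norm_of_nonneg measureReal_nonneg]
  exact measureReal_le_one

theorem integrable_tiltFail (β θ γ R σ : ℝ) :
    Integrable (tiltFail (n := n) β θ γ R σ) (stdPi (Edge n)) :=
  integrable_finsetSum _ fun x _ => integrable_tilt_term β θ γ R σ x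

theorem integral_tiltFail_le (hn : 0 < n) (β θ γ R σ : ℝ) :
    ∫ g, tiltFail β θ γ R σ g ∂stdPi (Edge n) ≤
      annZ n β * ((stdPi (Edge n)).prod (stdPi (Fin n))).real (plantedSet (n := n) β θ γ R σ) := by
  rw [← integral_partZ (b := β) hn]
  unfold tiltFail partZ
  rw [integral_finsetSum _ fun x _ => integrable_tilt_term β θ γ R σ x,
    integral_finsetSum _ fun x _ => ?_, Finset.sum_mul]
  · refine Finset.sum_le_sum fun x _ => ?_
    simp only [expo_eq_dot]
    rw [integral_exp_dot_mul _ (measurable_slice β θ γ R σ x), integral_exp_dot]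
    exact mul_le_mul_of_nonneg_left (shifted_le β θ γ R σ x) (Real.exp_pos _).le
  · simp only [expo_eq_dot]
    exact integrable_exp_dot _

theorem meas_tiltFail_le (hn : 0 < n) (β θ γ R σ : ℝ) {a : ℝ}
    (hP : ((stdPi (Edge n)).prod (stdPi (Fin n))).real (plantedSet (n := n) β θ γ R σ) ≤
      Real.exp (-a * n)) :
    (stdPi (Edge n)).real {g | annZ n β * Real.exp (-(a / 2) * n) ≤ tiltFail β θ γ R σ g} ≤
      Real.exp (-(a / 2) * n) := by
  have hA := annZ_pos n β
  have h1 := mul_meas_ge_le_integral_of_nonneg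
    (Eventually.of_forall fun g => tiltFail_nonneg β θ γ R σ g)
    (integrable_tiltFail (n := n) β θ γ R σ) (annZ n β * Real.exp (-(a / 2) * n))
  have h2 := (integral_tiltFail_le hn β θ γ R σ).trans (mul_le_mul_of_nonneg_left hP hA.le)
  refine le_of_mul_le_mul_left (h1.trans (h2.trans_eq ?_)) (by positivity)
  rw [mul_assoc, ← Real.exp_add]
  congr 2
  ring

theorem meas_press_le (hn : 0 < n) {b δ : ℝ} (hb0 : 0 ≤ b) (hb : b ≤ 1) (hδ : 0 < δ) :
    (stdPi (Edge n)).real {g | press (pairA n) (fun _ => b / √n) g ≤ free n b - δ * n} ≤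
      1 / (2 * δ ^ 2) / n := by
  have hn' : (0 : ℝ) < n := by exact_mod_cast hn
  have hL := press_le_of_dist (pairA_sq n) (b / √n)
  have hf := measurable_press (pairA n) (fun _ : Edge n => b / √n)
  have hvar : ∫ g, (press (pairA n) (fun _ => b / √n) g - free n b) ^ 2 ∂stdPi (Edge n) ≤ n / 2 := by
    refine (variance_lipschitz_le hf hL).trans ?_
    rw [sq_abs, div_pow, Real.sq_sqrt hn'.le, card_edge,
      show (n : ℝ) * (n - 1) / 2 * (b ^ 2 / n) = b ^ 2 * (n - 1) / 2 by field_simp]
    have h1 : 1 ≤ (n : ℝ) := by exact_mod_cast hn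
    nlinarith [pow_le_one₀ (n := 2) hb0 hb]
  have hint : Integrable (fun g => (press (pairA n) (fun _ => b / √n) g - free n b) ^ 2)
      (stdPi (Edge n)) := ((memLp_lipschitz hf hL).sub (memLp_const _)).integrable_sq
  have h1 := mul_meas_ge_le_integral_of_nonneg
    (Eventually.of_forall fun g => sq_nonneg (press (pairA n) (fun _ => b / √n) g - free n b))
    hint ((δ * n) ^ 2)
  refine le_of_mul_le_mul_left ?_ (show 0 < (δ * n) ^ 2 by positivity)
  refine le_trans ?_ ((h1.trans hvar).trans_eq (by field_simp))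
  refine mul_le_mul_of_nonneg_left (measureReal_mono fun g hg => ?_) (by positivity)
  have hd : 0 ≤ δ * n := by positivity
  simp only [Set.mem_ofPred_eq] at hg ⊢
  nlinarith

theorem transfer_eventually {β δ a η : ℝ} (p : ℕ) (hδ : 0 < δ) (ha : 0 < a) (hη : 0 < η) :
    ∀ᶠ n : ℕ in atTop, 1 / (2 * δ ^ 2) / n + ((n : ℝ) ^ p + 1) * Real.exp (-(a / 2) * n) ≤ η ∧
      Real.log 2 + √(2 * n * (√(1 - β ^ 2))⁻¹) ≤ δ * n := by
  have hq : Real.exp (-(a / 2)) < 1 := Real.exp_lt_one_iff.2 (by linarith)
  have t1 := tendsto_pow_const_mul_const_pow_of_lt_one p (Real.exp_pos (-(a / 2))).le hq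
  have t2 := tendsto_pow_atTop_nhds_zero_of_lt_one (Real.exp_pos (-(a / 2))).le hq
  have t3 := tendsto_const_div_atTop_nhds_zero_nat (1 / (2 * δ ^ 2))
  have t := t3.add (t1.add t2)
  simp only [add_zero] at t
  refine ((t.eventually (ge_mem_nhds hη)).mono fun n hn => ?_).and ?_
  · refine le_of_eq_of_le ?_ hn
    rw [← Real.exp_nat_mul, show (n : ℝ) * -(a / 2) = -(a / 2) * n by ring]
    ring
  · set s := (√(1 - β ^ 2))⁻¹
    have hs : 0 ≤ s := by positivity
    filter_upwards [tendsto_natCast_atTop_atTop.eventually_ge_atTop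
      (8 * s / δ ^ 2 + 2 * Real.log 2 / δ)] with n hn
    have hlog : 0 ≤ Real.log 2 := Real.log_nonneg one_le_two
    have e1 : 8 * s / δ ^ 2 ≤ (n : ℝ) := le_trans (le_add_of_nonneg_right (by positivity)) hn
    have e2 : 2 * Real.log 2 / δ ≤ (n : ℝ) := le_trans (le_add_of_nonneg_left (by positivity)) hn
    rw [div_le_iff₀ (by positivity)] at e1 e2
    have e3 : √(2 * n * s) ≤ δ * n / 2 := by
      rw [Real.sqrt_le_left (by positivity)]
      nlinarith [mul_le_mul_of_nonneg_left e1 (Nat.cast_nonneg (α := ℝ) n)]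
    linarith

/-- (Transfer) follows from (Planted). -/
theorem transferBound (h : PlantedBound) : TransferBound := by
  intro β hβ1 hβ2
  obtain ⟨γ, hγ, ε, hε, a, ha, n₁, hn₁⟩ := h β hβ1 hβ2
  refine ⟨γ, hγ, ε, hε, a / 4, by linarith, ?_⟩
  intro T hT0 hTβ c hc p η hη
  obtain ⟨n₂, hn₂⟩ := eventually_atTop.1
    (transfer_eventually (β := β) p (show 0 < a / 8 by linarith) ha hη)
  refine ⟨max (max n₁ n₂) 1, fun n hn => ?_⟩
  simp only [max_le_iff] at hn
  obtain ⟨⟨hn1, hn2⟩, hn0⟩ := hn
  obtain ⟨hsmall, hlarge⟩ := hn₂ n hn2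
  have hb0 : 0 ≤ β := by linarith
  have hb1 : β < 1 := by linarith
  have hnp : (0 : ℝ) < (n : ℝ) ^ p := pow_pos (by exact_mod_cast hn0) p
  set μ := stdPi (Edge n) with hμ
  set t : ℕ → ℝ := fun k => T * k / (n : ℝ) ^ p with ht
  have htk : ∀ k ≤ n ^ p, 0 ≤ t k ∧ t k ≤ β := fun k hk => by
    refine ⟨by simp only [ht]; positivity, le_trans ?_ hTβ⟩
    simp only [ht]
    rw [div_le_iff₀ hnp]
    exact mul_le_mul_of_nonneg_left (by exact_mod_cast hk) hT0
  set B : ℕ → Set (Edge n → ℝ) := fun k => {g | annZ n β * Real.exp (-(a / 2) * n) ≤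
    tiltFail β (β - t k) γ (ε * n) (t k * c) g} with hB
  set C : Set (Edge n → ℝ) :=
    {g | press (pairA n) (fun _ => β / √n) g ≤ free n β - a / 8 * n} with hC
  set bad : Set (Edge n → ℝ) := C ∪ ⋃ k ∈ range (n ^ p + 1), B k with hbad
  have hbadle : μ.real bad ≤ η := by
    refine le_trans ((measureReal_union_le _ _).trans (add_le_add
      (meas_press_le hn0 hb0 hb1.le (by linarith)) (measureReal_biUnion_finset_le _ _))) ?_
    refine le_trans (add_le_add le_rfl (Finset.sum_le_card_nsmul _ _ (Real.exp (-(a / 2) * n)) fun k hk => ?_)) ?_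
    · obtain ⟨h0, h1⟩ := htk k (Nat.lt_succ_iff.1 (Finset.mem_range.1 hk))
      exact meas_tiltFail_le hn0 β (β - t k) γ (ε * n) (t k * c)
        (hn₁ n hn1 (β - t k) (by linarith) (by linarith) (t k * c) (mul_nonneg h0 hc))
    · rw [nsmul_eq_mul, Finset.card_range]
      push_cast
      exact hsmall
  rw [disorder_eq]
  set S := {g : Edge n → ℝ | ∀ k ≤ n ^ p, ∀ t : ℝ, t = T * k / (n : ℝ) ^ p →
    ∑ x, weight (skMat n β g) 0 x * (stdPi (Fin n)).real
      {z | ∃ w : Fin n → ℝ, ∑ i, w i ^ 2 ≤ ε * n ∧ CritFails (β - t) γ (skMat n 1 g)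
        fun i => field (skMat n β g) 0 i x + t * c * spin (x i) + √(t * c) * z i + w i} ≤
      Real.exp (-(a / 4) * n)} with hS
  have hsub : Set.univ ⊆ S ∪ bad := by
    intro g _
    by_cases hg : g ∈ bad
    · exact Or.inr hg
    refine Or.inl fun k hk t' ht' => ?_
    subst ht'
    have hgC : g ∉ C := fun h' => hg (Or.inl h')
    have hgB : g ∉ B k := fun h' => hg (Or.inr (Set.mem_biUnion
      (Finset.mem_range.2 (Nat.lt_succ_iff.2 hk)) h'))
    simp only [hB, hC, Set.mem_ofPred_eq, not_le] at hgB hgC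
    have hfr := free_ge_annealed hn0 hb0 hb1
    rw [Real.log_div (annZ_pos n β).ne' two_ne_zero] at hfr
    have hZ : 0 < partZ n β g := sum_exp_pos _ _ g
    have hlow : Real.exp (Real.log (annZ n β) - a / 4 * n) ≤ partZ n β g := by
      rw [← Real.le_log_iff_exp_le hZ]
      have : Real.log (partZ n β g) = press (pairA n) (fun _ => β / √n) g := rfl
      linarith
    rw [Real.exp_sub, Real.exp_log (annZ_pos n β)] at hlow
    calc ∑ x, weight (skMat n β g) 0 x * (stdPi (Fin n)).real _
        = tiltFail β (β - t k) γ (ε * n) (t k * c) g / partZ n β g := by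
          rw [tiltFail, Finset.sum_div]
          refine Finset.sum_congr rfl fun x _ => ?_
          simp only [weight, ham_skMat, partZ, ← expo_pair]
          rw [div_mul_eq_mul_div]
          rfl
      _ ≤ annZ n β * Real.exp (-(a / 2) * n) / (annZ n β / Real.exp (a / 4 * n)) :=
          div_le_div₀ (mul_pos (annZ_pos n β) (Real.exp_pos _)).le hgB.le
            (div_pos (annZ_pos n β) (Real.exp_pos _)) hlow
      _ = Real.exp (-(a / 4) * n) := by
          have := (annZ_pos n β).ne'
          field_simp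
          rw [← Real.exp_add]
          congr 1
          ring
  have h1 : 1 ≤ μ.real S + μ.real bad := by
    have := (measureReal_mono (μ := μ) hsub).trans (measureReal_union_le S bad)
    rwa [probReal_univ] at this
  calc ENNReal.ofReal (1 - η) ≤ ENNReal.ofReal (μ.real S) :=
        ENNReal.ofReal_le_ofReal (by linarith)
    _ = μ S := ofReal_measureReal

end Vale.Agent.P150.Beyond
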