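import Vale.Agent.P150.Beyond.Channel.Run
import Vale.Agent.P150.Beyond.Interfaces
import Vale.Agent.P150.Beyond.Transfer
import Vale.Agent.P150.Fast.ChiTail

/-!
# P150 beyond one half: observations with frequent failures are rare

Given the configuration `x`, the observation at time `t` is `t A^T x + √t z`, so the fields are
`β K x + t c x + √(t c) z` up to a vector of squared length `O(n / c)`.
-/

open Finset MeasureTheory Real
open Vale.Agent.P150.Fast

namespace Vale.Agent.P150.Beyond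

variable {n : ℕ} {g : Edge n → ℝ} {c L : ℝ} {A : Fin n → Fin n → ℝ}

theorem IsRoot.mul_vec_le (hA : IsRoot (skMat n 1 g) c L A) (hc : 0 < c) (hLc : L ^ 2 ≤ c ^ 2)
    (v : Fin n → ℝ) : ∑ i, (∑ k, A i k * v k) ^ 2 ≤ 4 * c * ∑ i, v i ^ 2 := by
  have h : ∀ i, (∑ k, A i k * v k) ^ 2 ≤
      2 * (c * v i ^ 2) + 2 * ((∑ k, A i k * v k) - √c * v i) ^ 2 := fun i => by
    have := add_sq_le (a := √c * v i) (b := (∑ k, A i k * v k) - √c * v i)
    rw [mul_pow, Real.sq_sqrt hc.le, add_sub_cancel] at this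
    linarith
  refine (Finset.sum_le_sum fun i _ => h i).trans ?_
  rw [Finset.sum_add_distrib, ← Finset.mul_sum, ← Finset.mul_sum, ← Finset.mul_sum]
  have h2 : L ^ 2 / c ≤ c := by rw [div_le_iff₀ hc, ← sq]; exact hLc
  linarith [hA.near v, mul_le_mul_of_nonneg_right h2
    (Finset.sum_nonneg fun i (_ : i ∈ univ) => sq_nonneg (v i))]

theorem IsRoot.mul_chDir (hA : IsRoot (skMat n 1 g) c L A) (x : Fin n → Bool) (i : Fin n) :
    ∑ k, A i k * chDir A x k = (∑ j, skMat n 1 g i j * spin (x j)) + c * spin (x i) := by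
  simp only [chDir, Finset.mul_sum]
  rw [Finset.sum_comm]
  calc ∑ j, ∑ k, A i k * (A j k * spin (x j))
      = ∑ j, (skMat n 1 g i j + if i = j then c else 0) * spin (x j) :=
        Finset.sum_congr rfl fun j _ => by
          rw [← hA.gram, Finset.sum_mul]
          exact Finset.sum_congr rfl fun k _ => by ring
    _ = _ := by simp [add_mul, Finset.sum_add_distrib]

/-- Given `x`, the observation is `t A^T x + √t z`. -/
theorem integral_chTilt_mul {t : ℝ} (ht : 0 ≤ t) (A : Fin n → Fin n → ℝ) (x : Fin n → Bool)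
    {F : (Fin n → ℝ) → ℝ} (hF : Measurable F) :
    ∫ z, chTilt A t (fun k => √t * z k) x * F (fun k => √t * z k) ∂stdPi (Fin n) =
      ∫ z, F (fun k => t * chDir A x k + √t * z k) ∂stdPi (Fin n) := by
  have hm : Measurable fun z : Fin n → ℝ => F fun k => √t * z k := hF.comp (by fun_prop)
  have e : ∀ z : Fin n → ℝ, chTilt A t (fun k => √t * z k) x =
      Real.exp (-(t / 2 * ∑ k, chDir A x k ^ 2)) *
        Real.exp (∑ k, (√t * chDir A x k) * z k) := fun z => by
    rw [chTilt, ← Real.exp_add, neg_add_eq_sub]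
    congr 2
    exact Finset.sum_congr rfl fun k _ => by ring
  simp only [e, mul_assoc (Real.exp _), integral_const_mul]
  rw [integral_exp_dot_mul _ hm, ← mul_assoc, ← Real.exp_add]
  have h0 : -(t / 2 * ∑ k, chDir A x k ^ 2) + (∑ k, (√t * chDir A x k) ^ 2) / 2 = 0 := by
    simp only [mul_pow, Real.sq_sqrt ht, ← Finset.mul_sum]
    ring
  rw [h0, Real.exp_zero, one_mul]
  refine congrArg _ (funext fun z => congrArg F (funext fun k => ?_))
  rw [mul_add, ← mul_assoc, Real.mul_self_sqrt ht]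

/-- The fields seen given `x`. -/
theorem field_obs (hA : IsRoot (skMat n 1 g) c L A) (β t : ℝ) (x : Fin n → Bool) (z : Fin n → ℝ)
    (i : Fin n) :
    field (skMat n (β - t) g) (chField A 0 fun k => t * chDir A x k + √t * z k) i x =
      field (skMat n β g) 0 i x + t * c * spin (x i) + √t * ∑ k, A i k * z k := by
  have e : ∑ k, A i k * (t * chDir A x k + √t * z k) =
      t * (∑ k, A i k * chDir A x k) + √t * ∑ k, A i k * z k := by
    simp only [Finset.mul_sum, ← Finset.sum_add_distrib]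
    exact Finset.sum_congr rfl fun k _ => by ring
  have e2 : ∀ b : ℝ, ∑ j, skMat n b g i j * spin (x j) = b * ∑ j, skMat n 1 g i j * spin (x j) :=
    fun b => by
    simp only [Finset.mul_sum]
    exact Finset.sum_congr rfl fun j _ => by rw [skMat_smul]; ring
  simp only [field, chField, Pi.zero_apply, zero_add, e, hA.mul_chDir, e2 (β - t), e2 β]
  ring

/-- Fields of squared length above `a n`, or with failures of mass above `exp (-l)`. -/
noncomputable def obsBad (θ γ R : ℝ) (g : Edge n → ℝ) (A : Fin n → Fin n → ℝ) (a l : ℝ) :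
    Set (Fin n → ℝ) :=
  {Y | a < ∑ i, chField A 0 Y i ^ 2} ∪
    {Y | Real.exp (-l) < mean (skMat n θ g) (chField A 0 Y)
      (Set.indicator (failSet θ γ R g (chField A 0 Y)) fun _ => 1)}

theorem measurableSet_failObs (θ γ R : ℝ) (g : Edge n → ℝ) (A : Fin n → Fin n → ℝ)
    (x : Fin n → Bool) : MeasurableSet {Y | x ∈ failSet θ γ R g (chField A 0 Y)} := by
  refine IsOpen.measurableSet ?_
  show IsOpen {Y : Fin n → ℝ | ∃ w : Fin n → ℝ, ∑ i, w i ^ 2 ≤ R ∧ ∃ u : Fin n → ℝ, _ < _}
  simp only [Set.ofPred_exists, Set.ofPred_and]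
  refine isOpen_iUnion fun w => ?_
  by_cases hw : ∑ i, w i ^ 2 ≤ R
  · simp only [hw, Set.ofPred_true, Set.univ_inter]
    refine isOpen_iUnion fun u => ?_
    refine isOpen_lt ?_ ?_ <;> (unfold field chField; fun_prop)
  · simp [hw]

theorem indicator_failSet_eq (θ γ R : ℝ) (g : Edge n → ℝ) (A : Fin n → Fin n → ℝ) (x : Fin n → Bool)
    (Y : Fin n → ℝ) :
    (failSet θ γ R g (chField A 0 Y)).indicator (fun _ => (1 : ℝ)) x =
      {Y | x ∈ failSet θ γ R g (chField A 0 Y)}.indicator (fun _ => (1 : ℝ)) Y := by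
  by_cases h : x ∈ failSet θ γ R g (chField A 0 Y) <;> simp [Set.indicator, h]

theorem measurableSet_obsBad (θ γ R : ℝ) (g : Edge n → ℝ) (A : Fin n → Fin n → ℝ) (a l : ℝ) :
    MeasurableSet (obsBad θ γ R g A a l) := by
  refine MeasurableSet.union (measurableSet_lt measurable_const (by unfold chField; fun_prop))
    (measurableSet_lt measurable_const ?_)
  simp only [mean, indicator_failSet_eq]
  refine Finset.measurable_fun_sum univ fun x _ => Measurable.mul ?_
    (measurable_const.indicator (measurableSet_failObs θ γ R g A x))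
  have : Continuous fun Y => weight (skMat n θ g) (chField A 0 Y) x := by
    unfold weight ham chField
    fun_prop (disch := exact fun _ => (Finset.sum_pos (fun _ _ => Real.exp_pos _) univ_nonempty).ne')
  exact this.measurable

theorem length_tail (n : ℕ) :
    (stdPi (Fin n)).real {z | 3 * (n : ℝ) ≤ ∑ i, z i ^ 2} ≤ Real.exp (-(n / 4)) := by
  refine (chi_tail_crude univ _ (m := (n : ℝ)) (by simp)).trans_eq ?_
  ring_nf

theorem two_indicator {T : (Fin n → ℝ) → Fin n → ℝ} (hT : Measurable T) {S S' : Set (Fin n → ℝ)}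
    (hS : MeasurableSet S) (hS' : MeasurableSet S') (a : ℝ) :
    ∫ z, S.indicator (fun _ => (1 : ℝ)) (T z) + a * S'.indicator (fun _ => (1 : ℝ)) (T z)
        ∂stdPi (Fin n) =
      (stdPi (Fin n)).real (T ⁻¹' S) + a * (stdPi (Fin n)).real (T ⁻¹' S') := by
  have e : ∀ U : Set (Fin n → ℝ), (fun z => U.indicator (fun _ => (1 : ℝ)) (T z)) =
      (T ⁻¹' U).indicator 1 := fun U => funext fun z => by
    by_cases h : T z ∈ U <;> simp [Set.indicator, h]
  have i1 : ∀ U : Set (Fin n → ℝ), MeasurableSet U →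
      Integrable (fun z => U.indicator (fun _ => (1 : ℝ)) (T z)) (stdPi (Fin n)) := fun U hU => by
    rw [e U]; exact (integrable_const 1).indicator (hT hU)
  rw [integral_add (i1 S hS) ((i1 S' hS').const_mul a), integral_const_mul, e S, e S',
    integral_indicator_one (hT hS), integral_indicator_one (hT hS')]

/-- The price of an observation given the configuration. -/
noncomputable def obsCost (θ γ R : ℝ) (g : Edge n → ℝ) (A : Fin n → Fin n → ℝ) (a l : ℝ)
    (x : Fin n → Bool) (Y : Fin n → ℝ) : ℝ :=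
  {Y : Fin n → ℝ | a < ∑ i, chField A 0 Y i ^ 2}.indicator (fun _ => 1) Y +
    Real.exp l * {Y | x ∈ failSet θ γ R g (chField A 0 Y)}.indicator (fun _ => 1) Y

theorem obsCost_spec (θ γ R : ℝ) (g : Edge n → ℝ) (A : Fin n → Fin n → ℝ) (a l : ℝ)
    (x : Fin n → Bool) :
    Measurable (obsCost θ γ R g A a l x) ∧
      ∀ Y, 0 ≤ obsCost θ γ R g A a l x Y ∧ obsCost θ γ R g A a l x Y ≤ 1 + Real.exp l := by
  refine ⟨(measurable_const.indicator (measurableSet_lt measurable_const
    (by unfold chField; fun_prop))).add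
      ((measurable_const.indicator (measurableSet_failObs θ γ R g A x)).const_mul _), fun Y => ⟨?_, ?_⟩⟩
  · exact add_nonneg (Set.indicator_nonneg (fun _ _ => zero_le_one) _)
      (mul_nonneg (Real.exp_pos _).le (Set.indicator_nonneg (fun _ _ => zero_le_one) _))
  · exact add_le_add (Set.indicator_le_self' (fun _ _ => zero_le_one) Y)
      (mul_le_of_le_one_right (Real.exp_pos _).le (Set.indicator_le_self' (fun _ _ => zero_le_one) Y))

/-- Bad observations are paid by the configurations. -/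
theorem obsBad_le_cost (hA : IsRoot (skMat n 1 g) c L A) (β t γ R a l : ℝ) (Y : Fin n → ℝ) :
    (obsBad (β - t) γ R g A a l).indicator (fun Y => chG (skMat n β g) 0 A t Y) Y ≤
      ∑ x, weight (skMat n β g) 0 x * (chTilt A t Y x * obsCost (β - t) γ R g A a l x Y) := by
  classical
  set J := skMat n β g
  refine Set.indicator_le' (fun Y hY => ?_) (fun Y _ => Finset.sum_nonneg fun x _ =>
    mul_nonneg (weight_pos 0 x).le (mul_nonneg (chTilt_pos t Y x).le
      ((obsCost_spec _ _ _ g A a l x).2 Y).1)) Y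
  rcases hY with h1 | h2
  · refine Finset.sum_le_sum fun x _ => mul_le_mul_of_nonneg_left
      (le_mul_of_one_le_right (chTilt_pos t Y x).le ?_) (weight_pos 0 x).le
    rw [obsCost, Set.indicator_of_mem h1]
    exact le_add_of_nonneg_right
      (mul_nonneg (Real.exp_pos _).le (Set.indicator_nonneg (fun _ _ => zero_le_one) _))
  · simp only [Set.mem_ofPred_eq] at h2
    have h3 := mul_le_mul_of_nonneg_left h2.le (mul_nonneg (Real.exp_pos l).le
      (chG_pos (A := A) (y₀ := 0) J t Y).le)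
    rw [mul_assoc, mul_comm (chG J 0 A t Y) (Real.exp (-l)), ← mul_assoc, ← Real.exp_add,
      add_neg_cancel, Real.exp_zero, one_mul, mul_assoc (Real.exp l) (chG J 0 A t Y),
      ← sum_weight_tilt hA, Finset.mul_sum] at h3
    refine h3.trans (Finset.sum_le_sum fun x _ => ?_)
    rw [indicator_failSet_eq]
    have := mul_nonneg (mul_nonneg (weight_pos (J := J) 0 x).le (chTilt_pos (A := A) t Y x).le)
      (Set.indicator_nonneg (f := fun _ => (1 : ℝ)) (s := {Y : Fin n → ℝ | a < ∑ i, chField A 0 Y i ^ 2})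
        (fun _ _ => zero_le_one) Y)
    simp only [obsCost]
    linarith

/-- Large fields need a long noise vector. -/
theorem big_subset (hA : IsRoot (skMat n 1 g) c 3 A) (hc : 3 ≤ c)
    (hform : ∀ v : Fin n → ℝ, |∑ i, ∑ j, skMat n 1 g i j * v i * v j| ≤ 3 * ∑ i, v i ^ 2)
    {t : ℝ} (ht0 : 0 ≤ t) (ht1 : t ≤ 1) (x : Fin n → Bool) :
    (fun z : Fin n → ℝ => fun k => t * chDir A x k + √t * z k) ⁻¹'
        {Y | 64 * c ^ 2 * n < ∑ i, chField A 0 Y i ^ 2} ⊆
      {z | 3 * (n : ℝ) ≤ ∑ i, z i ^ 2} := by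
  intro z hz
  have hc0 : 0 < c := by linarith
  set T : (Fin n → ℝ) → Fin n → ℝ := fun z k => t * chDir A x k + √t * z k
  have hsq : ∑ k, chDir A x k ^ 2 ≤ 2 * c * n := by
    rw [chDir_sq hA]
    have := (abs_le.1 (hform fun i => spin (x i))).2
    simp only [Ent.spin_sq_eq, Finset.sum_const, Finset.card_univ, Fintype.card_fin,
      nsmul_eq_mul, mul_one] at this
    linarith [mul_le_mul_of_nonneg_right hc (Nat.cast_nonneg (α := ℝ) n)]
  by_contra hlt
  simp only [Set.mem_ofPred_eq, not_le] at hlt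
  simp only [Set.mem_preimage, Set.mem_ofPred_eq, chField, Pi.zero_apply, zero_add] at hz
  have h1 := hA.mul_vec_le hc0 (by gcongr) (T z)
  have h2 : ∑ k, T z k ^ 2 ≤ 4 * c * n + 6 * n := by
    refine (Finset.sum_le_sum fun k _ => add_sq_le (a := t * chDir A x k) (b := √t * z k)).trans ?_
    simp only [mul_pow, Real.sq_sqrt ht0, ← Finset.mul_sum, Finset.sum_add_distrib]
    have a1 := mul_le_mul (pow_le_one₀ (n := 2) ht0 ht1) hsq
      (Finset.sum_nonneg fun k _ => sq_nonneg _) zero_le_one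
    have a2 := mul_le_mul ht1 hlt.le (Finset.sum_nonneg fun k _ => sq_nonneg _) zero_le_one
    linarith
  have h3 := mul_le_mul_of_nonneg_left h2 (show 0 ≤ 4 * c by linarith)
  have h4 := mul_le_mul_of_nonneg_right hc (show 0 ≤ c * n by positivity)
  nlinarith [mul_nonneg (sq_nonneg c) (Nat.cast_nonneg (α := ℝ) n)]

/-- A failure near the observed fields is a failure near the white-noise fields. -/
theorem fail_subset (hA : IsRoot (skMat n 1 g) c 3 A) (hc : 3 ≤ c)
    {β t γ ε : ℝ} (ht0 : 0 ≤ t) (ht1 : t ≤ 1) (hε : 54 / c ≤ ε / 2) (hε0 : 0 ≤ ε)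
    (x : Fin n → Bool) :
    (fun z : Fin n → ℝ => fun k => t * chDir A x k + √t * z k) ⁻¹'
        {Y | x ∈ failSet (β - t) γ (ε / 4 * n) g (chField A 0 Y)} ⊆
      {z | ∃ w : Fin n → ℝ, ∑ i, w i ^ 2 ≤ ε * n ∧ CritFails (β - t) γ (skMat n 1 g)
          fun i => field (skMat n β g) 0 i x + t * c * spin (x i) + √(t * c) * z i + w i} ∪
        {z | 3 * (n : ℝ) ≤ ∑ i, z i ^ 2} := by
  intro z hz
  have hc0 : 0 < c := by linarith
  by_cases hbig : 3 * (n : ℝ) ≤ ∑ i, z i ^ 2
  · exact Or.inr hbig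
  · rw [not_le] at hbig
    obtain ⟨w, hw, hf⟩ := hz
    simp only [field_obs hA] at hf
    refine Or.inl ⟨fun i => w i + √t * ((∑ k, A i k * z k) - √c * z i), ?_, ?_⟩
    · refine (Finset.sum_le_sum fun i _ => add_sq_le (a := w i)).trans ?_
      simp only [mul_pow, Real.sq_sqrt ht0, ← Finset.mul_sum, Finset.sum_add_distrib]
      have h1 := mul_le_mul ht1 ((hA.near z).trans
        (mul_le_mul_of_nonneg_left hbig.le (by positivity)))
        (Finset.sum_nonneg fun i _ => sq_nonneg _) zero_le_one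
      have h2 := mul_le_mul_of_nonneg_right hε (Nat.cast_nonneg (α := ℝ) n)
      have h3 : 2 * (1 * (3 ^ 2 / c * (3 * (n : ℝ)))) = 54 / c * n := by ring
      have h4 := mul_nonneg hε0 (Nat.cast_nonneg (α := ℝ) n)
      linarith
    · have e : (fun i => field (skMat n β g) 0 i x + t * c * spin (x i) + √(t * c) * z i +
          (w i + √t * ((∑ k, A i k * z k) - √c * z i))) =
          fun i => field (skMat n β g) 0 i x + t * c * spin (x i) + √t * (∑ k, A i k * z k) +
            w i := funext fun i => by rw [Real.sqrt_mul ht0]; ring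
      rw [e]
      exact hf

/-- The cost of the observations given the configuration. -/
theorem obsCost_given (hA : IsRoot (skMat n 1 g) c 3 A) (hc : 3 ≤ c)
    (hform : ∀ v : Fin n → ℝ, |∑ i, ∑ j, skMat n 1 g i j * v i * v j| ≤ 3 * ∑ i, v i ^ 2)
    {β t γ ε l : ℝ} (ht0 : 0 ≤ t) (ht1 : t ≤ 1) (hε : 54 / c ≤ ε / 2) (hε0 : 0 ≤ ε)
    (x : Fin n → Bool) :
    ∫ z, chTilt A t (fun k => √t * z k) x *
        obsCost (β - t) γ (ε / 4 * n) g A (64 * c ^ 2 * n) l x (fun k => √t * z k) ∂stdPi (Fin n) ≤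
      Real.exp (-(n / 4)) + Real.exp l * ((stdPi (Fin n)).real
        {z | ∃ w : Fin n → ℝ, ∑ i, w i ^ 2 ≤ ε * n ∧ CritFails (β - t) γ (skMat n 1 g)
          fun i => field (skMat n β g) 0 i x + t * c * spin (x i) + √(t * c) * z i + w i} +
        Real.exp (-(n / 4))) := by
  rw [integral_chTilt_mul ht0 A x (obsCost_spec _ _ _ g A _ l x).1]
  exact (two_indicator (by fun_prop) (measurableSet_lt measurable_const (by unfold chField; fun_prop))
    (measurableSet_failObs _ _ _ g A x) (Real.exp l)).trans_le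
    (add_le_add ((measureReal_mono (big_subset hA hc hform ht0 ht1 x)).trans (length_tail n))
      (mul_le_mul_of_nonneg_left ((measureReal_mono
        (fail_subset (β := β) (γ := γ) hA hc ht0 ht1 hε hε0 x)).trans
          ((measureReal_union_le _ _).trans (add_le_add le_rfl (length_tail n)))) (Real.exp_pos l).le))

/-- The bad observations have small probability. -/
theorem obs_bad_le (hA : IsRoot (skMat n 1 g) c 3 A) (hc : 3 ≤ c)
    (hform : ∀ v : Fin n → ℝ, |∑ i, ∑ j, skMat n 1 g i j * v i * v j| ≤ 3 * ∑ i, v i ^ 2)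
    {β t γ ε r l : ℝ} (ht0 : 0 ≤ t) (ht1 : t ≤ 1) (hε : 54 / c ≤ ε / 2) (hε0 : 0 ≤ ε)
    (hmass : ∑ x, weight (skMat n β g) 0 x * (stdPi (Fin n)).real
        {z | ∃ w : Fin n → ℝ, ∑ i, w i ^ 2 ≤ ε * n ∧ CritFails (β - t) γ (skMat n 1 g)
          fun i => field (skMat n β g) 0 i x + t * c * spin (x i) + √(t * c) * z i + w i} ≤ r) :
    ∫ z, (obsBad (β - t) γ (ε / 4 * n) g A (64 * c ^ 2 * n) l).indicator
        (fun Y => chG (skMat n β g) 0 A t Y) (fun k => √t * z k) ∂stdPi (Fin n) ≤
      Real.exp (-(n / 4)) + Real.exp l * (r + Real.exp (-(n / 4))) := by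
  set J := skMat n β g
  set q := Real.exp (-((n : ℝ) / 4))
  have hint : ∀ x, Integrable (fun z : Fin n → ℝ => weight J 0 x *
      (chTilt A t (fun k => √t * z k) x *
        obsCost (β - t) γ (ε / 4 * n) g A (64 * c ^ 2 * n) l x fun k => √t * z k))
      (stdPi (Fin n)) := fun x => by
    obtain ⟨hm, hb⟩ := obsCost_spec (β - t) γ (ε / 4 * n) g A (64 * c ^ 2 * n) l x
    refine Integrable.const_mul ((integral_chTilt (A := A) ht0 x).2.mul_bdd (c := 1 + Real.exp l)
      (hm.comp (by fun_prop)).aestronglyMeasurable (Filter.Eventually.of_forall fun z => ?_)) _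
    simp only [Function.comp_apply]
    rw [Real.norm_of_nonneg (hb _).1]
    exact (hb _).2
  have hx := fun x => obsCost_given (l := l) (β := β) (γ := γ) hA hc hform ht0 ht1 hε hε0 x
  have hlhs : ∀ z : Fin n → ℝ, 0 ≤ (obsBad (β - t) γ (ε / 4 * n) g A (64 * c ^ 2 * n) l).indicator
      (fun Y => chG J 0 A t Y) (fun k => √t * z k) :=
    fun z => Set.indicator_nonneg (fun Y _ => (chG_pos J t Y).le) _
  refine (integral_mono_of_nonneg (Filter.Eventually.of_forall hlhs)
    (integrable_finsetSum _ fun x _ => hint x)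
    (Filter.Eventually.of_forall fun z => obsBad_le_cost hA β t γ _ _ l fun k => √t * z k)).trans ?_
  rw [integral_finsetSum _ fun x _ => hint x]
  refine (Finset.sum_le_sum fun x _ => ?_).trans
    (b := ∑ x, (weight J 0 x * (q + Real.exp l * q) + Real.exp l * (weight J 0 x *
      (stdPi (Fin n)).real {z | ∃ w : Fin n → ℝ, ∑ i, w i ^ 2 ≤ ε * n ∧
        CritFails (β - t) γ (skMat n 1 g) fun i =>
          field (skMat n β g) 0 i x + t * c * spin (x i) + √(t * c) * z i + w i}))) ?_
  · rw [integral_const_mul]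
    exact (mul_le_mul_of_nonneg_left (hx x) (weight_pos 0 x).le).trans_eq (by ring)
  · rw [Finset.sum_add_distrib, ← Finset.sum_mul, sum_weight, ← Finset.mul_sum]
    linarith [mul_le_mul_of_nonneg_left hmass (Real.exp_pos l).le]

end Vale.Agent.P150.Beyond
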