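import Vale.Agent.P150.Beyond.Good
import Vale.Agent.P150.Beyond.Obs

/-!
# P150 beyond one half: the entropy inequality at zero field

The channel first carries the entropy inequality of strength `49/100` to every field with a defect
of order `n`; run from zero field it then leaves a defect of order one.
-/

open Finset MeasureTheory Real
open Vale.Agent.P150.Fast
open Vale.Agent.P150.Fast.Ent (ent entAt phi lin)

namespace Vale.Agent.P150.Beyond

variable {n : ℕ} {g : Edge n → ℝ} {c : ℝ} {A : Fin n → Fin n → ℝ}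

theorem entAt_nonneg {J : Fin n → Fin n → ℝ} (hJ : IsCoupling J) (h : Fin n → ℝ) (j : Fin n)
    {f : (Fin n → Bool) → ℝ} (hf : ∀ x, 0 < f x) : 0 ≤ entAt J h j f := by
  rw [entAt, sub_nonneg, ← Ent.mean_cond hJ j (fun x => phi (f x))]
  refine mean_le_mean h fun y => ?_
  obtain ⟨h1, h2⟩ := Ent.half_tanh (field J h j y)
  exact Real.convexOn_mul_log.2 (hf (Function.update y j true)).le (hf (Function.update y j false)).le
    (by simp only [cmean, h1]; positivity) (by simp only [cmean, h2]; positivity) (by ring)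

theorem chDir_sq_le {L : ℝ} (hA : IsRoot (skMat n 1 g) c L A)
    (hform : ∀ v : Fin n → ℝ, |∑ i, ∑ j, skMat n 1 g i j * v i * v j| ≤ 3 * ∑ i, v i ^ 2)
    (x : Fin n → Bool) : ∑ k, chDir A x k ^ 2 ≤ (c + 3) * n := by
  rw [chDir_sq hA]
  have := (abs_le.1 (hform fun i => spin (x i))).2
  simp only [Ent.spin_sq_eq, Finset.sum_const, Finset.card_univ, Fintype.card_fin,
    nsmul_eq_mul, mul_one] at this
  linarith

theorem shiftSq_le {L : ℝ} (hA : IsRoot (skMat n 1 g) c L A)
    (hform : ∀ v : Fin n → ℝ, |∑ i, ∑ j, skMat n 1 g i j * v i * v j| ≤ 3 * ∑ i, v i ^ 2)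
    (J : Fin n → Fin n → ℝ) (y : Fin n → ℝ) (f : (Fin n → Bool) → ℝ) :
    shiftSq A J y f ≤ (c + 3) * ∑ i, magShift J y f i ^ 2 := by
  set v := magShift J y f
  have e : shiftSq A J y f =
      (∑ i, ∑ j, skMat n 1 g i j * v i * v j) + c * ∑ i, v i ^ 2 := by
    calc shiftSq A J y f = ∑ k, ∑ i, ∑ j, A i k * A j k * (v i * v j) := by
          refine Finset.sum_congr rfl fun k _ => ?_
          rw [sq, Finset.sum_mul_sum]
          exact Finset.sum_congr rfl fun i _ => Finset.sum_congr rfl fun j _ => by ring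
      _ = ∑ i, ∑ j, (skMat n 1 g i j + if i = j then c else 0) * (v i * v j) := by
          rw [Finset.sum_comm]
          refine Finset.sum_congr rfl fun i _ => ?_
          rw [Finset.sum_comm]
          exact Finset.sum_congr rfl fun j _ => by rw [← Finset.sum_mul, hA.gram]
      _ = _ := by
          simp only [add_mul, Finset.sum_add_distrib, ite_mul, zero_mul, Finset.sum_ite_eq,
            Finset.mem_univ, if_true, Finset.mul_sum, ← sq, mul_assoc]
  rw [e]
  linarith [(abs_le.1 (hform v)).2]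

/-- What the end of the channel costs. -/
theorem end_le {L : ℝ} (hA : IsRoot (skMat n 1 g) c L A) {θ T CB : ℝ} (hT : 0 ≤ T)
    (hend : θ - T = 49 / 100) (hCB : 0 ≤ CB)
    (hbase : ∀ (h : Fin n → ℝ) (f : (Fin n → Bool) → ℝ), (∀ x, 0 < f x) →
      ent (skMat n (49 / 100) g) h f ≤ CB * ∑ j, entAt (skMat n (49 / 100) g) h j f)
    (y₀ : Fin n → ℝ) {f : (Fin n → Bool) → ℝ} (hf : ∀ x, 0 < f x) :
    ∫ z, chG (skMat n θ g) y₀ A T (fun i => √T * z i) *
        ent (skMat n (θ - T) g) (chField A y₀ fun i => √T * z i) f ∂stdPi (Fin n) ≤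
      CB * ∑ j, entAt (skMat n θ g) y₀ j f := by
  have hi := fun j => integrable_chG_entAt hA hT θ y₀ j f
  have hpt : ∀ z : Fin n → ℝ, chG (skMat n θ g) y₀ A T (fun i => √T * z i) *
      ent (skMat n (θ - T) g) (chField A y₀ fun i => √T * z i) f ≤
      CB * ∑ j, chG (skMat n θ g) y₀ A T (fun i => √T * z i) *
        entAt (skMat n (θ - T) g) (chField A y₀ fun i => √T * z i) j f := fun z => by
    rw [← Finset.mul_sum, mul_left_comm CB]
    refine mul_le_mul_of_nonneg_left ?_ (chG_pos _ _ _).le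
    rw [hend]
    exact hbase _ f hf
  refine (integral_mono (integral_chG_ent hA hT θ y₀ f).2
    ((integrable_finsetSum _ fun j _ => hi j).const_mul CB) hpt).trans ?_
  rw [integral_const_mul, integral_finsetSum _ fun j _ => hi j]
  exact mul_le_mul_of_nonneg_left (Finset.sum_le_sum fun j _ => entAt_channel hA hT θ y₀ j hf) hCB

/-- Defective entropy inequalities at every field. -/
theorem defect_uniform (hroot : RootExists) (hn : 0 < n)
    (hform : ∀ v : Fin n → ℝ, |∑ i, ∑ j, skMat n 1 g i j * v i * v j| ≤ 3 * ∑ i, v i ^ 2)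
    {cS εS CB : ℝ} (hcS : 0 < cS) (hεS : 0 < εS) (hCB : 0 ≤ CB)
    (hst : ∀ θ : ℝ, 0 ≤ θ → θ ≤ 3 / 5 → StableFields n θ g cS εS)
    (hbase : ∀ (h : Fin n → ℝ) (f : (Fin n → Bool) → ℝ), (∀ x, 0 < f x) →
      ent (skMat n (49 / 100) g) h f ≤ CB * ∑ j, entAt (skMat n (49 / 100) g) h j f)
    {θ : ℝ} (hθ : 49 / 100 ≤ θ) (hθ' : θ ≤ 3 / 5) (h : Fin n → ℝ) :
    DefectLSI (skMat n θ g) h (Real.exp (14 / cS) * CB)
      (Real.exp (14 / cS) * (7 / cS + 1) * εS * n) := by
  intro f hf
  obtain ⟨A, hA⟩ := hroot n (skMat n 1 g) 4 3 (isCoupling_skMat n 1 g).1 (by norm_num) (by norm_num)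
    hform
  have hn' : (0 : ℝ) < n := by exact_mod_cast hn
  set T := θ - 49 / 100 with hTdef
  have hT0 : 0 ≤ T := by linarith
  have hT1 : T ≤ 1 := by linarith
  set B := 7 * (n : ℝ) with hBdef
  set K := 7 / cS with hKdef
  have hK0 : 0 ≤ K := by positivity
  obtain ⟨M, hM⟩ := exists_nat_ge (4 * B + 2 * K + 144 * B ^ 2 / (εS * n))
  set N := M + 1
  have hN : (4 * B + 2 * K + 144 * B ^ 2 / (εS * n)) ≤ N := by
    push_cast [N]; linarith
  have hN0 : (0 : ℝ) < N := by positivity
  have hTN : ∀ a : ℝ, 0 ≤ a → a ≤ N → T / N * a ≤ 1 := fun a ha haN => by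
    rw [div_mul_eq_mul_div, div_le_one hN0]
    exact (mul_le_of_le_one_left ha hT1).trans haN
  have hp : 0 ≤ 144 * B ^ 2 / (εS * n) := by positivity
  set m := mean (skMat n θ g) h f
  have hm : 0 < m := Ent.mean_pos hf
  have hrun := channel_run (T := T) (K := K) (δ := K * εS * n) (N := N) hA (B := B)
    (fun x => (chDir_sq_le hA hform x).trans_eq (by ring)) hT0 (Nat.succ_pos M) hK0
    (by linarith [hTN (4 * B) (by positivity) (by linarith)])
    (by linarith [hTN (2 * K) (by positivity) (by linarith)]) θ h hf (fun _ => Set.univ)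
    (fun _ => MeasurableSet.univ) (by positivity) (fun k hk Y => ?_) (D := m) (fun k _ => ?_)
  · refine hrun.trans ?_
    have he := end_le (θ := θ) (T := T) hA hT0 (by ring) hCB hbase h hf
    have h1 : T * (K * εS * n) * max m 0 + 144 * (T / N) * T * B ^ 2 * m ≤
        (K + 1) * εS * n * m := by
      have a1 : T * (K * εS * n) * max m 0 ≤ 1 * (K * εS * n) * m := by
        rw [max_eq_left hm.le]
        exact mul_le_mul_of_nonneg_right (mul_le_mul_of_nonneg_right hT1 (by positivity)) hm.le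
      have a2 : 144 * (T / N) * T * B ^ 2 ≤ εS * n := by
        have hq : 144 * B ^ 2 ≤ N * (εS * n) := (div_le_iff₀ (by positivity)).1 (by linarith)
        rw [show 144 * (T / N) * T * B ^ 2 = T * T * (144 * B ^ 2) / N by ring, div_le_iff₀ hN0]
        refine le_trans (mul_le_of_le_one_left (by positivity) ?_) (hq.trans_eq (mul_comm _ _))
        exact mul_le_one₀ hT1 hT0 hT1
      linarith [mul_le_mul_of_nonneg_right a2 hm.le]
    have hsum : 0 ≤ ∑ j, entAt (skMat n θ g) h j f :=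
      Finset.sum_nonneg fun j _ => entAt_nonneg (isCoupling_skMat n θ g) h j hf
    have hexp : Real.exp (2 * T * K) ≤ Real.exp (14 / cS) := by
      refine Real.exp_le_exp.2 ?_
      rw [show 14 / cS = 2 * K by ring]
      exact mul_le_mul_of_nonneg_right (by linarith) hK0
    refine (mul_le_mul_of_nonneg_left (add_le_add he h1) (Real.exp_pos _).le).trans
      ((mul_le_mul_of_nonneg_right hexp (by positivity)).trans_eq ?_)
    ring
  · have hN1 : (k : ℝ) ≤ N := by exact_mod_cast hk.le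
    have ht : T * k / N ≤ T := by
      rw [mul_div_assoc]
      exact mul_le_of_le_one_right hT0 ((div_le_one hN0).2 hN1)
    have hs := hst (θ - T * k / N) (by linarith) (by
      have : 0 ≤ T * k / N := by positivity
      linarith) (chField A h Y) f hf
    rw [if_pos (Set.mem_univ Y)]
    refine (shiftSq_le hA hform _ _ f).trans ?_
    have hmy : 0 < mean (skMat n (θ - T * k / N) g) (chField A h Y) f := Ent.mean_pos hf
    have := mul_le_mul_of_nonneg_left hs (show 0 ≤ K by positivity)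
    rw [← mul_assoc, div_mul_cancel₀ _ hcS.ne'] at this
    linarith
  · simp only [Set.mem_univ, if_true]
    exact (integral_chG_mean hA (by positivity) θ h f).1.le

/-- The entropy inequality at zero field, with a small defect. -/
theorem defect_zero {β γ ε C δ r A₀ κ ε₁ L α τ s cS εS CB l₁ l₂ q : ℝ}
    (hA : IsRoot (skMat n 1 g) c 3 A) (hc : 3 ≤ c) (hε0 : 0 ≤ ε) (hcε : 54 / c ≤ ε / 2)
    (hR : Regular n g τ) (hτ0 : 0 ≤ τ) (hτ : τ ≤ 1 / 20)
    (hK : GoodConsts γ (ε / 4) C δ r A₀ κ ε₁ L α) (hA₀ : A₀ = 64 * c ^ 2) (hl₁ : l₁ = r * n)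
    (hn : 1 ≤ κ * n) (hα : 100 ≤ α * n)
    (herr : 8020 * τ + 6 / (α * n) * (200 + 2 / κ) ≤ γ / 2)
    (hs : 0 < s) (hsγ : s * (2 / γ) ≤ 1) (hs₁ : 4 * s ^ 2 ≤ ε₁)
    (hcS : 0 < cS) (hεS : 0 < εS) (hCB : 0 ≤ CB)
    (hst : ∀ θ : ℝ, 0 ≤ θ → θ ≤ 3 / 5 → StableFields n θ g cS εS)
    (hbase : ∀ (h : Fin n → ℝ) (f : (Fin n → Bool) → ℝ), (∀ x, 0 < f x) →
      ent (skMat n (49 / 100) g) h f ≤ CB * ∑ j, entAt (skMat n (49 / 100) g) h j f)
    (hD : ∀ θ : ℝ, 49 / 100 ≤ θ → θ ≤ 3 / 5 → ∀ h, DefectLSI (skMat n θ g) h C (δ * n))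
    (hβ0 : 1 / 2 ≤ β) (hβ1 : β ≤ 3 / 5) {N : ℕ}
    (hN : 4 * ((c + 3) * n) ≤ N) (hNK : 2 * ((c + 3) * (2 / s + 1 / cS)) ≤ N)
    (hl₂ : 0 < l₂) (hq : Real.exp l₂ * (Real.exp (-(n / 4)) +
      Real.exp l₁ * (q + Real.exp (-(n / 4)))) ≤ 1)
    (hmass : ∀ k ≤ N, ∀ t : ℝ, t = (β - 49 / 100) * k / N →
      ∑ x, weight (skMat n β g) 0 x * (stdPi (Fin n)).real
        {z | ∃ w : Fin n → ℝ, ∑ i, w i ^ 2 ≤ ε * n ∧ CritFails (β - t) γ (skMat n 1 g)
          fun i => field (skMat n β g) 0 i x + t * c * spin (x i) + √(t * c) * z i + w i} ≤ q)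
    (hsmall : Real.exp (2 * ((c + 3) * (2 / s + 1 / cS))) * ((c + 3) / cS * εS * n / l₂) ≤ 1 / 1024)
    (hsmall' : Real.exp (2 * ((c + 3) * (2 / s + 1 / cS))) * (144 * ((c + 3) * n) ^ 2 / N) ≤ 1 / 1024)
    {f : (Fin n → Bool) → ℝ} (hf : ∀ x, 0 < f x) (h1 : mean (skMat n β g) 0 f = 1) :
    ent (skMat n β g) 0 f ≤
      2 * (Real.exp (2 * ((c + 3) * (2 / s + 1 / cS))) * CB) *
        ∑ j, entAt (skMat n β g) 0 j f + 1 / 128 := by
  classical
  set T := β - 49 / 100 with hTdef
  have hT0 : 0 ≤ T := by linarith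
  have hT1 : T ≤ 1 := by linarith
  set B := (c + 3) * (n : ℝ)
  set K := (c + 3) * (2 / s + 1 / cS)
  set E := Real.exp (2 * K)
  set dd := (c + 3) / cS * εS * n
  have hK0 : 0 ≤ K := by positivity
  have hN0 : 0 < N := by
    have : (0 : ℝ) < N := lt_of_lt_of_le (by positivity) hNK
    exact_mod_cast this
  have hN0' : (0 : ℝ) < N := by exact_mod_cast hN0
  set θk : ℕ → ℝ := fun k => β - T * k / N with hθk
  set bad : ℕ → Set (Fin n → ℝ) := fun k =>
    obsBad (θk k) γ (ε / 4 * n) g A (64 * c ^ 2 * n) l₁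
  set m := mean (skMat n β g) 0 f
  set Ent0 := ent (skMat n β g) 0 f
  have hEnt0 : mean (skMat n β g) 0 (fun x => phi (f x)) = Ent0 := by
    simp [Ent0, ent, h1, phi, m]
  have hrange : ∀ k ≤ N, 0 ≤ T * k / N ∧ 49 / 100 ≤ θk k ∧ θk k ≤ 3 / 5 := fun k hk => by
    have hN1 : (k : ℝ) ≤ N := by exact_mod_cast hk
    have ht : T * k / N ≤ T := by
      rw [mul_div_assoc]
      exact mul_le_of_le_one_right hT0 ((div_le_one hN0').2 hN1)
    have ht0 : 0 ≤ T * k / N := by positivity
    exact ⟨ht0, by simp only [hθk]; linarith, by simp only [hθk]; linarith⟩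
  have hTN : ∀ a : ℝ, 0 ≤ a → a ≤ N → T / N * a ≤ 1 := fun a ha haN => by
    rw [div_mul_eq_mul_div, div_le_one hN0']
    exact (mul_le_of_le_one_left ha hT1).trans haN
  have hbound : ∀ k < N, ∀ Y : Fin n → ℝ,
      shiftSq A (skMat n (β - T * k / N) g) (chField A 0 Y) f ≤
        mean (skMat n (β - T * k / N) g) (chField A 0 Y) f *
          (K * ent (skMat n (β - T * k / N) g) (chField A 0 Y) f +
            if Y ∈ bad k then dd * mean (skMat n (β - T * k / N) g) (chField A 0 Y) f else 0) :=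
    fun k hk Y => by
    obtain ⟨ht0, hθ0, hθ1⟩ := hrange k hk.le
    set θ := θk k
    show shiftSq A (skMat n θ g) (chField A 0 Y) f ≤ mean (skMat n θ g) (chField A 0 Y) f *
      (K * ent (skMat n θ g) (chField A 0 Y) f +
        if Y ∈ bad k then dd * mean (skMat n θ g) (chField A 0 Y) f else 0)
    set y := chField A 0 Y
    refine (shiftSq_le hA hR.form _ _ f).trans ?_
    have hM : 0 < mean (skMat n θ g) y f := Ent.mean_pos hf
    have hme : 0 ≤ mean (skMat n θ g) y f * ent (skMat n θ g) y f :=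
      mul_nonneg hM.le (ent_nonneg hf)
    have hc3 : 0 ≤ c + 3 := by linarith
    by_cases hY : Y ∈ bad k
    · rw [if_pos hY]
      have hS := hst θ (by linarith) hθ1 y f hf
      rw [← le_div_iff₀' hcS] at hS
      refine (mul_le_mul_of_nonneg_left hS hc3).trans ?_
      have := mul_nonneg (mul_nonneg hc3 (show 0 ≤ 2 / s by positivity)) hme
      simp only [K, dd]
      generalize mean (skMat n θ g) y f = M at this ⊢
      generalize ent (skMat n θ g) y f = H at this ⊢
      rw [show M * ((c + 3) * (2 / s + 1 / cS) * H + (c + 3) / cS * εS * n * M) =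
        (c + 3) * (M * (H + εS * n * M) / cS) + (c + 3) * (2 / s) * (M * H) by ring]
      exact le_add_of_nonneg_right this
    · rw [if_neg hY, add_zero]
      simp only [bad, obsBad, Set.mem_union, Set.mem_ofPred_eq, not_or, not_lt] at hY
      obtain ⟨hY1, hY2⟩ := hY
      have hy : ∑ i, y i ^ 2 ≤ A₀ * n := by rw [hA₀]; exact hY1
      have hmy : mean (skMat n θ g) y
          (fun x => if x ∈ failSet θ γ (ε / 4 * n) g y then 1 else 0) ≤ Real.exp (-(r * n)) := by
        rw [← hl₁]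
        refine le_trans (le_of_eq (congrArg _ (funext fun x => ?_))) hY2
        by_cases hx : x ∈ failSet θ γ (ε / 4 * n) g y <;> simp [hx, θ, y]
      have hsh := shift_le_of_ball (J := skMat n θ g) (y := y) (η := 2 / γ) (R := ε₁ * n) hs hsγ
        (by linarith [mul_le_mul_of_nonneg_right hs₁ (Nat.cast_nonneg (α := ℝ) n)]) (fun w hw v => ?_) hf
      · refine (mul_le_mul_of_nonneg_left hsh hc3).trans ?_
        have := mul_nonneg (mul_nonneg hc3 (show 0 ≤ 1 / cS by positivity)) hme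
        simp only [K]
        linarith
      · have hp := poincare_near hK hR hτ0 hτ (by linarith) (by linarith) hn hα herr
          (hD θ hθ0 hθ1) hy hmy hw (lin v)
        have := hp.trans (Finset.sum_le_sum fun i _ => site_lin_le _ v i)
        have hγ := hK.pos_γ
        rw [div_mul_eq_mul_div, le_div_iff₀ hγ]
        linarith
  have hmassk : ∀ k < N, ∫ z, (if (fun i => √(T * k / N) * z i) ∈ bad k then
      chG (skMat n β g) 0 A (T * k / N) (fun i => √(T * k / N) * z i) *
        mean (skMat n (β - T * k / N) g) (chField A 0 fun i => √(T * k / N) * z i) f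
      else 0) ∂stdPi (Fin n) ≤ (Ent0 + 2) / l₂ := fun k hk => by
    obtain ⟨ht0, hθ0, hθ1⟩ := hrange k hk.le
    set t := T * k / N
    refine (bad_mass_le (l := l₂) hA ht0 β 0 hf (measurableSet_obsBad _ _ _ g A _ _) hl₂
      (p := Real.exp (-((n : ℝ) / 4)) + Real.exp l₁ * (q + Real.exp (-((n : ℝ) / 4)))) ?_).trans
      (div_le_div_of_nonneg_right ?_ hl₂.le)
    · refine le_trans (le_of_eq (congrArg _ (funext fun z => ?_)))
        (obs_bad_le (l := l₁) hA hc hR.form (β := β) (t := t) (γ := γ) ht0 (by linarith) hcε hε0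
          (hmass k hk.le t rfl))
      simp only [θk, Set.indicator_apply, t]
    · have hQ : chQ β g 0 A t f ≤ Ent0 := by
        rw [← hEnt0, ← sub_nonneg, ← (integral_chG_ent hA ht0 β 0 f).1]
        exact integral_nonneg fun z => mul_nonneg (chG_pos _ _ _).le (ent_nonneg hf)
      linarith
  have hrun := channel_run (T := T) (K := K) (δ := dd) (N := N) hA (B := B)
    (fun x => chDir_sq_le hA hR.form x) hT0 hN0 hK0
    (by linarith [hTN (4 * B) (by positivity) hN]) (by linarith [hTN (2 * K) (by positivity) hNK])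
    β 0 hf bad (fun k => measurableSet_obsBad _ _ _ g A _ _) (by positivity) hbound hmassk
  have he := end_le (θ := β) (T := T) hA hT0 (by ring) hCB hbase 0 hf
  set S := ∑ j, entAt (skMat n β g) 0 j f
  have hS : 0 ≤ S := Finset.sum_nonneg fun j _ => entAt_nonneg (isCoupling_skMat n β g) 0 j hf
  have hE0 : 0 ≤ Ent0 := ent_nonneg hf
  have hTT : T * T ≤ 1 := mul_le_one₀ hT1 hT0 hT1
  have h2 : T * dd * max ((Ent0 + 2) / l₂) 0 + 144 * (T / N) * T * B ^ 2 * m ≤
      dd / l₂ * (Ent0 + 2) + 144 * B ^ 2 / N := by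
    refine add_le_add ?_ ?_
    · rw [max_eq_left (by positivity)]
      refine (mul_le_mul_of_nonneg_right (mul_le_of_le_one_left (by positivity) hT1)
        (by positivity)).trans_eq ?_
      ring
    · rw [show m = 1 from h1, mul_one, show 144 * (T / N) * T * B ^ 2 = T * T * (144 * B ^ 2 / N) by ring]
      exact mul_le_of_le_one_left (by positivity) hTT
  have hexp : Real.exp (2 * T * K) ≤ E :=
    Real.exp_le_exp.2 (mul_le_mul_of_nonneg_right (by linarith) hK0)
  have h3 := hrun.trans ((mul_le_mul_of_nonneg_left (add_le_add he h2) (Real.exp_pos _).le).trans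
    (mul_le_mul_of_nonneg_right hexp (by positivity)))
  have h4 := mul_le_mul_of_nonneg_right hsmall (show 0 ≤ Ent0 + 2 by linarith)
  have h5 : 0 ≤ E * CB * S := mul_nonneg (mul_nonneg (Real.exp_pos _).le hCB) hS
  linarith

end Vale.Agent.P150.Beyond
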