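import Vale.Agent.P150.Fast.Ent.Decay
import Vale.Agent.P150.Fast.Bridge

/-!
# P150 beyond one half: the definitions and the interfaces of the modules

See `notes/P150/helper7-02Dec.md`. `K` is `skMat n 1 g`; a field vector `h` below is the external
field, except in `CritFails`, where it is the total local field.
-/

open Finset MeasureTheory Real
open Vale.Agent.P150.Fast
open Vale.Agent.P150.Fast.Ent (ent entAt mag logZ)

namespace Vale.Agent.P150.Beyond

variable {n : ℕ}

/-- Relative entropy of a `±1` variable of mean `m` to the uniform one. -/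
noncomputable def binEnt (m : ℝ) : ℝ :=
  ((1 + m) * Real.log (1 + m) + (1 - m) * Real.log (1 - m)) / 2

/-- The squared length of `m` divided by the number of sites. -/
noncomputable def qOf (m : Fin n → ℝ) : ℝ := (∑ i, m i ^ 2) / n

/-- The TAP free energy of magnetisations `m`. -/
noncomputable def tap (θ : ℝ) (g : Edge n → ℝ) (m : Fin n → ℝ) : ℝ :=
  (∑ i, binEnt (m i)) - θ / 2 * (∑ i, ∑ j, skMat n 1 g i j * m i * m j) -
    n * θ ^ 2 / 4 * (1 - qOf m) ^ 2

/-- `E f σ_i - E f E σ_i`. -/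
noncomputable def magShift (J : Fin n → Fin n → ℝ) (h : Fin n → ℝ) (f : (Fin n → Bool) → ℝ)
    (i : Fin n) : ℝ :=
  mean J h (fun x => f x * spin (x i)) - mean J h f * mag J h i

/-- Entropy dominates the squared change of the magnetisations, up to `ε n`, for every field. -/
def StableFields (n : ℕ) (θ : ℝ) (g : Edge n → ℝ) (c ε : ℝ) : Prop :=
  ∀ (h : Fin n → ℝ) (f : (Fin n → Bool) → ℝ), (∀ x, 0 < f x) →
    c * ∑ i, magShift (skMat n θ g) h f i ^ 2 ≤
      mean (skMat n θ g) h f *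
        (ent (skMat n θ g) h f + ε * n * mean (skMat n θ g) h f)

/-- Entropy is at most `C` times the sum of the conditional entropies, plus `δ` times the mean. -/
def DefectLSI (J : Fin n → Fin n → ℝ) (h : Fin n → ℝ) (C δ : ℝ) : Prop :=
  ∀ f : (Fin n → Bool) → ℝ, (∀ x, 0 < f x) →
    ent J h f ≤ C * ∑ j, entAt J h j f + δ * mean J h f

/-- The matrix of the pair criterion at local fields `h`: some nonzero `u` violates it. -/
def CritFails (θ γ : ℝ) (M : Fin n → Fin n → ℝ) (h : Fin n → ℝ) : Prop :=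
  ∃ u : Fin n → ℝ, (1 - γ) * ∑ i, u i ^ 2 * Real.cosh (h i) ^ 2 <
    θ * (∑ i, ∑ j, M i j * u i * u j) + 2 * θ ^ 2 / n * (∑ i, Real.tanh (h i) * u i) ^ 2

/-- The couplings of strength one, planted at the all-ones configuration. -/
noncomputable def plantMat (n : ℕ) (β : ℝ) (g : Edge n → ℝ) (i j : Fin n) : ℝ :=
  skMat n 1 g i j + if i = j then 0 else β / n

/-- The planted local fields, with signal `σ` and white noise of variance `σ`. -/
noncomputable def plantField (n : ℕ) (β σ : ℝ) (p : (Edge n → ℝ) × (Fin n → ℝ)) (i : Fin n) : ℝ :=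
  β * (∑ j, plantMat n β p.1 i j) + σ + √σ * p.2 i

/-- (Planted): the criterion holds at planted fields and all their perturbations of squared length
at most `ε n`, outside an exponentially small event. -/
def PlantedBound : Prop :=
  ∀ β : ℝ, 1 / 2 ≤ β → β ≤ 3 / 5 → ∃ γ : ℝ, 0 < γ ∧ ∃ ε : ℝ, 0 < ε ∧ ∃ c : ℝ, 0 < c ∧
    ∃ n₀ : ℕ, ∀ n ≥ n₀, ∀ θ : ℝ, 0 ≤ θ → θ ≤ β → ∀ σ : ℝ, 0 ≤ σ →
      ((disorder n).prod (stdPi (Fin n))).real
        {p | ∃ w : Fin n → ℝ, ∑ i, w i ^ 2 ≤ ε * n ∧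
          CritFails θ γ (plantMat n β p.1) (fun i => plantField n β σ p i + w i)} ≤
        Real.exp (-c * n)

/-- (Stability): uniform TAP bounds and convexity give stability for every field up to `3/5`. -/
def StabilityBound : Prop :=
  ∃ c : ℝ, 0 < c ∧ ∀ ε : ℝ, 0 < ε → ∀ η : ℝ, 0 < η → ∃ n₀ : ℕ, ∀ n ≥ n₀,
    ENNReal.ofReal (1 - η) ≤ disorder n {g | ∀ θ : ℝ, 0 ≤ θ → θ ≤ 3 / 5 → StableFields n θ g c ε}

/-- (Squares): the entrywise square of the couplings is close to the rank one average. -/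
def SquareBound : Prop :=
  ∀ ε : ℝ, 0 < ε → ∀ η : ℝ, 0 < η → ∃ n₀ : ℕ, ∀ n ≥ n₀,
    ENNReal.ofReal (1 - η) ≤ disorder n {g | ∀ a : Fin n → ℝ,
      ∑ i, ∑ j, skMat n 1 g i j ^ 2 * a i * a j ≤ (∑ i, a i) ^ 2 / n + ε * ∑ i, a i ^ 2}

end Vale.Agent.P150.Beyond
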