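import Vale.Agent.P150.Beyond.Bochner
import Vale.Agent.P150.Beyond.Defs

/-!
# P150 beyond one half: quadratic forms of the couplings, and the criterion in the local fields
-/

open Finset Real
open Vale.Agent.P150.Fast

namespace Vale.Agent.P150.Beyond

variable {ι : Type*} [Fintype ι] [DecidableEq ι]

omit [DecidableEq ι] in
/-- A two-sided bound on the form bounds the image. -/
theorem mulVec_sq_le {A : ι → ι → ℝ} (hA : ∀ i j, A i j = A j i) {L : ℝ} (hL : 0 < L)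
    (h : ∀ v : ι → ℝ, |∑ i, ∑ j, A i j * v i * v j| ≤ L * ∑ i, v i ^ 2) (v : ι → ℝ) :
    ∑ i, (∑ j, A i j * v j) ^ 2 ≤ L ^ 2 * ∑ i, v i ^ 2 := by
  set w : ι → ℝ := fun i => (∑ j, A i j * v j) / L with hw
  have e : (∑ i, ∑ j, A i j * (v i + w i) * (v j + w j)) -
      ∑ i, ∑ j, A i j * (v i - w i) * (v j - w j) = 4 * L * ∑ i, w i ^ 2 := by
    have e1 : ∑ i, ∑ j, A i j * v i * w j = ∑ i, ∑ j, A i j * w i * v j := by
      rw [Finset.sum_comm]
      exact Finset.sum_congr rfl fun i _ => Finset.sum_congr rfl fun j _ => by rw [hA j i]; ring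
    have e2 : ∑ i, ∑ j, A i j * w i * v j = L * ∑ i, w i ^ 2 := by
      rw [Finset.mul_sum]
      refine Finset.sum_congr rfl fun i _ => ?_
      simp only [mul_right_comm _ (w i), ← Finset.sum_mul]
      rw [show ∑ j, A i j * v j = L * w i by rw [hw]; field_simp]
      ring
    simp only [mul_add, add_mul, mul_sub, sub_mul, Finset.sum_add_distrib, Finset.sum_sub_distrib]
    linarith
  have a := (abs_le.1 (h fun i => v i + w i)).2
  have b := (abs_le.1 (h fun i => v i - w i)).1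
  have c : ∀ i, L ^ 2 * w i ^ 2 = (∑ j, A i j * v j) ^ 2 := fun i => by rw [hw]; field_simp
  have d : (∑ i, (v i + w i) ^ 2) + ∑ i, (v i - w i) ^ 2 =
      2 * ∑ i, v i ^ 2 + 2 * ∑ i, w i ^ 2 := by
    simp only [Finset.mul_sum, ← Finset.sum_add_distrib]
    exact Finset.sum_congr rfl fun i _ => by ring
  rw [← Finset.sum_congr rfl fun i _ => c i, ← Finset.mul_sum]
  refine mul_le_mul_of_nonneg_left ?_ (sq_nonneg L)
  refine le_of_mul_le_mul_left (?_ : L * ∑ i, w i ^ 2 ≤ L * _) hL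
  have := congrArg (fun s => L * s) d
  linarith

omit [DecidableEq ι] in
/-- Third order terms of a symmetric form. -/
theorem abs_form_le {A J : ι → ι → ℝ} {τ ρ : ℝ} (hτ0 : 0 ≤ τ) (hs : ∀ i j, J i j = J j i)
    (hA : ∀ i j, |A i j| ≤ τ * J i j ^ 2) (hρ : ∀ i, ∑ j, J i j ^ 2 ≤ ρ) (u : ι → ℝ) :
    ∑ i, ∑ j, A i j * u i * u j ≤ τ * ρ * ∑ i, u i ^ 2 := by
  refine le_trans (Finset.sum_le_sum fun i _ => Finset.sum_le_sum fun j _ =>
    (show A i j * u i * u j ≤ τ / 2 * (J i j ^ 2 * u i ^ 2 + J i j ^ 2 * u j ^ 2) from ?_)) ?_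
  · refine (le_abs_self _).trans ?_
    rw [mul_assoc, abs_mul]
    refine (mul_le_mul_of_nonneg_right (hA i j) (abs_nonneg _)).trans ?_
    have h2 : |u i * u j| ≤ (u i ^ 2 + u j ^ 2) / 2 := by
      rw [abs_le]; constructor <;> linarith [two_mul_le_add_sq (u i) (u j),
        two_mul_le_add_sq (u i) (-(u j)), neg_sq (u j)]
    exact (mul_le_mul_of_nonneg_left h2 (mul_nonneg hτ0 (sq_nonneg _))).trans_eq (by ring)
  · simp only [← Finset.mul_sum, Finset.sum_add_distrib, ← Finset.sum_mul]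
    have e : ∑ i, ∑ j, J i j ^ 2 * u j ^ 2 = ∑ i, (∑ j, J i j ^ 2) * u i ^ 2 := by
      rw [Finset.sum_comm]
      simp only [Finset.sum_mul]
      exact Finset.sum_congr rfl fun i _ => Finset.sum_congr rfl fun j _ => by rw [hs i j]
    rw [e]
    have := Finset.sum_le_sum (s := univ) fun i _ =>
      mul_le_mul_of_nonneg_right (hρ i) (sq_nonneg (u i))
    rw [← Finset.mul_sum] at this
    linarith [mul_le_mul_of_nonneg_left this hτ0]

theorem abs_eff_le {t : ℝ} (ht : |t| ≤ 1 / 20) :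
    |eff t - t| ≤ |t| * t ^ 2 ∧ |Real.tanh t - t| ≤ 6 * |t| ^ 3 := by
  have h1 := abs_eff_sub (t := t) (by linarith)
  refine ⟨h1.trans_eq (by rw [pow_succ' |t| 2, sq_abs]), ?_⟩
  have hc := Real.cosh_pos t
  have hsinh : |Real.sinh t| ≤ 2 * |t| := by
    have h2 : |eff t| ≤ 2 * |t| := by
      have := abs_sub_abs_le_abs_sub (eff t) t
      have : |t| ^ 3 ≤ |t| := by
        simpa using pow_le_pow_of_le_one (abs_nonneg t) (by linarith) (show 1 ≤ 3 by norm_num)
      linarith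
    refine le_trans ?_ h2
    rw [eff, abs_mul, abs_of_pos hc]
    exact le_mul_of_one_le_right (abs_nonneg _) (Real.one_le_cosh t)
  have e : eff t - Real.tanh t = Real.tanh t * Real.sinh t ^ 2 := by
    rw [eff, Real.tanh_eq_sinh_div_cosh]
    field_simp
    linear_combination Real.sinh t * Real.cosh_sq t
  calc |Real.tanh t - t| ≤ |Real.tanh t - eff t| + |eff t - t| := abs_sub_le _ _ _
    _ ≤ |t| * (2 * |t|) ^ 2 + |t| ^ 3 := by
        refine add_le_add ?_ h1
        rw [abs_sub_comm, e, abs_mul, abs_pow]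
        exact mul_le_mul (abs_tanh_le t) (pow_le_pow_left₀ (abs_nonneg _) hsinh 2)
          (sq_nonneg _) (abs_nonneg _)
    _ ≤ _ := by linarith [pow_nonneg (abs_nonneg t) 3]

theorem abs_tanh_sq_sub {t τ : ℝ} (ht : |t| ≤ τ) (hτ : τ ≤ 1 / 20) :
    |Real.tanh t ^ 2 - t ^ 2| ≤ τ * t ^ 2 := by
  have h6 := (abs_eff_le (ht.trans hτ)).2
  have h2 : |Real.tanh t + t| ≤ 2 * |t| := (abs_add_le _ _).trans (by linarith [abs_tanh_le t])
  rw [sq_sub_sq, abs_mul]
  refine (mul_le_mul h2 h6 (abs_nonneg _) (by positivity)).trans ?_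
  have e : 2 * |t| * (6 * |t| ^ 3) = 12 * |t| ^ 2 * t ^ 2 := by rw [← sq_abs t]; ring
  rw [e]
  refine mul_le_mul_of_nonneg_right ?_ (sq_nonneg t)
  have := mul_le_mul_of_nonneg_left (ht.trans hτ) (abs_nonneg t)
  rw [sq |t|]
  linarith [abs_nonneg t]

variable {n : ℕ} {θ : ℝ} {g : Edge n → ℝ}

theorem skMat_smul (θ : ℝ) (g : Edge n → ℝ) (i j : Fin n) :
    skMat n θ g i j = θ * skMat n 1 g i j := by
  unfold skMat
  split_ifs <;> ring

/-- The criterion controls the pair forms up to third order terms. -/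
theorem pairForm_le {h : Fin n → ℝ} {γ τ ρ ε : ℝ} (hτ0 : 0 ≤ τ)
    (hτ : ∀ i j, |skMat n θ g i j| ≤ τ) (hτ' : τ ≤ 1 / 20)
    (hρ : ∀ i, ∑ j, skMat n θ g i j ^ 2 ≤ ρ) (hε : 0 ≤ ε)
    (hsq : ∀ a : Fin n → ℝ,
      ∑ i, ∑ j, skMat n 1 g i j ^ 2 * a i * a j ≤ (∑ i, a i) ^ 2 / n + ε * ∑ i, a i ^ 2)
    {L : ℝ} (hL0 : 0 ≤ L)
    (hL : ∀ v : Fin n → ℝ, |∑ i, ∑ j, skMat n 1 g i j * v i * v j| ≤ L * ∑ i, v i ^ 2)
    (hθ : 0 ≤ θ) (f : (Fin n → Bool) → ℝ) (x : Fin n → Bool) :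
    (¬CritFails θ γ (skMat n 1 g) (fun i => field (skMat n θ g) h i x) →
      ∑ i, ∑ j, pairForm (skMat n θ g) h i j f x ≤
        (1 - γ + (3 * τ * ρ + 2 * θ ^ 2 * ε)) * ∑ i, siteDens (skMat n θ g) h i f x) ∧
    ∑ i, ∑ j, pairForm (skMat n θ g) h i j f x ≤
      (θ * L + 2 * θ ^ 2 + (3 * τ * ρ + 2 * θ ^ 2 * ε)) *
        ∑ i, siteDens (skMat n θ g) h i f x := by
  set J := skMat n θ g with hJdef
  set s : Fin n → ℝ := fun i => smooth J h i f x with hs
  set a : Fin n → ℝ := fun i => cmean J h i x * s i with ha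
  set S := ∑ i, siteDens J h i f x with hS
  have hsm : ∀ i, s i ^ 2 * Real.cosh (field J h i x) ^ 2 = siteDens J h i f x := fun i => by
    have := (Real.cosh_pos (field J h i x)).ne'
    simp only [hs, smooth, siteDens, cmean, one_sub_tanh_sq]
    field_simp
    ring
  have hs2 : ∑ i, s i ^ 2 ≤ S := Finset.sum_le_sum fun i _ => by
    rw [← hsm]
    exact le_mul_of_one_le_right (sq_nonneg _) (one_le_pow₀ (Real.one_le_cosh _))
  have ha2 : ∑ i, a i ^ 2 ≤ ∑ i, s i ^ 2 := Finset.sum_le_sum fun i _ => by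
    rw [ha, mul_pow]
    exact mul_le_of_le_one_left (sq_nonneg _) (Real.tanh_sq_lt_one _).le
  have hsym : ∀ i j, J i j = J j i := (isCoupling_skMat n θ g).1
  have k1 : ∑ i, ∑ j, eff (J i j) * s i * s j ≤
      θ * (∑ i, ∑ j, skMat n 1 g i j * s i * s j) + τ * ρ * ∑ i, s i ^ 2 := by
    have := abs_form_le (A := fun i j => eff (J i j) - J i j) hτ0 hsym (fun i j =>
      (abs_eff_le ((hτ i j).trans hτ')).1.trans (mul_le_mul_of_nonneg_right (hτ i j) (sq_nonneg _)))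
      hρ s
    simp only [sub_mul, Finset.sum_sub_distrib] at this
    simp only [Finset.mul_sum, ← mul_assoc, ← skMat_smul, ← hJdef]
    simp only [← Finset.mul_sum]
    linarith
  have k2 : ∑ i, ∑ j, Real.tanh (J i j) ^ 2 * a i * a j ≤
      θ ^ 2 * ((∑ i, a i) ^ 2 / n + ε * ∑ i, a i ^ 2) + τ * ρ * ∑ i, a i ^ 2 := by
    have := abs_form_le (A := fun i j => Real.tanh (J i j) ^ 2 - J i j ^ 2) hτ0 hsym
      (fun i j => abs_tanh_sq_sub (hτ i j) hτ') hρ a
    simp only [sub_mul, Finset.sum_sub_distrib] at this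
    have hsc := mul_le_mul_of_nonneg_left (hsq a) (sq_nonneg θ)
    simp only [Finset.mul_sum, ← mul_assoc, ← mul_pow, ← skMat_smul, ← hJdef] at hsc
    simp only [← Finset.mul_sum] at hsc ⊢
    linarith
  have hsplit : ∑ i, ∑ j, pairForm J h i j f x =
      (∑ i, ∑ j, eff (J i j) * s i * s j) + 2 * ∑ i, ∑ j, Real.tanh (J i j) ^ 2 * a i * a j := by
    simp only [pairForm, Finset.mul_sum, ← Finset.sum_add_distrib, hs, ha]
    exact Finset.sum_congr rfl fun i _ => Finset.sum_congr rfl fun j _ => by ring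
  have hmain : ∑ i, ∑ j, pairForm J h i j f x ≤
      (θ * (∑ i, ∑ j, skMat n 1 g i j * s i * s j) + 2 * θ ^ 2 / n * (∑ i, a i) ^ 2) +
        (3 * τ * ρ + 2 * θ ^ 2 * ε) * S := by
    rcases Nat.eq_zero_or_pos n with rfl | hn
    · simp [hS]
    have hρ0 : 0 ≤ ρ := le_trans (Finset.sum_nonneg fun j _ => sq_nonneg _) (hρ ⟨0, hn⟩)
    rw [hsplit, show 2 * θ ^ 2 / (n : ℝ) * (∑ i, a i) ^ 2 =
      2 * (θ ^ 2 * ((∑ i, a i) ^ 2 / n)) by ring]
    linarith [mul_le_mul_of_nonneg_left hs2 (mul_nonneg hτ0 hρ0),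
      mul_le_mul_of_nonneg_left (ha2.trans hs2) (mul_nonneg hτ0 hρ0),
      mul_le_mul_of_nonneg_left (ha2.trans hs2) (mul_nonneg (sq_nonneg θ) hε)]
  refine ⟨fun hc => ?_, ?_⟩
  · have := not_exists.1 hc s
    rw [not_lt] at this
    simp only [hsm] at this
    change θ * _ + _ * (∑ i, a i) ^ 2 ≤ _ at this
    linarith
  · have hcs : (∑ i, a i) ^ 2 / n ≤ S := by
      rcases Nat.eq_zero_or_pos n with rfl | hn
      · simp [hS]
      rw [div_le_iff₀ (by exact_mod_cast hn : (0 : ℝ) < n)]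
      refine (sq_sum_le_card_mul_sum_sq (s := univ) (f := a)).trans ?_
      rw [Finset.card_univ, Fintype.card_fin, mul_comm]
      exact mul_le_mul_of_nonneg_right (ha2.trans hs2) (Nat.cast_nonneg n)
    have hq := mul_le_mul_of_nonneg_left
      (((abs_le.1 (hL s)).2).trans (mul_le_mul_of_nonneg_left hs2 hL0)) hθ
    have hr := mul_le_mul_of_nonneg_left hcs (show 0 ≤ 2 * θ ^ 2 by positivity)
    rw [← mul_div_assoc, ← div_mul_eq_mul_div] at hr
    linarith

theorem sum_spin_sub_sq (x y : Fin n → Bool) :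
    ∑ i, (spin (x i) - spin (y i)) ^ 2 = 4 * (hammingDist x y : ℝ) := by
  have e : ∀ i, (spin (x i) - spin (y i)) ^ 2 = if x i ≠ y i then (4 : ℝ) else 0 := fun i => by
    cases x i <;> cases y i <;> simp [spin] <;> norm_num
  simp only [e, ← Finset.sum_filter, Finset.sum_const, nsmul_eq_mul, hammingDist]
  ring

/-- Near a configuration where the criterion fails, a perturbation of the fields makes it fail. -/
theorem crit_of_near {h : Fin n → ℝ} {γ L r : ℝ} (hL0 : 0 < L)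
    (hL : ∀ v : Fin n → ℝ, |∑ i, ∑ j, skMat n 1 g i j * v i * v j| ≤ L * ∑ i, v i ^ 2)
    {k : ℕ} (hk : 4 * θ ^ 2 * L ^ 2 * k ≤ r) {x : Fin n → Bool}
    (hx : x ∈ near {y | CritFails θ γ (skMat n 1 g) fun i => field (skMat n θ g) h i y} k) :
    ∃ w : Fin n → ℝ, ∑ i, w i ^ 2 ≤ r ∧
      CritFails θ γ (skMat n 1 g) fun i => field (skMat n θ g) h i x + w i := by
  obtain ⟨y, hy, hd⟩ := hx
  refine ⟨fun i => θ * ∑ j, skMat n 1 g i j * (spin (y j) - spin (x j)), ?_, ?_⟩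
  · simp only [mul_pow, ← Finset.mul_sum]
    refine (mul_le_mul_of_nonneg_left (mulVec_sq_le (isCoupling_skMat n 1 g).1 hL0 hL _)
      (sq_nonneg θ)).trans ?_
    rw [sum_spin_sub_sq, hammingDist_comm]
    have : (hammingDist x y : ℝ) ≤ k := by exact_mod_cast hd.le
    linarith [mul_le_mul_of_nonneg_left this (show 0 ≤ 4 * θ ^ 2 * L ^ 2 by positivity)]
  · have e : ∀ i, field (skMat n θ g) h i x +
        θ * ∑ j, skMat n 1 g i j * (spin (y j) - spin (x j)) = field (skMat n θ g) h i y := fun i => by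
      simp only [field, Finset.mul_sum, ← mul_assoc, ← skMat_smul, mul_sub, Finset.sum_sub_distrib]
      ring
    simpa only [e, Set.mem_ofPred_eq] using hy

/-- The local fields have squared length at most `2 |h|² + 2 θ² L² n`. -/
theorem field_sq_le {L : ℝ} (hL0 : 0 < L)
    (hL : ∀ v : Fin n → ℝ, |∑ i, ∑ j, skMat n 1 g i j * v i * v j| ≤ L * ∑ i, v i ^ 2)
    (h : Fin n → ℝ) (x : Fin n → Bool) :
    ∑ i, field (skMat n θ g) h i x ^ 2 ≤ 2 * (∑ i, h i ^ 2) + 2 * θ ^ 2 * L ^ 2 * n := by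
  have h1 : ∀ i, field (skMat n θ g) h i x ^ 2 ≤
      2 * h i ^ 2 + 2 * θ ^ 2 * (∑ j, skMat n 1 g i j * spin (x j)) ^ 2 := fun i => by
    have := add_sq_le (a := h i) (b := θ * ∑ j, skMat n 1 g i j * spin (x j))
    simp only [field, Finset.mul_sum, ← mul_assoc, ← skMat_smul] at this ⊢
    rw [show (∑ j, skMat n θ g i j * spin (x j)) = θ * ∑ j, skMat n 1 g i j * spin (x j) by
      simp only [Finset.mul_sum, ← mul_assoc, ← skMat_smul]] at this ⊢
    rw [mul_pow] at this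
    linarith
  refine (Finset.sum_le_sum fun i _ => h1 i).trans ?_
  rw [Finset.sum_add_distrib, ← Finset.mul_sum, ← Finset.mul_sum]
  have := mul_le_mul_of_nonneg_left (mulVec_sq_le (isCoupling_skMat n 1 g).1 hL0 hL
    fun j => spin (x j)) (show 0 ≤ 2 * θ ^ 2 by positivity)
  simp only [spin_sq_eq_one, Finset.sum_const, Finset.card_univ, Fintype.card_fin, nsmul_eq_mul,
    mul_one] at this
  linarith
where
  spin_sq_eq_one : ∀ b : Bool, spin b ^ 2 = 1 := fun b => by cases b <;> simp [spin]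

end Vale.Agent.P150.Beyond
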