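import Vale.Agent.P150.Beyond.Defs
import Vale.Agent.P150.Beyond.Bochner

/-!
# P150 beyond one half: rare sets have a large Dirichlet form

A defective entropy inequality, applied to the square of a function supported on a rare set, bounds
its Dirichlet form from below by `n` times its squared norm.
-/

open Finset Real
open Vale.Agent.P150.Fast
open Vale.Agent.P150.Fast.Ent (ent entAt phi)

namespace Vale.Agent.P150.Beyond

variable {ι : Type} [Fintype ι] [DecidableEq ι] {J : ι → ι → ℝ} {h : ι → ℝ}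

theorem phi_zero : phi 0 = 0 := by simp [phi]

theorem phi_tangent {a u : ℝ} (ha : 0 ≤ a) (hu : 0 < u) : (Real.log u + 1) * a - u ≤ phi a := by
  rcases ha.eq_or_lt with rfl | ha
  · rw [phi_zero]; linarith
  · have := Real.log_le_sub_one_of_pos (div_pos hu ha)
    rw [Real.log_div hu.ne' ha.ne', le_sub_iff_add_le, le_div_iff₀ ha] at this
    rw [phi]
    linarith

theorem continuous_phi : Continuous phi := Real.continuous_mul_log

/-- Defective entropy inequalities extend to nonnegative functions. -/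
theorem DefectLSI.of_nonneg {n : ℕ} {J : Fin n → Fin n → ℝ} {h : Fin n → ℝ} {C δ : ℝ}
    (hD : DefectLSI J h C δ) {f : (Fin n → Bool) → ℝ} (hf : ∀ x, 0 ≤ f x) :
    ent J h f ≤ C * ∑ j, entAt J h j f + δ * mean J h f := by
  set F : ℝ → ℝ := fun e => C * (∑ j, entAt J h j fun x => f x + e) +
    δ * mean J h (fun x => f x + e) - ent J h (fun x => f x + e) with hF
  have hc : Continuous F := by
    have := continuous_phi
    simp only [hF, ent, entAt, mean, Fast.cond]
    fun_prop
  have h0 : ∀ e : ℝ, 0 < e → 0 ≤ F e := fun e he => by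
    have := hD (fun x => f x + e) fun x => add_pos_of_nonneg_of_pos (hf x) he
    simp only [hF]
    linarith
  have := ge_of_tendsto (x := nhdsWithin (0 : ℝ) (Set.Ioi 0))
    (hc.continuousAt.tendsto.mono_left nhdsWithin_le_nhds) (eventually_nhdsWithin_of_forall h0)
  simp only [hF, add_zero] at this
  linarith

/-- The entropy of a function supported on a set of mass at most `p`. -/
theorem mul_log_le_ent {U : Set (ι → Bool)} [DecidablePred (· ∈ U)] {f : (ι → Bool) → ℝ}
    (hf : ∀ x, 0 ≤ f x) (hfU : ∀ x, x ∉ U → f x = 0) {c : ℝ}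
    (hU : mean J h (fun x => if x ∈ U then 1 else 0) ≤ Real.exp (-c)) :
    c * mean J h f ≤ ent J h f := by
  set m := mean J h f with hm
  rcases (mean_nonneg (J := J) h hf).eq_or_lt with h0 | h0
  · have h2 : ∀ x, f x = 0 := fun x => by
      have := (Finset.sum_eq_zero_iff_of_nonneg fun y _ =>
        mul_nonneg (weight_pos h y).le (hf y)).1 h0.symm x (mem_univ x)
      simpa [(weight_pos (J := J) h x).ne'] using this
    simp [ent, hm, mean, h2, phi_zero]
  set p := mean J h (fun x => if x ∈ U then (1 : ℝ) else 0) with hp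
  have hp0 : 0 < p := by
    by_contra hne
    have hz : ∀ x, f x = 0 := fun x => by
      refine hfU x fun hx => hne ?_
      refine Finset.sum_pos' (fun y _ => mul_nonneg (weight_pos h y).le
        (show (0 : ℝ) ≤ if y ∈ U then 1 else 0 by split_ifs <;> norm_num))
        ⟨x, mem_univ x, ?_⟩
      simpa [hx] using weight_pos h x
    simp [mean, hz] at h0
  have hkey : (Real.log (m / p) + 1) * m - m / p * p ≤ mean J h (fun x => phi (f x)) := by
    rw [hm, hp, ← mean_smul, ← mean_smul, ← mean_sub]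
    refine mean_le_mean h fun x => ?_
    by_cases hx : x ∈ U
    · rw [if_pos hx, mul_one]
      exact phi_tangent (hf x) (div_pos h0 hp0)
    · simp [hx, hfU x hx, phi_zero]
  rw [div_mul_cancel₀ _ hp0.ne', Real.log_div h0.ne' hp0.ne'] at hkey
  have hlog := (Real.log_le_iff_le_exp hp0).2 hU
  have := mul_le_mul_of_nonneg_right hlog h0.le
  simp only [ent, phi, ← hm] at hkey ⊢
  linarith

theorem neg_log_half (H : ℝ) :
    -Real.log ((1 + Real.tanh H) / 2) ≤ 2 * |H| + 1 ∧
      -Real.log ((1 - Real.tanh H) / 2) ≤ 2 * |H| + 1 ∧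
      Real.exp (-(2 * |H|)) / 2 ≤ (1 + Real.tanh H) / 2 ∧
      Real.exp (-(2 * |H|)) / 2 ≤ (1 - Real.tanh H) / 2 := by
  have key : ∀ H : ℝ, Real.exp (-(2 * |H|)) / 2 ≤ (1 + Real.tanh H) / 2 := fun H => by
    rw [(Ent.half_tanh H).1]
    rw [div_le_div_iff₀ two_pos (by positivity), mul_add, ← Real.exp_add, ← Real.exp_add]
    have h1 : Real.exp (-(2 * |H|) + H) ≤ Real.exp H :=
      Real.exp_le_exp.2 (by linarith [abs_nonneg H])
    have h2 : Real.exp (-(2 * |H|) + -H) ≤ Real.exp H :=
      Real.exp_le_exp.2 (by linarith [neg_abs_le H])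
    linarith
  have a := key H
  have b := key (-H)
  rw [Real.tanh_neg, abs_neg, ← sub_eq_add_neg] at b
  have lg : ∀ r, Real.exp (-(2 * |H|)) / 2 ≤ r → -Real.log r ≤ 2 * |H| + 1 := fun r hr => by
    have := Real.log_le_log (by positivity) hr
    rw [Real.log_div (Real.exp_ne_zero _) two_ne_zero, Real.log_exp] at this
    linarith [Real.log_le_sub_one_of_pos (show (0 : ℝ) < 2 by norm_num)]
  exact ⟨lg _ a, lg _ b, a, b⟩

/-- Entropy of a square on two points. -/
theorem two_point_ent {α β q r : ℝ} (hq : 0 < q) (hr : 0 < r) (hqr : q + r = 1) :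
    (∀ K, -Real.log q ≤ K → -Real.log r ≤ K →
      q * phi (α ^ 2) + r * phi (β ^ 2) - phi (q * α ^ 2 + r * β ^ 2) ≤
        K * (q * α ^ 2 + r * β ^ 2)) ∧
    ∀ m, 0 < m → m ≤ q → m ≤ r →
      q * phi (α ^ 2) + r * phi (β ^ 2) - phi (q * α ^ 2 + r * β ^ 2) ≤
        2 / m * (q * r * (α - β) ^ 2) := by
  set M := q * α ^ 2 + r * β ^ 2 with hM
  have ha := mul_nonneg hq.le (sq_nonneg α)
  have hb := mul_nonneg hr.le (sq_nonneg β)
  rcases (show 0 ≤ M by linarith).eq_or_lt with h0 | h0
  · have e1 : α ^ 2 = 0 := by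
      have : q * α ^ 2 = 0 := by linarith
      simpa [hq.ne'] using this
    have e2 : β ^ 2 = 0 := by
      have : r * β ^ 2 = 0 := by linarith
      simpa [hr.ne'] using this
    rw [← h0, e1, e2, phi_zero]
    exact ⟨fun K _ _ => by simp, fun m hm _ _ => by
      simp only [mul_zero, add_zero, sub_zero]; positivity⟩
  have term : ∀ s γ : ℝ, 0 < s → s * γ ^ 2 ≤ M →
      s * phi (γ ^ 2) ≤ s * γ ^ 2 * (Real.log M - Real.log s) ∧
        s * phi (γ ^ 2) ≤ s * γ ^ 2 * (Real.log M - 1) + s * (γ ^ 2) ^ 2 / M := fun s γ hs hle => by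
    rcases (sq_nonneg γ).eq_or_lt with e | e
    · rw [← e, phi_zero]; simp
    · have := Real.log_le_log (mul_pos hs e) hle
      rw [Real.log_mul hs.ne' e.ne'] at this
      refine ⟨?_, ?_⟩
      · rw [phi, ← mul_assoc]
        exact mul_le_mul_of_nonneg_left (by linarith) (by positivity)
      · have h2 := Real.log_le_sub_one_of_pos (div_pos e h0)
        rw [Real.log_div e.ne' h0.ne'] at h2
        have h3 := mul_le_mul_of_nonneg_left h2 (show 0 ≤ s * γ ^ 2 by positivity)
        rw [phi]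
        refine le_trans (le_of_eq ?_) (le_trans (add_le_add_right h3 (s * γ ^ 2 * Real.log M))
          (le_of_eq ?_))
        · ring
        · field_simp; ring
  obtain ⟨a1, a2⟩ := term q α hq (by linarith)
  obtain ⟨b1, b2⟩ := term r β hr (by linarith)
  have ephi : phi M = q * α ^ 2 * Real.log M + r * β ^ 2 * Real.log M := by rw [phi, hM]; ring
  refine ⟨fun K kq kr => ?_, fun m hm mq mr => ?_⟩
  · linarith [mul_le_mul_of_nonneg_left kq ha, mul_le_mul_of_nonneg_left kr hb]
  · have hsum : q * (α ^ 2) ^ 2 / M + r * (β ^ 2) ^ 2 / M - M =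
        q * r * (α - β) ^ 2 * (α + β) ^ 2 / M := by
      rw [← add_div, div_sub' h0.ne', eq_div_iff h0.ne', div_mul_cancel₀ _ h0.ne']
      have : r = 1 - q := by linarith
      rw [hM, this]; ring
    have hbd : (α + β) ^ 2 / M ≤ 2 / m := by
      rw [div_le_div_iff₀ h0 hm]
      nlinarith [mul_le_mul_of_nonneg_right mq (sq_nonneg α),
        mul_le_mul_of_nonneg_right mr (sq_nonneg β), add_sq_le (a := α) (b := β)]
    have := mul_le_mul_of_nonneg_right hbd (show 0 ≤ q * r * (α - β) ^ 2 by positivity)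
    rw [div_mul_eq_mul_div, mul_comm ((α + β) ^ 2)] at this
    linarith

/-- The conditional entropy of a square at one site. -/
theorem entAt_sq_le (hJ : IsCoupling J) {L : ℝ} (hL : 1 ≤ L) (j : ι) (φ : (ι → Bool) → ℝ) :
    entAt J h j (fun x => φ x ^ 2) ≤ 4 * Real.exp (2 * L) * site J h j φ +
      3 / L * mean J h (fun x => φ x ^ 2 * field J h j x ^ 2) := by
  rw [entAt, mean_cond h hJ j (fun x => phi (φ x ^ 2)), ← mean_sub, site, ← mean_smul,
    mean_cond h hJ j (fun x => φ x ^ 2 * field J h j x ^ 2), ← mean_smul, ← mean_add]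
  refine mean_le_mean h fun x => ?_
  obtain ⟨k1, k2, k3, k4⟩ := neg_log_half (field J h j x)
  simp only [Fast.cond, field_update_self h hJ, cmean, grad]
  set H := field J h j x
  set α := φ (Function.update x j true)
  set β := φ (Function.update x j false)
  have hq : 0 < (1 + Real.tanh H) / 2 := lt_of_lt_of_le (by positivity) k3
  have hr : 0 < (1 - Real.tanh H) / 2 := lt_of_lt_of_le (by positivity) k4
  obtain ⟨g1, g2⟩ := two_point_ent (α := α) (β := β) hq hr (by ring)
  set M := (1 + Real.tanh H) / 2 * α ^ 2 + (1 - Real.tanh H) / 2 * β ^ 2 with hM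
  have hM0 : 0 ≤ M := by positivity
  have eM : 3 / L * ((1 + Real.tanh H) / 2 * (α ^ 2 * H ^ 2) +
      (1 - Real.tanh H) / 2 * (β ^ 2 * H ^ 2)) = M * (3 * H ^ 2 / L) := by rw [hM]; ring
  have eS : (1 - Real.tanh H ^ 2) * (α - β) ^ 2 / 4 =
      (1 + Real.tanh H) / 2 * ((1 - Real.tanh H) / 2) * (α - β) ^ 2 := by ring
  rw [eM, eS]
  have hS0 : 0 ≤ (1 + Real.tanh H) / 2 * ((1 - Real.tanh H) / 2) * (α - β) ^ 2 := by positivity
  rcases le_or_gt |H| L with hH | hH
  · have hm : Real.exp (-(2 * L)) / 2 ≤ Real.exp (-(2 * |H|)) / 2 := by gcongr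
    refine (g2 _ (by positivity) (hm.trans k3) (hm.trans k4)).trans ?_
    rw [Real.exp_neg]
    field_simp
    nlinarith [mul_nonneg (mul_nonneg hM0 (sq_nonneg H)) (show (0:ℝ) ≤ 1 by norm_num)]
  · refine (g1 (2 * |H| + 1) k1 k2).trans ?_
    have hH2 : 2 * |H| + 1 ≤ 3 * H ^ 2 / L := by
      rw [le_div_iff₀ (by linarith), ← sq_abs H]
      nlinarith
    have := mul_le_mul_of_nonneg_right hH2 hM0
    have := mul_nonneg (show 0 ≤ 4 * Real.exp (2 * L) by positivity) hS0
    linarith

/-- Rare sets have Dirichlet form of order `n`. -/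
theorem smallSet_of_defectLSI {n : ℕ} {J : Fin n → Fin n → ℝ} {h : Fin n → ℝ}
    (hJ : IsCoupling J) {C δ A L c a : ℝ} (hC : 0 < C) (hD : DefectLSI J h C δ) (hL : 1 ≤ L)
    (hA : ∀ x, ∑ i, field J h i x ^ 2 ≤ A) (U : Set (Fin n → Bool)) [DecidablePred (· ∈ U)]
    (hU : mean J h (fun x => if x ∈ U then 1 else 0) ≤ Real.exp (-c))
    (ha : C * (4 * Real.exp (2 * L)) * a ≤ c - δ - 3 * C * A / L) :
    SmallSet J h U a := by
  intro φ hφ
  have hnn : ∀ x, 0 ≤ φ x ^ 2 := fun x => sq_nonneg _
  have h1 := mul_log_le_ent (U := U) hnn (fun x hx => by simp [hφ x hx]) hU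
  have h2 := hD.of_nonneg hnn
  have h3 : ∑ j, entAt J h j (fun x => φ x ^ 2) ≤
      4 * Real.exp (2 * L) * (∑ j, site J h j φ) + 3 / L * (A * mean J h (fun x => φ x ^ 2)) := by
    refine (Finset.sum_le_sum fun j _ => entAt_sq_le hJ hL j φ).trans ?_
    rw [Finset.sum_add_distrib, ← Finset.mul_sum, ← Finset.mul_sum, ← mean_sum]
    refine add_le_add le_rfl (mul_le_mul_of_nonneg_left ?_ (by positivity))
    rw [← mean_smul]
    refine mean_le_mean h fun x => ?_
    rw [← Finset.mul_sum, mul_comm A]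
    exact mul_le_mul_of_nonneg_left (hA x) (hnn x)
  have h4 := mul_le_mul_of_nonneg_left h3 hC.le
  have h5 := mul_le_mul_of_nonneg_right ha (mean_nonneg (J := J) h hnn)
  refine le_of_mul_le_mul_left ?_ (show 0 < C * (4 * Real.exp (2 * L)) by positivity)
  have e : C * (3 / L * (A * mean J h fun x => φ x ^ 2)) =
      3 * C * A / L * mean J h (fun x => φ x ^ 2) := by ring
  linarith

end Vale.Agent.P150.Beyond
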