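import Vale.Agent.P150.Fast.QuadTail

/-!
# P150 beyond one half: comparison tail of the quadratic form with offsets

For any family of vectors `u` and offsets `b`, the supremum of `quad g u + b` has at most twice the
tail of the supremum of `2 |u| (z . u) + b`, with `z` a standard Gaussian vector.
-/

open MeasureTheory ProbabilityTheory Real Filter Topology

namespace Vale.Agent.P150.Beyond

open Vale.Agent.P150.Fast

variable {n : ℕ}

/-- The comparison process. -/
noncomputable def side (z v : Fin n → ℝ) : ℝ := 2 * √(∑ i, v i ^ 2) * ∑ i, z i * v i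

/-- The quadratic form completed to variance `4 |v| ^ 4`. -/
noncomputable def filled (g : Aux n → ℝ) (v : Fin n → ℝ) : ℝ :=
  quad (fun e => g (.inl (.inl (.inl e)))) v + √2 * ∑ i, g (.inl (.inl (.inr i))) * v i ^ 2
    + √2 * g (.inl (.inr ())) * ∑ i, v i ^ 2

/-- The coefficients of both families. -/
noncomputable def filledCoef (M : ℝ) (v : Fin n → ℝ) : Aux n → ℝ :=
  Sum.elim (Sum.elim (Sum.elim (fun e => M * (2 * v e.1.1 * v e.1.2)) fun i => M * (√2 * v i ^ 2))
    fun _ => M * (√2 * ∑ i, v i ^ 2)) fun i => M * (2 * √(∑ i, v i ^ 2) * v i)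

theorem filled_cov (M : ℝ) (u v : Fin n → ℝ) :
    (∑ a, filledCoef M u (.inl a) * filledCoef M v (.inl a))
        = M ^ 2 * (2 * (∑ i, u i * v i) ^ 2 + 2 * ((∑ i, u i ^ 2) * ∑ i, v i ^ 2)) ∧
      ∑ i, filledCoef M u (.inr i) * filledCoef M v (.inr i) =
        M ^ 2 * (4 * (√(∑ i, u i ^ 2) * √(∑ i, v i ^ 2)) * ∑ i, u i * v i) := by
  constructor
  · have h := sum_edge (fun i j => (u i * v i) * (u j * v j)) fun i j => by ring
    rw [← Finset.sum_mul_sum] at h
    have h2 : (√2 : ℝ) * √2 = 2 := mul_self_sqrt zero_le_two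
    simp only [filledCoef, Fintype.sum_sum_type, Sum.elim_inl, Sum.elim_inr, Finset.univ_unique,
      Finset.sum_singleton]
    have e1 : ∑ e : Edge n, M * (2 * u e.1.1 * u e.1.2) * (M * (2 * v e.1.1 * v e.1.2))
        = M ^ 2 * (2 * (2 * ∑ e : Edge n, u e.1.1 * v e.1.1 * (u e.1.2 * v e.1.2))) := by
      simp only [Finset.mul_sum]
      exact Finset.sum_congr rfl fun e _ => by ring
    have e2 : ∑ i, M * (√2 * u i ^ 2) * (M * (√2 * v i ^ 2))
        = M ^ 2 * (2 * ∑ i, u i * v i * (u i * v i)) := by
      simp only [Finset.mul_sum]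
      refine Finset.sum_congr rfl fun i _ => ?_
      linear_combination (M ^ 2 * u i ^ 2 * v i ^ 2) * h2
    rw [e1, e2, h]
    linear_combination (M ^ 2 * (∑ i, u i ^ 2) * ∑ i, v i ^ 2) * h2
  · simp only [filledCoef, Sum.elim_inr, Finset.mul_sum]
    exact Finset.sum_congr rfl fun i _ => by ring

theorem filled_finite {κ : Type*} [Fintype κ] [Nonempty κ] (u : κ → Fin n → ℝ) (b : κ → ℝ) (t : ℝ)
    {δ : ℝ} (hδ : 0 < δ) :
    (stdPi (Aux n)).real {g | ∃ k, t + δ ≤ filled g (u k) + b k}
      ≤ (stdPi (Fin n)).real {z | ∃ k, t < side z (u k) + b k} := by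
  set μ := stdPi (Aux n)
  set S := {g : Aux n → ℝ | ∃ k, t + δ ≤ filled g (u k) + b k}
  set Z := {z : Fin n → ℝ | ∃ k, t < side z (u k) + b k}
  have hZm : MeasurableSet Z := by
    simp only [Z, Set.ofPred_exists]
    exact MeasurableSet.iUnion fun k => measurableSet_lt measurable_const (by unfold side; fun_prop)
  have hSm : MeasurableSet S := by
    simp only [S, Set.ofPred_exists]
    exact MeasurableSet.iUnion fun k =>
      measurableSet_le measurable_const (by unfold filled quad; fun_prop)
  have hR : MeasurePreserving (fun g : Aux n → ℝ => g ∘ Sum.inr) μ (stdPi (Fin n)) :=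
    measurePreserving_right
  have key : ∀ L : ℝ, 0 < L → sigmoid L * μ.real S ≤ (stdPi (Fin n)).real Z + sigmoid (-L) := by
    intro L hL
    set Λ := log (2 * (Fintype.card κ : ℝ)) with hΛ
    have hcard : (0 : ℝ) < 2 * Fintype.card κ := mul_pos two_pos (by exact_mod_cast Fintype.card_pos)
    have hΛ0 : 0 ≤ Λ := log_nonneg (by
      have : (1 : ℝ) ≤ Fintype.card κ := by exact_mod_cast Fintype.card_pos
      linarith)
    set M := (2 * L + Λ) / δ with hM_def
    have hM : 0 < M := div_pos (by linarith) hδ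
    have hMδ : M * δ = 2 * L + Λ := div_mul_cancel₀ _ hδ.ne'
    set B := ∑ k, |b k|
    have hbB : ∀ k, 0 ≤ b k + B := fun k => by
      have := Finset.single_le_sum (fun j _ => abs_nonneg (b j)) (Finset.mem_univ k)
      linarith [neg_abs_le (b k)]
    set N : κ → ℕ := fun k => ⌈exp (M * (b k + B))⌉₊
    have hN : ∀ k, exp (M * (b k + B)) ≤ N k ∧ (N k : ℝ) ≤ 2 * exp (M * (b k + B)) := fun k => by
      refine ⟨Nat.le_ceil _, (Nat.ceil_lt_add_one (exp_pos _).le).le.trans ?_⟩
      linarith [one_le_exp (mul_nonneg hM.le (hbB k))]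
    set A : (Σ k, Fin (N k)) → Aux n → ℝ := fun x => filledCoef M (u x.1)
    have : Nonempty (Σ k, Fin (N k)) :=
      ⟨⟨Classical.arbitrary κ, ⟨0, Nat.cast_pos.1 ((exp_pos _).trans_le (hN _).1)⟩⟩⟩
    set thr := M * (t + B) + Λ + L
    have hsum : ∀ c g, press A c g
        = log (∑ k, (N k : ℝ) * exp (∑ a, c a * g a * filledCoef M (u k) a)) := fun c g => by
      simp [press, expo, A, Fintype.sum_sigma]
    have e0 : ∀ (g : Aux n → ℝ) k,
        ∑ a, angle 0 a * g a * filledCoef M (u k) a = M * filled g (u k) := fun g k => by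
      simp only [angle, filledCoef, filled, quad, Fintype.sum_sum_type, Sum.elim_inl, Sum.elim_inr,
        cos_zero, sin_zero, zero_mul, Finset.sum_const_zero, add_zero, one_mul, Finset.univ_unique,
        Finset.sum_singleton, mul_add]
      refine congrArg₂ (· + ·) (congrArg₂ (· + ·) ?_ ?_) ?_
      · rw [Finset.mul_sum]; exact Finset.sum_congr rfl fun i _ => by ring
      · rw [Finset.mul_sum, Finset.mul_sum]; exact Finset.sum_congr rfl fun i _ => by ring
      · ring
    have e1 : ∀ (g : Aux n → ℝ) k,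
        ∑ a, angle (π / 2) a * g a * filledCoef M (u k) a = M * side (g ∘ Sum.inr) (u k) := fun g k => by
      simp only [angle, filledCoef, side, Fintype.sum_sum_type, Sum.elim_inl, Sum.elim_inr,
        cos_pi_div_two, sin_pi_div_two, zero_mul, Finset.sum_const_zero, zero_add, one_mul,
        Finset.mul_sum, Function.comp_apply]
      exact Finset.sum_congr rfl fun i _ => by ring
    have h1 : ∀ g, S.indicator (fun _ => sigmoid L) g ≤ sigmoid (press A (angle 0) g - thr) := fun g => by
      by_cases hg : g ∈ S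
      · obtain ⟨k, hk⟩ := hg
        rw [Set.indicator_of_mem (show g ∈ S from ⟨k, hk⟩)]
        refine sigmoid_le ?_
        have hp : M * (t + δ + B) ≤ press A (angle 0) g := by
          rw [hsum, ← log_exp (M * (t + δ + B))]
          refine log_le_log (exp_pos _) (le_trans ?_ (Finset.single_le_sum (fun j _ =>
            mul_nonneg (Nat.cast_nonneg (N j)) (exp_pos _).le) (Finset.mem_univ k)))
          rw [e0]
          refine le_trans ?_ (mul_le_mul_of_nonneg_right (hN k).1 (exp_pos _).le)
          rw [← exp_add, exp_le_exp, ← mul_add]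
          exact mul_le_mul_of_nonneg_left (by linarith) hM.le
        simp only [thr]
        linarith [mul_add M t δ, mul_add M (t + δ) B, mul_add M t B]
      · rw [Set.indicator_of_notMem hg]
        exact sigmoid_nonneg _
    have h2 : ∀ g, sigmoid (press A (angle (π / 2)) g - thr)
        ≤ ((fun g : Aux n → ℝ => g ∘ Sum.inr) ⁻¹' Z).indicator (fun _ => (1 : ℝ)) g + sigmoid (-L) := by
      intro g
      by_cases hg : g ∘ Sum.inr ∈ Z
      · rw [Set.indicator_of_mem (show g ∈ (fun g : Aux n → ℝ => g ∘ Sum.inr) ⁻¹' Z from hg)]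
        linarith [sigmoid_le_one (press A (angle (π / 2)) g - thr), sigmoid_nonneg (-L)]
      · rw [Set.indicator_of_notMem
          (show g ∉ (fun g : Aux n → ℝ => g ∘ Sum.inr) ⁻¹' Z from hg), zero_add]
        refine sigmoid_le ?_
        have hz : ∀ k, side (g ∘ Sum.inr) (u k) + b k ≤ t := fun k => not_lt.1 fun h => hg ⟨k, h⟩
        have hp : press A (angle (π / 2)) g ≤ Λ + M * (t + B) := by
          rw [hsum, hΛ, ← log_exp (M * (t + B)), ← log_mul hcard.ne' (exp_pos _).ne']
          refine log_le_log (Finset.sum_pos (fun j _ =>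
            mul_pos ((exp_pos _).trans_le (hN j).1) (exp_pos _)) Finset.univ_nonempty) ?_
          refine (Finset.sum_le_sum fun j _ => (?_ : _ ≤ 2 * exp (M * (t + B)))).trans (le_of_eq ?_)
          · rw [e1]
            refine (mul_le_mul_of_nonneg_right (hN j).2 (exp_pos _).le).trans ?_
            rw [mul_assoc, ← exp_add, ← mul_add]
            refine mul_le_mul_of_nonneg_left (exp_le_exp.2 ?_) zero_le_two
            exact mul_le_mul_of_nonneg_left (by linarith [hz j]) hM.le
          · simp [Finset.sum_const]; ring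
        simp only [thr]
        linarith
    have hc := compare_sigmoid A (fun x => by
        have h := filled_cov M (u x.1) (u x.1)
        simp only [← sq] at h
        rw [h.1, h.2, sq_sqrt (Finset.sum_nonneg fun i _ => sq_nonneg _)]
        ring)
      (fun x y => by
        rw [(filled_cov M (u x.1) (u y.1)).1, (filled_cov M (u x.1) (u y.1)).2]
        refine mul_le_mul_of_nonneg_left ?_ (sq_nonneg M)
        have ha := sq_sqrt (Finset.sum_nonneg fun i (_ : i ∈ Finset.univ) => sq_nonneg (u x.1 i))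
        have hb := sq_sqrt (Finset.sum_nonneg fun i (_ : i ∈ Finset.univ) => sq_nonneg (u y.1 i))
        nlinarith [sq_nonneg ((∑ i, u x.1 i * u y.1 i)
          - √(∑ i, u x.1 i ^ 2) * √(∑ i, u y.1 i ^ 2))]) thr
    have hint : ∀ c : Aux n → ℝ, Integrable (fun g => sigmoid (press A c g - thr)) μ := fun c =>
      Integrable.of_bound
        (continuous_sigmoid.measurable.comp ((measurable_press A c).sub_const thr)).aestronglyMeasurable 1
        (Eventually.of_forall fun g => by
          rw [Real.norm_of_nonneg (sigmoid_nonneg _)]; exact sigmoid_le_one _)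
    have hi1 : Integrable (S.indicator fun _ => sigmoid L) μ := (integrable_const _).indicator hSm
    have hi2 : Integrable (((fun g : Aux n → ℝ => g ∘ Sum.inr) ⁻¹' Z).indicator fun _ => (1 : ℝ)) μ :=
      (integrable_const _).indicator (hR.measurable hZm)
    calc sigmoid L * μ.real S = ∫ g, S.indicator (fun _ => sigmoid L) g ∂μ := by
          rw [integral_indicator_const _ hSm, smul_eq_mul, mul_comm]
      _ ≤ ∫ g, sigmoid (press A (angle 0) g - thr) ∂μ := integral_mono hi1 (hint _) h1
      _ ≤ ∫ g, sigmoid (press A (angle (π / 2)) g - thr) ∂μ := hc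
      _ ≤ ∫ g, (((fun g : Aux n → ℝ => g ∘ Sum.inr) ⁻¹' Z).indicator (fun _ => (1 : ℝ)) g + sigmoid (-L)) ∂μ :=
          integral_mono (hint _) (hi2.add (integrable_const _)) h2
      _ = _ := by
          rw [integral_add hi2 (integrable_const _), integral_indicator_const _ (hR.measurable hZm),
            integral_const, smul_eq_mul, mul_one, probReal_univ, one_smul]
          congr 1
          simp only [Measure.real, hR.measure_preimage hZm.nullMeasurableSet]
  have hl : Tendsto (fun L => sigmoid L * μ.real S) atTop (𝓝 (1 * μ.real S)) :=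
    tendsto_sigmoid_atTop.mul_const _
  have hr : Tendsto (fun L => (stdPi (Fin n)).real Z + sigmoid (-L)) atTop
      (𝓝 ((stdPi (Fin n)).real Z + 0)) :=
    (tendsto_sigmoid_atBot.comp tendsto_neg_atTop_atBot).const_add _
  rw [one_mul] at hl
  rw [add_zero] at hr
  exact le_of_tendsto_of_tendsto hl hr (eventually_atTop.2 ⟨1, fun L hL => key L (by linarith)⟩)

theorem filled_finite_strict {κ : Type*} [Fintype κ] (u : κ → Fin n → ℝ) (b : κ → ℝ) (t : ℝ) :
    stdPi (Aux n) {g | ∃ k, t < filled g (u k) + b k}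
      ≤ stdPi (Fin n) {z | ∃ k, t < side z (u k) + b k} := by
  rcases isEmpty_or_nonempty κ with h | h
  · simp
  have e : {g : Aux n → ℝ | ∃ k, t < filled g (u k) + b k}
      = ⋃ j : ℕ, {g | ∃ k, t + 1 / ((j : ℝ) + 1) ≤ filled g (u k) + b k} := by
    ext g
    simp only [Set.mem_ofPred_eq, Set.mem_iUnion]
    constructor
    · rintro ⟨k, hk⟩
      obtain ⟨j, hj⟩ := exists_nat_one_div_lt (sub_pos.2 hk)
      exact ⟨j, k, by linarith⟩
    · rintro ⟨j, k, hk⟩
      exact ⟨k, by linarith [(Nat.one_div_pos_of_nat : 0 < 1 / ((j : ℝ) + 1))]⟩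
  have hmono : Monotone fun j : ℕ =>
      {g : Aux n → ℝ | ∃ k, t + 1 / ((j : ℝ) + 1) ≤ filled g (u k) + b k} := by
    rintro i j hij g ⟨k, hk⟩
    have hij' : (i : ℝ) ≤ j := by exact_mod_cast hij
    refine ⟨k, le_trans ?_ hk⟩
    gcongr
  rw [e, hmono.measure_iUnion]
  exact iSup_le fun j => (ENNReal.toReal_le_toReal (measure_ne_top _ _) (measure_ne_top _ _)).1
    (filled_finite u b t (Nat.one_div_pos_of_nat))

theorem quad_offset_finite {κ : Type*} [Fintype κ] (u : κ → Fin n → ℝ) (b : κ → ℝ) (t : ℝ) :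
    stdPi (Edge n) {g | ∃ k, t < quad g (u k) + b k}
      ≤ 2 * stdPi (Fin n) {z | ∃ k, t < side z (u k) + b k} := by
  set C := {g : Aux n → ℝ | ∃ k, t < filled g (u k) + b k}
  set E := {g : Edge n → ℝ | ∃ k, t < quad g (u k) + b k}
  have hEm : MeasurableSet E := by
    simp only [E, Set.ofPred_exists]
    exact MeasurableSet.iUnion fun k => measurableSet_lt measurable_const (by unfold quad; fun_prop)
  have hCm : MeasurableSet C := by
    simp only [C, Set.ofPred_exists]
    exact MeasurableSet.iUnion fun k =>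
      measurableSet_lt measurable_const (by unfold filled quad; fun_prop)
  have hp : MeasurePreserving (fun g : Aux n → ℝ => fun e : Edge n => g (.inl (.inl (.inl e))))
      (stdPi (Aux n)) (stdPi (Edge n)) :=
    ((measurePreserving_left (α := Edge n) (γ := Fin n)).comp
      (measurePreserving_left (α := Edge n ⊕ Fin n) (γ := Unit))).comp
      (measurePreserving_left (α := (Edge n ⊕ Fin n) ⊕ Unit) (γ := Fin n))
  have hsub : (fun g : Aux n → ℝ => fun e : Edge n => g (.inl (.inl (.inl e)))) ⁻¹' E
      ⊆ C ∪ flipAux ⁻¹' C := by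
    rintro g ⟨k, hk⟩
    set W := √2 * ∑ i, g (.inl (.inl (.inr i))) * u k i ^ 2
      + √2 * g (.inl (.inr ())) * ∑ i, u k i ^ 2
    rcases le_total 0 W with hW | hW
    · refine Or.inl ⟨k, ?_⟩
      simp only [filled]
      linarith
    · refine Or.inr ⟨k, ?_⟩
      simp only [filled, flipAux, Sum.elim_inl, Sum.elim_inr, neg_mul, Finset.sum_neg_distrib, mul_neg]
      linarith
  rw [← hp.measure_preimage hEm.nullMeasurableSet, two_mul]
  refine (measure_mono hsub).trans ((measure_union_le _ _).trans ?_)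
  rw [measurePreserving_flipAux.measure_preimage hCm.nullMeasurableSet]
  exact add_le_add (filled_finite_strict u b t) (filled_finite_strict u b t)

/-- From finite index sets to arbitrary ones, for a process continuous in the vector. -/
theorem offset_extend {Ω : Type*} [MeasurableSpace Ω] (μ : Measure Ω) (F : Ω → (Fin n → ℝ) → ℝ)
    (hF : ∀ ω, Continuous (F ω))
    (h : ∀ (m : ℕ) (u : Fin m → Fin n → ℝ) (b : Fin m → ℝ) (t : ℝ),
      μ {ω | ∃ k, t < F ω (u k) + b k} ≤ 2 * stdPi (Fin n) {z | ∃ k, t < side z (u k) + b k})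
    {ι : Type*} (u : ι → Fin n → ℝ) (b : ι → ℝ) (t : ℝ) :
    μ {ω | ∃ k, t < F ω (u k) + b k} ≤ 2 * stdPi (Fin n) {z | ∃ k, t < side z (u k) + b k} := by
  rcases isEmpty_or_nonempty ι with hι | hι
  · simp
  let p : ι → (Fin n → ℝ) × ℝ := fun k => (u k, b k)
  have : Nonempty (Set.range p) := (Set.range_nonempty p).to_subtype
  let s := TopologicalSpace.denseSeq (Set.range p)
  let v : ℕ → Fin n → ℝ := fun j => (s j).1.1
  let a : ℕ → ℝ := fun j => (s j).1.2
  have hsub : {ω | ∃ k, t < F ω (u k) + b k}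
      ⊆ ⋃ m : ℕ, {ω | ∃ k : Fin m, t < F ω (v k) + a k} := by
    rintro ω ⟨k, hk⟩
    have ho : IsOpen {q : Set.range p | t < F ω q.1.1 + q.1.2} :=
      isOpen_lt continuous_const (((hF ω).comp (continuous_fst.comp continuous_subtype_val)).add
        (continuous_snd.comp continuous_subtype_val))
    obtain ⟨j, hj⟩ := (TopologicalSpace.denseRange_denseSeq _).exists_mem_open ho
      ⟨⟨p k, k, rfl⟩, hk⟩
    exact Set.mem_iUnion.2 ⟨j + 1, ⟨⟨j, j.lt_succ_self⟩, hj⟩⟩
  have hmono : Monotone fun m : ℕ => {ω | ∃ k : Fin m, t < F ω (v k) + a k} :=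
    fun m m' hm ω ⟨k, hk⟩ => ⟨Fin.castLE hm k, hk⟩
  refine (measure_mono hsub).trans ?_
  rw [hmono.measure_iUnion]
  refine iSup_le fun m => (h m (fun k => v k) (fun k => a k) t).trans ?_
  refine mul_le_mul_right (measure_mono ?_) 2
  rintro z ⟨j, hj⟩
  obtain ⟨k, hk⟩ := (s j).2
  refine ⟨k, ?_⟩
  simp only [v, a] at hj
  rw [← hk] at hj
  exact hj

theorem real_of_offset {Ω : Type*} [MeasurableSpace Ω] {μ : Measure Ω} [IsProbabilityMeasure μ]
    {A : Set Ω} {B : Set (Fin n → ℝ)} (h : μ A ≤ 2 * stdPi (Fin n) B) :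
    μ.real A ≤ 2 * (stdPi (Fin n)).real B := by
  have := ENNReal.toReal_mono (ENNReal.mul_ne_top ENNReal.ofNat_ne_top (measure_ne_top _ _)) h
  simpa [Measure.real] using this

/-- The tail of a supremum of quadratic forms with offsets over an arbitrary index set. -/
theorem quad_offset_tail {ι : Type*} (u : ι → Fin n → ℝ) (b : ι → ℝ) (t : ℝ) :
    (stdPi (Edge n)).real {g | ∃ k, t < quad g (u k) + b k}
      ≤ 2 * (stdPi (Fin n)).real {z | ∃ k, t < 2 * √(∑ i, u k i ^ 2) * (∑ i, z i * u k i) + b k} :=
  real_of_offset (offset_extend _ (fun g => quad g) (fun g => by unfold quad; fun_prop)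
    (fun _ u b t => quad_offset_finite u b t) u b t)

/-- The quadratic form with a Gaussian diagonal of variance two. -/
noncomputable def quadDiag (g : Edge n ⊕ Fin n → ℝ) (v : Fin n → ℝ) : ℝ :=
  quad (fun e => g (.inl e)) v + √2 * ∑ i, g (.inr i) * v i ^ 2

/-- The sign change of the common shift. -/
noncomputable def flipShift (g : Aux n → ℝ) : Aux n → ℝ :=
  fun k => Function.update (fun _ => id) (.inl (.inr ())) (fun y : ℝ => -y) k (g k)

theorem measurePreserving_flipShift :
    MeasurePreserving (flipShift (n := n)) (stdPi (Aux n)) (stdPi (Aux n)) := by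
  classical
  refine measurePreserving_pi (fun _ : Aux n => std) (fun _ : Aux n => std) fun k => ?_
  by_cases hk : k = .inl (.inr ())
  · rw [hk, Function.update_self]
    exact ⟨measurable_neg, by rw [std, gaussianReal_map_neg, neg_zero]⟩
  · rw [Function.update_of_ne hk]
    exact MeasurePreserving.id _

theorem quadDiag_offset_finite {κ : Type*} [Fintype κ] (u : κ → Fin n → ℝ) (b : κ → ℝ) (t : ℝ) :
    stdPi (Edge n ⊕ Fin n) {g | ∃ k, t < quadDiag g (u k) + b k}
      ≤ 2 * stdPi (Fin n) {z | ∃ k, t < side z (u k) + b k} := by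
  set C := {g : Aux n → ℝ | ∃ k, t < filled g (u k) + b k}
  set E := {g : Edge n ⊕ Fin n → ℝ | ∃ k, t < quadDiag g (u k) + b k}
  have hEm : MeasurableSet E := by
    simp only [E, Set.ofPred_exists]
    exact MeasurableSet.iUnion fun k =>
      measurableSet_lt measurable_const (by unfold quadDiag quad; fun_prop)
  have hCm : MeasurableSet C := by
    simp only [C, Set.ofPred_exists]
    exact MeasurableSet.iUnion fun k =>
      measurableSet_lt measurable_const (by unfold filled quad; fun_prop)
  have hp : MeasurePreserving (fun g : Aux n → ℝ => fun e : Edge n ⊕ Fin n => g (.inl (.inl e)))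
      (stdPi (Aux n)) (stdPi (Edge n ⊕ Fin n)) :=
    (measurePreserving_left (α := Edge n ⊕ Fin n) (γ := Unit)).comp
      (measurePreserving_left (α := (Edge n ⊕ Fin n) ⊕ Unit) (γ := Fin n))
  have hsub : (fun g : Aux n → ℝ => fun e : Edge n ⊕ Fin n => g (.inl (.inl e))) ⁻¹' E
      ⊆ C ∪ flipShift ⁻¹' C := by
    rintro g ⟨k, hk⟩
    simp only [quadDiag] at hk
    rcases le_total 0 (√2 * g (.inl (.inr ())) * ∑ i, u k i ^ 2) with hW | hW
    · refine Or.inl ⟨k, ?_⟩
      simp only [filled]
      linarith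
    · refine Or.inr ⟨k, ?_⟩
      simp [filled, flipShift]
      linarith
  rw [← hp.measure_preimage hEm.nullMeasurableSet, two_mul]
  refine (measure_mono hsub).trans ((measure_union_le _ _).trans ?_)
  rw [measurePreserving_flipShift.measure_preimage hCm.nullMeasurableSet]
  exact add_le_add (filled_finite_strict u b t) (filled_finite_strict u b t)

/-- The same with the Gaussian diagonal. -/
theorem quadDiag_offset_tail {ι : Type*} (u : ι → Fin n → ℝ) (b : ι → ℝ) (t : ℝ) :
    (stdPi (Edge n ⊕ Fin n)).real {g | ∃ k, t < quadDiag g (u k) + b k}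
      ≤ 2 * (stdPi (Fin n)).real {z | ∃ k, t < 2 * √(∑ i, u k i ^ 2) * (∑ i, z i * u k i) + b k} :=
  real_of_offset (offset_extend _ (fun g => quadDiag g)
    (fun g => by unfold quadDiag quad; fun_prop) (fun _ u b t => quadDiag_offset_finite u b t) u b t)

end Vale.Agent.P150.Beyond
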