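import Vale.Agent.P150.Beyond.Bochner
import Vale.Agent.P150.Beyond.Defs
import Vale.Agent.P150.Fast.Ent.Indep

/-!
# P150 beyond one half: Poincaré inequalities near a field give stability at that field
-/

open Finset Real
open Vale.Agent.P150.Fast
open Vale.Agent.P150.Fast.Ent (ent entAt phi logZ lin mag)

namespace Vale.Agent.P150.Beyond

variable {ι : Type} [Fintype ι] [DecidableEq ι] {J : ι → ι → ℝ}

theorem phi_mul {a u : ℝ} (ha : 0 < a) (hu : 0 < u) : phi (a * u) = a * phi u + Real.log a * (a * u) := by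
  rw [phi, phi, Real.log_mul ha.ne' hu.ne']
  ring

theorem ent_smul (h : ι → ℝ) {a : ℝ} (ha : 0 < a) {f : (ι → Bool) → ℝ} (hf : ∀ x, 0 < f x) :
    ent J h (fun x => a * f x) = a * ent J h f := by
  have hm : 0 < mean J h f := Ent.mean_pos hf
  simp only [ent, mean_smul]
  rw [phi_mul ha hm]
  simp only [phi_mul ha (hf _), mean_add, mean_smul]
  ring

theorem cond_pos (h : ι → ℝ) (j : ι) {f : (ι → Bool) → ℝ} (hf : ∀ x, 0 < f x) (x : ι → Bool) :
    0 < Fast.cond J h j f x := by
  obtain ⟨k1, k2⟩ := abs_lt.1 (Real.abs_tanh_lt_one (field J h j x))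
  rw [Fast.cond]
  exact add_pos (mul_pos (by simp only [cmean]; linarith) (hf _))
    (mul_pos (by simp only [cmean]; linarith) (hf _))

theorem entAt_smul (h : ι → ℝ) (hJ : IsCoupling J) (j : ι) {a : ℝ} (ha : 0 < a)
    {f : (ι → Bool) → ℝ} (hf : ∀ x, 0 < f x) :
    entAt J h j (fun x => a * f x) = a * entAt J h j f := by
  have e : ∀ x, Fast.cond J h j (fun y => a * f y) x = a * Fast.cond J h j f x := fun x => by
    simp only [Fast.cond]; ring
  simp only [entAt, e, phi_mul ha (hf _), phi_mul ha (cond_pos h j hf _), mean_add, mean_smul]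
  rw [← mean_cond h hJ j f]
  ring

/-- A quadratic upper bound on the log-partition function along a segment. -/
theorem logZ_seg (h l : ι → ℝ) {C : ℝ}
    (hvar : ∀ s ∈ Set.Icc (0 : ℝ) 1, var J (fun i => h i + s * l i) (lin l) ≤ C) :
    logZ J (fun i => h i + l i) - logZ J h ≤ (∑ i, l i * mag J h i) + C / 2 := by
  set Z : ℕ → ℝ → ℝ := fun k s => ∑ x, lin l x ^ k * Real.exp (ham J h x + s * lin l x)
  have hd : ∀ k s, HasDerivAt (Z k) (Z (k + 1) s) s := fun k s => by
    refine HasDerivAt.fun_sum fun x _ => ?_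
    have := ((((hasDerivAt_id s).mul_const (lin l x)).const_add (ham J h x)).exp).const_mul
      (lin l x ^ k)
    simpa [pow_succ, mul_comm, mul_left_comm, mul_assoc] using this
  have hZ0 : ∀ s, 0 < Z 0 s := fun s =>
    Finset.sum_pos (fun x _ => by simpa using Real.exp_pos _) univ_nonempty
  have hham : ∀ s x, ham J (fun i => h i + s * l i) x = ham J h x + s * lin l x := fun s x => by
    rw [Ent.ham_add]
    simp only [lin, Finset.mul_sum]
    exact congrArg _ (Finset.sum_congr rfl fun i _ => by ring)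
  have hmean : ∀ s k, mean J (fun i => h i + s * l i) (fun x => lin l x ^ k) = Z k s / Z 0 s := by
    intro s k
    simp only [mean, weight, hham, Z, pow_zero, one_mul, Finset.sum_div]
    exact Finset.sum_congr rfl fun x _ => by ring
  set μ := ∑ i, l i * mag J h i
  have h1 : Z 1 0 / Z 0 0 = μ := by
    have := hmean 0 1
    simp only [zero_mul, add_zero, pow_one] at this
    rw [← this]
    exact Ent.mean_lin l
  have hD1 : ∀ s, HasDerivAt (fun s => Real.log (Z 0 s)) (Z 1 s / Z 0 s) s := fun s =>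
    (hd 0 s).log (hZ0 s).ne'
  have hD2 : ∀ s, HasDerivAt (fun s => Z 1 s / Z 0 s)
      (var J (fun i => h i + s * l i) (lin l)) s := fun s => by
    refine ((hd 1 s).fun_div (hd 0 s) (hZ0 s).ne').congr_deriv ?_
    have e1 := hmean s 1
    simp only [pow_one] at e1
    have := (hZ0 s).ne'
    rw [var_eq, hmean s 2, e1]
    field_simp
  have hA : AntitoneOn (fun s => Z 1 s / Z 0 s - C * s) (Set.Icc 0 1) :=
    antitoneOn_of_hasDerivWithinAt_nonpos (convex_Icc 0 1)
      (fun s _ => ((hD2 s).fun_sub ((hasDerivAt_id s).const_mul C)).continuousAt.continuousWithinAt)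
      (fun s _ => ((hD2 s).fun_sub ((hasDerivAt_id s).const_mul C)).hasDerivWithinAt)
      fun s hs => by linarith [hvar s (interior_subset hs)]
  have hd3 : ∀ s, HasDerivAt (fun s => Real.log (Z 0 s) - μ * s - C / 2 * s ^ 2)
      (Z 1 s / Z 0 s - μ - C * s) s := fun s =>
    (((hD1 s).fun_sub ((hasDerivAt_id s).const_mul μ)).fun_sub
      ((hasDerivAt_pow 2 s).const_mul (C / 2))).congr_deriv (by push_cast; ring)
  have hB : AntitoneOn (fun s => Real.log (Z 0 s) - μ * s - C / 2 * s ^ 2) (Set.Icc 0 1) :=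
    antitoneOn_of_hasDerivWithinAt_nonpos (convex_Icc 0 1)
      (fun s _ => (hd3 s).continuousAt.continuousWithinAt) (fun s _ => (hd3 s).hasDerivWithinAt)
      fun s hs => by
        have hs' := interior_subset hs
        have := hA (Set.left_mem_Icc.2 zero_le_one) hs' hs'.1
        simp only [mul_zero, sub_zero, h1] at this
        linarith
  have := hB (Set.left_mem_Icc.2 zero_le_one) (Set.right_mem_Icc.2 zero_le_one) zero_le_one
  have e0 : ∀ s, Real.log (Z 0 s) = logZ J (fun i => h i + s * l i) := fun s => by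
    simp only [logZ, hham, Z, pow_zero, one_mul]
  simp only [e0, zero_mul, add_zero, one_mul, mul_zero, sub_zero, mul_one, one_pow,
    zero_pow two_ne_zero] at this
  linarith

/-- Covariance bounds on a ball of fields give stability at its centre. -/
theorem shift_le_of_ball {n : ℕ} {J : Fin n → Fin n → ℝ} {y : Fin n → ℝ} {η R s : ℝ}
    (hs : 0 < s) (hsη : s * η ≤ 1) (hsR : 4 * n * s ^ 2 ≤ R)
    (hcov : ∀ w : Fin n → ℝ, ∑ i, w i ^ 2 ≤ R → ∀ v : Fin n → ℝ,
      var J (fun i => y i + w i) (lin v) ≤ η * ∑ i, v i ^ 2)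
    {f : (Fin n → Bool) → ℝ} (hf : ∀ x, 0 < f x) :
    ∑ i, magShift J y f i ^ 2 ≤ 2 / s * (mean J y f * ent J y f) := by
  set M := mean J y f
  have hM : 0 < M := Ent.mean_pos hf
  have hf' : ∀ x, 0 < M⁻¹ * f x := fun x => mul_pos (inv_pos.2 hM) (hf x)
  have h1 : mean J y (fun x => M⁻¹ * f x) = 1 := by rw [mean_smul, inv_mul_cancel₀ hM.ne']
  have he : mean J y (fun x => phi (M⁻¹ * f x)) = M⁻¹ * ent J y f := by
    rw [← ent_smul y (inv_pos.2 hM) hf, ent, h1]
    simp [phi]
  set d : Fin n → ℝ := fun i => M⁻¹ * magShift J y f i with hd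
  have hd' : ∀ i, mean J y (fun x => M⁻¹ * f x * spin (x i)) - mag J y i = d i := fun i => by
    simp only [hd, magShift, mul_assoc, mean_smul, mul_sub]
    rw [← mul_assoc M⁻¹, inv_mul_cancel₀ hM.ne', one_mul]
  set Q := ∑ i, d i ^ 2 with hQ
  have hQ0 : 0 ≤ Q := Finset.sum_nonneg fun i _ => sq_nonneg _
  have hd2 : Q ≤ 4 * n := by
    refine (Finset.sum_le_sum fun i _ => ?_).trans_eq (by simp; ring : ∑ _i : Fin n, (4 : ℝ) = 4 * n)
    have a : |mean J y (fun x => M⁻¹ * f x * spin (x i))| ≤ 1 := by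
      rw [abs_le, ← h1]
      constructor
      · rw [neg_le, ← neg_one_mul, ← mean_smul]
        refine mean_le_mean y fun x => ?_
        rcases spin_cases (x i) with e | e <;> rw [e] <;> linarith [hf' x]
      · refine mean_le_mean y fun x => ?_
        rcases spin_cases (x i) with e | e <;> rw [e] <;> linarith [hf' x]
    have b : |d i| ≤ 2 := by
      rw [← hd']
      exact (abs_sub _ _).trans (by linarith [(Ent.abs_mag_lt (J := J) (h := y) i).le])
    rw [← sq_abs]
    exact (pow_le_pow_left₀ (abs_nonneg _) b 2).trans_eq (by norm_num)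
  have hseg := logZ_seg (J := J) y (fun i => s * d i) (C := η * (s ^ 2 * Q)) fun r hr => by
    refine (hcov (fun i => r * (s * d i)) ?_ fun i => s * d i).trans_eq ?_
    · simp only [mul_pow, ← Finset.mul_sum, ← hQ]
      refine le_trans (mul_le_of_le_one_left (by positivity) (pow_le_one₀ hr.1 hr.2)) ?_
      exact le_trans (le_of_le_of_eq (mul_le_mul_of_nonneg_left hd2 (sq_nonneg s)) (mul_comm _ _)) hsR
    · simp only [mul_pow, ← Finset.mul_sum, ← hQ]
  have hdual := Ent.dual_le (J := J) (h := y) (fun i => s * d i) hf' h1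
  rw [he] at hdual
  have e1 : ∑ i, s * d i * mean J y (fun x => M⁻¹ * f x * spin (x i)) -
      ∑ i, s * d i * mag J y i = s * Q := by
    rw [hQ, Finset.mul_sum, ← Finset.sum_sub_distrib]
    exact Finset.sum_congr rfl fun i _ => by rw [← mul_sub, hd']; ring
  have hkey : s * Q / 2 ≤ M⁻¹ * ent J y f := by
    linarith [mul_le_mul_of_nonneg_right hsη (mul_nonneg hs.le hQ0)]
  have e2 : ∑ i, magShift J y f i ^ 2 = M ^ 2 * Q := by
    rw [hQ, Finset.mul_sum]
    exact Finset.sum_congr rfl fun i _ => by simp only [hd]; field_simp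
  rw [e2]
  have h3 := mul_le_mul_of_nonneg_left hkey (show 0 ≤ 2 / s * M ^ 2 by positivity)
  have e3 : 2 / s * M ^ 2 * (s * Q / 2) = M ^ 2 * Q := by field_simp
  have e4 : 2 / s * M ^ 2 * (M⁻¹ * ent J y f) = 2 / s * (M * ent J y f) := by field_simp
  linarith

end Vale.Agent.P150.Beyond
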