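import Vale.Agent.P150.Beyond.Field
import Vale.Agent.P150.Beyond.SmallSet
import Vale.Agent.P150.Beyond.Convexity
import Vale.Agent.P150.Beyond.Interfaces

/-!
# P150 beyond one half: Poincaré and stability at fields with rare failures
-/

open Finset Real
open Vale.Agent.P150.Fast
open Vale.Agent.P150.Fast.Ent (ent entAt lin)

namespace Vale.Agent.P150.Beyond

variable {n : ℕ}

/-- The deterministic properties of the couplings. -/
structure Regular (n : ℕ) (g : Edge n → ℝ) (τ : ℝ) : Prop where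
  entries : ∀ i j, |skMat n 1 g i j| ≤ τ
  rows : ∀ i, ∑ j, skMat n 1 g i j ^ 2 ≤ 2
  form : ∀ v : Fin n → ℝ, |∑ i, ∑ j, skMat n 1 g i j * v i * v j| ≤ 3 * ∑ i, v i ^ 2
  square : ∀ a : Fin n → ℝ,
    ∑ i, ∑ j, skMat n 1 g i j ^ 2 * a i * a j ≤ (∑ i, a i) ^ 2 / n + τ * ∑ i, a i ^ 2

variable {g : Edge n → ℝ} {τ θ : ℝ}

theorem Regular.scaled (hR : Regular n g τ) (hθ0 : 0 ≤ θ) (hθ1 : θ ≤ 1) :
    (∀ i j, |skMat n θ g i j| ≤ τ) ∧ ∀ i, ∑ j, skMat n θ g i j ^ 2 ≤ 2 := by
  refine ⟨fun i j => ?_, fun i => ?_⟩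
  · rw [skMat_smul, abs_mul, abs_of_nonneg hθ0]
    exact (mul_le_of_le_one_left (abs_nonneg _) hθ1).trans (hR.entries i j)
  · refine (Finset.sum_le_sum fun j _ => ?_).trans (hR.rows i)
    rw [skMat_smul, mul_pow]
    exact mul_le_of_le_one_left (sq_nonneg _) (pow_le_one₀ hθ0 hθ1)

theorem site_lin_le {J : Fin n → Fin n → ℝ} (h v : Fin n → ℝ) (i : Fin n) :
    site J h i (lin v) ≤ v i ^ 2 := by
  refine (mean_le_mean h fun x => ?_).trans_eq (mean_const h _)
  have hg : grad i (lin v) x = 2 * v i := by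
    simp only [grad, lin, ← Finset.sum_sub_distrib]
    rw [Finset.sum_eq_single i]
    · simp [spin]; ring
    · intro k _ hk; simp [Function.update_of_ne hk]
    · simp
  rw [hg]
  linarith [mul_nonneg (sq_nonneg (cmean J h i x)) (sq_nonneg (v i))]

/-- Moving the field by `w` costs at most `exp (2 √(n |w|²))` in probability. -/
theorem mean_tilt_le {J : Fin n → Fin n → ℝ} {y w : Fin n → ℝ} {R : ℝ} (hw : ∑ i, w i ^ 2 ≤ R)
    {F : (Fin n → Bool) → ℝ} (hF : ∀ x, 0 ≤ F x) :
    mean J (fun i => y i + w i) F ≤ Real.exp (2 * √(n * R)) * mean J y F := by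
  set b := √(n * R)
  have hlin : ∀ x, |lin w x| ≤ b := fun x => by
    refine Real.abs_le_sqrt ?_
    have := Finset.sum_mul_sq_le_sq_mul_sq univ w fun i => spin (x i)
    simp only [Ent.spin_sq_eq, Finset.sum_const, Finset.card_univ, Fintype.card_fin, nsmul_eq_mul,
      mul_one] at this
    exact this.trans ((mul_le_mul_of_nonneg_right hw (Nat.cast_nonneg n)).trans_eq (mul_comm _ _))
  have hS : 0 < ∑ x, Real.exp (ham J y x) := Ent.part_pos J y
  have hlow : Real.exp (-b) * ∑ x, Real.exp (ham J y x) ≤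
      ∑ x, Real.exp (ham J (fun i => y i + w i) x) := by
    rw [Finset.mul_sum]
    refine Finset.sum_le_sum fun x _ => ?_
    rw [← Real.exp_add, Ent.ham_add]
    exact Real.exp_le_exp.2 (by linarith [(abs_le.1 (hlin x)).1])
  simp only [mean, Finset.mul_sum]
  refine Finset.sum_le_sum fun x _ => ?_
  rw [← mul_assoc]
  refine mul_le_mul_of_nonneg_right ?_ (hF x)
  simp only [weight]
  rw [mul_div_assoc', div_le_div_iff₀ (Ent.part_pos J _) hS]
  have h1 : Real.exp (ham J (fun i => y i + w i) x) ≤ Real.exp b * Real.exp (ham J y x) := by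
    rw [← Real.exp_add, Ent.ham_add]
    exact Real.exp_le_exp.2 (by linarith [(abs_le.1 (hlin x)).2])
  calc Real.exp (ham J (fun i => y i + w i) x) * ∑ z, Real.exp (ham J y z)
      ≤ (Real.exp b * Real.exp (ham J y x)) *
          (Real.exp b * ∑ z, Real.exp (ham J (fun i => y i + w i) z)) := by
        refine mul_le_mul h1 ?_ hS.le (by positivity)
        have := mul_le_mul_of_nonneg_left hlow (Real.exp_pos b).le
        rwa [← mul_assoc, ← Real.exp_add, add_neg_cancel, Real.exp_zero, one_mul] at this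
    _ = _ := by rw [show (2 : ℝ) * b = b + b by ring, Real.exp_add]; ring

/-- The constants of the argument at one strength of the couplings, all independent of `n`. -/
structure GoodConsts (γ ε C δ c A κ ε₁ L α : ℝ) : Prop where
  pos_γ : 0 < γ
  le_γ : γ ≤ 1
  pos_C : 0 < C
  pos_α : 0 < α
  pos_κ : 0 < κ
  nn_ε₁ : 0 ≤ ε₁
  one_le_L : 1 ≤ L
  radius : 2 * ε₁ + 2 * (4 * 9 * (κ + κ)) ≤ ε
  rate : C * (4 * Real.exp (2 * L)) * α ≤
    (c - 2 * √ε₁) - δ - 3 * C * (2 * (2 * A + 2 * ε₁) + 18) / L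

/-- Poincaré near a field at which failures of the criterion are rare. -/
theorem poincare_near {γ ε C δ c A κ ε₁ L α : ℝ} (hK : GoodConsts γ ε C δ c A κ ε₁ L α)
    (hR : Regular n g τ) (hτ0 : 0 ≤ τ) (hτ : τ ≤ 1 / 20) (hθ0 : 0 ≤ θ) (hθ1 : θ ≤ 1)
    (hn : 1 ≤ κ * n) (hα : 100 ≤ α * n)
    (herr : 8020 * τ + 6 / (α * n) * (200 + 2 / κ) ≤ γ / 2)
    (hD : ∀ h, DefectLSI (skMat n θ g) h C (δ * n))
    {y : Fin n → ℝ} (hy : ∑ i, y i ^ 2 ≤ A * n)
    [DecidablePred (· ∈ failSet θ γ (ε * n) g y)]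
    (hmass : mean (skMat n θ g) y (fun x => if x ∈ failSet θ γ (ε * n) g y then 1 else 0) ≤
      Real.exp (-(c * n)))
    {w : Fin n → ℝ} (hw : ∑ i, w i ^ 2 ≤ ε₁ * n) (f : (Fin n → Bool) → ℝ) :
    γ / 2 * var (skMat n θ g) (fun i => y i + w i) f ≤
      ∑ i, site (skMat n θ g) (fun i => y i + w i) i f := by
  classical
  obtain ⟨hτJ, hρJ⟩ := hR.scaled hθ0 hθ1
  set J := skMat n θ g
  set h := fun i => y i + w i with hh
  set k := ⌈κ * n⌉₊ with hk
  have hk0 : 0 < k := Nat.ceil_pos.2 (by linarith)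
  have hk1 : (k : ℝ) ≤ (κ + κ) * n := by
    have := Nat.ceil_lt_add_one (show 0 ≤ κ * n by linarith)
    linarith
  have hθ2 : θ ^ 2 ≤ 1 := pow_le_one₀ hθ0 hθ1
  set B := {x : Fin n → Bool | CritFails θ γ (skMat n 1 g) fun i => field J h i x}
  have hsub : ∀ x ∈ near B k, x ∈ failSet θ γ (ε * n) g y := fun x hx => by
    obtain ⟨v, hv, hc⟩ := crit_of_near (h := h) (r := 4 * 9 * ((κ + κ) * n)) three_pos hR.form
      (k := k) (by
        have := mul_le_mul hθ2 hk1 (Nat.cast_nonneg k) zero_le_one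
        linarith) hx
    refine ⟨fun i => w i + v i, ?_, ?_⟩
    · refine (Finset.sum_le_sum fun i _ => add_sq_le (a := w i) (b := v i)).trans ?_
      rw [← Finset.mul_sum, Finset.sum_add_distrib]
      have := mul_le_mul_of_nonneg_right hK.radius (Nat.cast_nonneg n)
      linarith
    · have e : ∀ i, field J y i x + (w i + v i) = field J h i x + v i := fun i => by
        simp only [field, hh]; ring
      have ee : (fun i => field J y i x + (w i + v i)) = fun i => field J h i x + v i := funext e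
      show CritFails θ γ (skMat n 1 g) fun i => field J y i x + (w i + v i)
      rw [ee]; exact hc
  set U := near B k
  have hmassU : mean J h (fun x => if x ∈ U then (1 : ℝ) else 0) ≤
      Real.exp (-((c - 2 * √ε₁) * n)) := by
    refine (mean_tilt_le hw (J := J) fun x => by split_ifs <;> norm_num).trans ?_
    have e : √((n : ℝ) * (ε₁ * n)) = √ε₁ * n := by
      rw [show (n : ℝ) * (ε₁ * n) = ε₁ * (n * n) by ring, Real.sqrt_mul hK.nn_ε₁,
        Real.sqrt_mul_self (Nat.cast_nonneg n)]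
    rw [e]
    refine (mul_le_mul_of_nonneg_left ((mean_le_mean y fun x => ?_).trans hmass)
      (Real.exp_pos _).le).trans_eq ?_
    · by_cases hx : x ∈ U
      · rw [if_pos hx, if_pos (hsub x hx)]
      · rw [if_neg hx]; split_ifs <;> norm_num
    · rw [← Real.exp_add]; ring_nf
  have hA' : ∀ x, ∑ i, field J h i x ^ 2 ≤ (2 * (2 * A + 2 * ε₁) + 18) * n := fun x => by
    refine (field_sq_le three_pos hR.form h x).trans ?_
    have h1 : ∑ i, h i ^ 2 ≤ 2 * (A * n) + 2 * (ε₁ * n) := by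
      refine (Finset.sum_le_sum fun i _ => add_sq_le (a := y i) (b := w i)).trans ?_
      rw [← Finset.mul_sum, Finset.sum_add_distrib]
      linarith
    have := mul_le_mul_of_nonneg_right hθ2 (show (0:ℝ) ≤ 9 * n by positivity)
    linarith
  have hU : SmallSet J h U (α * n) := by
    refine smallSet_of_defectLSI (isCoupling_skMat n θ g) hK.pos_C (hD h) hK.one_le_L hA' U hmassU ?_
    have := mul_le_mul_of_nonneg_right hK.rate (Nat.cast_nonneg n)
    refine le_trans (le_of_eq ?_) (this.trans_eq ?_)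
    · ring
    · ring
  have hpf := fun f x => pairForm_le (h := h) (γ := γ) (ρ := 2) hτ0 hτJ hτ hρJ hτ0 hR.square
    (L := 3) (by norm_num) hR.form hθ0 f x
  set lam := 1 - γ + (3 * τ * 2 + 2 * θ ^ 2 * τ) with hlam
  have hτ2 : 2 * θ ^ 2 * τ ≤ 2 * τ := mul_le_mul_of_nonneg_right (by linarith) hτ0
  have hτ3 : 0 ≤ 2 * θ ^ 2 * τ := by positivity
  have hS : ∀ f x, 0 ≤ ∑ i, siteDens J h i f x :=
    fun f x => Finset.sum_nonneg fun i _ => siteDens_nonneg h i f x
  refine poincare_typical h (isCoupling_skMat n θ g) hτJ hτ hρJ B hk0 (lam := lam) (M := 4 + γ)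
    (a := α * n) (by linarith [hK.pos_γ]) (by linarith) hU ?_ ?_ ?_ ?_ f
  · linarith [hK.le_γ]
  · exact fun f x hx => (hpf f x).1 hx
  · intro f x _
    refine (hpf f x).2.trans (mul_le_mul_of_nonneg_right ?_ (hS f x))
    linarith [mul_le_mul_of_nonneg_left hθ2 (show (0:ℝ) ≤ 2 by norm_num)]
  · have hk2 : (1 / k : ℝ) ^ 2 * Fintype.card (Fin n) ≤ 1 / κ := by
      have hk' : (0 : ℝ) < k := by exact_mod_cast hk0
      have h1 : κ * n ≤ k := Nat.le_ceil _
      have h2 : (1 : ℝ) ≤ k := by exact_mod_cast hk0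
      rw [Fintype.card_fin, div_pow, one_pow, div_mul_eq_mul_div, one_mul,
        div_le_div_iff₀ (by positivity) hK.pos_κ, one_mul, mul_comm (n : ℝ)]
      refine h1.trans ?_
      rw [sq]
      exact le_mul_of_one_le_right hk'.le h2
    have e2 : (4 + γ) / (α * n) * (100 * 2 + 2 * (1 / k : ℝ) ^ 2 * Fintype.card (Fin n)) ≤
        6 / (α * n) * (200 + 2 / κ) := by
      refine mul_le_mul (div_le_div_of_nonneg_right (by linarith [hK.le_γ]) (by linarith))
        ?_ (by positivity) (by positivity)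
      rw [mul_assoc (2 : ℝ), show (2 : ℝ) / κ = 2 * (1 / κ) by ring]
      linarith
    linarith

end Vale.Agent.P150.Beyond
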