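import Vale.Agent.P150.Fast.PairAlgebra

/-!
# P150 beyond one half: the sharp two-spin inequality

Up to third order in the coupling, the pair term of the Bochner identity equals its rank-one
correction plus a positive multiple of the squared mixed difference.
-/

namespace Vale.Agent.P150.Beyond

open Vale.Agent.P150.Fast

theorem abs_sub_mul_le {x y p q a b : ℝ} (hy : |y| ≤ 2) (hp : |p| ≤ 2) (ha : |x - p| ≤ a)
    (hb : |y - q| ≤ b) : |x * y - p * q| ≤ 2 * a + 2 * b := by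
  calc |x * y - p * q| = |(x - p) * y + p * (y - q)| := by ring_nf
    _ ≤ |(x - p) * y| + |p * (y - q)| := abs_add_le _ _
    _ ≤ a * 2 + 2 * b := by
        rw [abs_mul, abs_mul]
        exact add_le_add (mul_le_mul ha hy (abs_nonneg _) ((abs_nonneg _).trans ha))
          (mul_le_mul hp hb (abs_nonneg _) zero_le_two)
    _ = _ := by ring

theorem inv_near {θ t : ℝ} (hθ : |θ| ≤ 1 / 20) (ht : |t| ≤ 1) {b : ℝ} (hb : b = 1 ∨ b = -1) :
    |(1 - θ ^ 2) / (1 + θ * t * b) - 1| ≤ 2 * |θ| ∧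
      |pairMean θ t b - t| ≤ 2 * |θ| ∧ |(1 - θ ^ 2) / (1 + θ * t * b)| ≤ 11 / 10 ∧
      |pairMean θ t b| ≤ 11 / 10 := by
  have htb : |θ * t * b| ≤ |θ| := by
    rcases hb with rfl | rfl <;> simpa [abs_mul] using mul_le_of_le_one_right (abs_nonneg θ) ht
  have hn : 19 / 20 ≤ 1 + θ * t * b := by linarith [(abs_le.1 htb).1]
  have hθ2 : θ ^ 2 ≤ |θ| / 20 := by rw [← sq_abs, sq]; nlinarith [abs_nonneg θ]
  have ht2 : 0 ≤ 1 - t ^ 2 ∧ 1 - t ^ 2 ≤ 1 :=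
    ⟨by rw [sub_nonneg, sq_le_one_iff_abs_le_one]; exact ht, by linarith [sq_nonneg t]⟩
  have e1 : |(1 - θ ^ 2) / (1 + θ * t * b) - 1| ≤ 2 * |θ| := by
    rw [div_sub_one (by linarith), abs_div, abs_of_pos (show 0 < 1 + θ * t * b by linarith),
      div_le_iff₀ (by linarith), abs_le]
    constructor <;>
      nlinarith [abs_nonneg θ, (abs_le.1 htb).1, (abs_le.1 htb).2, sq_nonneg θ]
  have e2 : |pairMean θ t b - t| ≤ 2 * |θ| := by
    rw [pairMean, div_sub' (by linarith)]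
    rw [show t + θ * b - (1 + θ * t * b) * t = θ * b * (1 - t ^ 2) by ring, abs_div, abs_mul,
      abs_of_pos (show 0 < 1 + θ * t * b by linarith), abs_of_nonneg ht2.1, div_le_iff₀ (by linarith)]
    rcases hb with rfl | rfl <;> simp only [abs_mul, abs_one, abs_neg, mul_one] <;>
      nlinarith [abs_nonneg θ]
  refine ⟨e1, e2, ?_, ?_⟩
  · rw [abs_le]; constructor <;> linarith [(abs_le.1 e1).1, (abs_le.1 e1).2]
  · rw [abs_le]
    constructor <;> linarith [(abs_le.1 e2).1, (abs_le.1 e2).2, (abs_le.1 ht).1, (abs_le.1 ht).2]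

/-- The corrections of the polynomial coefficients are of first order. -/
theorem coef_shift {θ t u : ℝ} (hθ : |θ| ≤ 1 / 20) (ht : |t| ≤ 1) (hu : |u| ≤ 1) :
    |coefA θ t u + 2| ≤ 8 * |θ| ∧ |coefB θ t u + 4 * t * u| ≤ 12 * |θ| := by
  have hp := abs_tu_le ht hu
  have ht2 : t ^ 2 ≤ 1 := (sq_le_one_iff_abs_le_one _).2 ht
  have hu2 : u ^ 2 ≤ 1 := (sq_le_one_iff_abs_le_one _).2 hu
  have hqq : |(t * u) ^ 2| ≤ 1 := by rw [abs_pow]; exact pow_le_one₀ (abs_nonneg _) hp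
  have hm : |4 - 2 * u ^ 2 - 2 * t ^ 2| ≤ 4 :=
    abs_le.2 ⟨by linarith, by linarith [sq_nonneg t, sq_nonneg u]⟩
  have hm' : |-4 + 4 * u ^ 2 + 4 * t ^ 2| ≤ 4 :=
    abs_le.2 ⟨by linarith [sq_nonneg t, sq_nonneg u], by linarith⟩
  have p1 : |θ| ^ 2 ≤ |θ| / 20 := by rw [sq]; nlinarith [abs_nonneg θ]
  have p0 : 0 ≤ |θ| := abs_nonneg θ
  have p2 : |θ| ^ 3 ≤ |θ| / 20 :=
    (pow_le_pow_of_le_one p0 (hθ.trans (by norm_num)) (show 2 ≤ 3 by norm_num)).trans p1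
  have p3 : |θ| ^ 4 ≤ |θ| / 20 :=
    (pow_le_pow_of_le_one p0 (hθ.trans (by norm_num)) (show 2 ≤ 4 by norm_num)).trans p1
  constructor
  · rw [show coefA θ t u + 2 = 4 * θ * (t * u) + θ ^ 2 * (4 - 2 * u ^ 2 - 2 * t ^ 2) +
      (-4) * θ ^ 3 * (t * u) + 2 * θ ^ 4 * (t * u) ^ 2 by simp only [coefA]; ring]
    refine (abs_add_le _ _).trans ?_
    refine le_trans (add_le_add (abs_add_three _ _ _) le_rfl) ?_
    simp only [abs_mul, abs_pow, abs_neg, abs_two, show |(4 : ℝ)| = 4 by norm_num]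
    have := mul_le_mul_of_nonneg_left hp p0
    have := mul_le_mul_of_nonneg_left hm (pow_nonneg p0 2)
    have := mul_le_mul_of_nonneg_left hp (pow_nonneg p0 3)
    have : |θ| ^ 4 * |t * u| ^ 2 ≤ |θ| ^ 4 * 1 :=
      mul_le_mul_of_nonneg_left (pow_le_one₀ (abs_nonneg _) hp) (pow_nonneg p0 4)
    simp only [abs_mul] at *
    linarith
  · rw [show coefB θ t u + 4 * t * u = θ * (-4 + 4 * u ^ 2 + 4 * t ^ 2) + 4 * θ ^ 2 * (t * u) +
      (-4) * θ ^ 3 * (t * u) ^ 2 by simp only [coefB]; ring]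
    refine (abs_add_three _ _ _).trans ?_
    simp only [abs_mul, abs_pow, abs_neg, show |(4 : ℝ)| = 4 by norm_num]
    have := mul_le_mul_of_nonneg_left hm' p0
    have := mul_le_mul_of_nonneg_left hp (pow_nonneg p0 2)
    have : |θ| ^ 3 * |t * u| ^ 2 ≤ |θ| ^ 3 * 1 :=
      mul_le_mul_of_nonneg_left (pow_le_one₀ (abs_nonneg _) hp) (pow_nonneg p0 3)
    simp only [abs_mul] at *
    linarith

/-- The rank-one corrected second-order form is the squared difference up to third order. -/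
theorem poly_main {θ t u S T w : ℝ} (hθ : |θ| ≤ 1 / 20) (ht : |t| ≤ 1) (hu : |u| ≤ 1) :
    3 * w ^ 2 - 45 * |θ| ^ 3 * (S ^ 2 + T ^ 2 + w ^ 2) ≤
      pairPoly θ t u S T w +
        2 * θ ^ 2 * (t * u * ((S + u * (2 * w - θ * t * S)) * (T + t * (2 * w - θ * u * T)))) := by
  obtain ⟨hA, hB⟩ := coef_shift hθ ht hu
  have hc := (coef_bounds hθ ht hu).1
  have hp := abs_tu_le ht hu
  have hp2 : |(t * u) ^ 2| ≤ 1 := by rw [abs_pow]; exact pow_le_one₀ (abs_nonneg _) hp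
  have hp3 : |θ * (t * u) ^ 3| ≤ |θ| := by
    rw [abs_mul, abs_pow]; exact mul_le_of_le_one_right (abs_nonneg _) (pow_le_one₀ (abs_nonneg _) hp)
  have e : pairPoly θ t u S T w +
      2 * θ ^ 2 * (t * u * ((S + u * (2 * w - θ * t * S)) * (T + t * (2 * w - θ * u * T)))) =
      (coefC θ t u + 8 * θ ^ 2 * (t * u) ^ 2) * w ^ 2 +
        θ ^ 2 * (((t * u) * (coefA θ t u + 2) + θ * (-4) * (t * u) ^ 2 +
            2 * θ * (θ * (t * u) ^ 3)) * (S * T) +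
          (t * (coefB θ t u + 4 * t * u) + θ * (-4) * ((t * u) ^ 2 * t)) * (S * w) +
          (u * (coefB θ t u + 4 * t * u) + θ * (-4) * ((t * u) ^ 2 * u)) * (T * w)) := by
    simp only [pairPoly]; ring
  rw [e]
  have b1 : |(t * u) * (coefA θ t u + 2) + θ * (-4) * (t * u) ^ 2 + 2 * θ * (θ * (t * u) ^ 3)|
      ≤ 14 * |θ| := by
    refine (abs_add_three _ _ _).trans ?_
    rw [abs_mul (t * u), abs_mul (θ * (-4)), abs_mul θ, abs_mul (2 * θ), abs_mul 2 θ, abs_two,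
      show |(-4 : ℝ)| = 4 by norm_num]
    have := mul_le_mul hp hA (abs_nonneg _) zero_le_one
    have := mul_le_mul_of_nonneg_left hp2 (mul_nonneg (abs_nonneg θ) (by norm_num : (0:ℝ) ≤ 4))
    have := mul_le_mul_of_nonneg_left (hp3.trans hθ) (mul_nonneg zero_le_two (abs_nonneg θ))
    linarith [abs_nonneg θ]
  have b2 : ∀ r : ℝ, |r| ≤ 1 →
      |r * (coefB θ t u + 4 * t * u) + θ * (-4) * ((t * u) ^ 2 * r)| ≤ 16 * |θ| := fun r hr => by
    refine (abs_add_le _ _).trans ?_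
    rw [abs_mul r, abs_mul (θ * (-4)), abs_mul θ, abs_mul ((t * u) ^ 2),
      show |(-4 : ℝ)| = 4 by norm_num]
    have := mul_le_mul hr hB (abs_nonneg _) zero_le_one
    have := mul_le_mul_of_nonneg_left (mul_le_mul hp2 hr (abs_nonneg _) zero_le_one)
      (mul_nonneg (abs_nonneg θ) (by norm_num : (0:ℝ) ≤ 4))
    linarith
  have key : ∀ k c X Y : ℝ, |k| ≤ c → -(c * ((X ^ 2 + Y ^ 2) / 2)) ≤ k * (X * Y) := fun k c X Y hk => by
    refine (abs_le.1 ?_).1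
    rw [abs_mul]
    refine mul_le_mul hk ?_ (abs_nonneg _) ((abs_nonneg k).trans hk)
    rw [abs_mul]
    linarith [two_mul_le_add_sq |X| |Y|, sq_abs X, sq_abs Y]
  have k1 := key _ _ S T b1
  have k2 := key _ _ S w (b2 t ht)
  have k3 := key _ _ T w (b2 u hu)
  have hsum := mul_le_mul_of_nonneg_left (add_le_add (add_le_add k1 k2) k3) (sq_nonneg θ)
  have h8 : 0 ≤ 8 * θ ^ 2 * (t * u) ^ 2 * w ^ 2 := by positivity
  have hcw := mul_le_mul_of_nonneg_right hc (sq_nonneg w)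
  have h3 : |θ| ^ 3 = θ ^ 2 * |θ| := by rw [← sq_abs θ]; ring
  rw [h3]
  have : 0 ≤ θ ^ 2 * |θ| := by positivity
  nlinarith [sq_nonneg S, sq_nonneg T, sq_nonneg w]

/-- The integrand of the rank-one correction. -/
noncomputable def pairRank (θ t u a b A B : ℝ) : ℝ :=
  pairWeight θ t u a b * (pairMean θ t b * pairMean θ u a) *
    (((1 - pairMean θ t b ^ 2) * A) * ((1 - pairMean θ u a ^ 2) * B)) / 4

/-- The integrand of the third-order error. -/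
noncomputable def pairMass (θ t u a b A B : ℝ) : ℝ :=
  pairWeight θ t u a b * ((1 - pairMean θ t b ^ 2) * A ^ 2 + (1 - pairMean θ u a ^ 2) * B ^ 2) / 4

/-- The integrand of the squared mixed difference. -/
noncomputable def pairHess (θ t u a b Δ : ℝ) : ℝ :=
  pairWeight θ t u a b * ((1 - pairMean θ t b ^ 2) * (1 - pairMean θ u a ^ 2)) * Δ ^ 2 / 16

theorem rank_shape {w₁ w₂ w₃ xy K L s n m P R : ℝ} (hn : n ≠ 0) (hm : m ≠ 0) :
    w₁ * w₂ * w₃ * xy * ((K * s / n ^ 2 * (P * n)) * (L * s / m ^ 2 * (R * m))) / 4 =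
      K * L / 4 * (w₂ * w₃ * (w₁ * (xy * ((s / n) * (s / m)))) * (P * R)) := by
  field_simp

theorem mass_shape {w K s n P : ℝ} (hn : n ≠ 0) :
    2 * n * w * ((K * s / n ^ 2) * (P * n) ^ 2) / 4 = w * n * s / 2 * (K * P ^ 2) := by
  field_simp
  ring

theorem pairRank_near {θ t u a b P R : ℝ} (hθ : |θ| ≤ 1 / 20) (ht : |t| ≤ 1) (hu : |u| ≤ 1)
    (ha : a = 1 ∨ a = -1) (hb : b = 1 ∨ b = -1) :
    |pairRank θ t u a b (P * (1 + θ * t * b)) (R * (1 + θ * u * a)) -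
      (1 - t ^ 2) * (1 - u ^ 2) / 4 * ((1 + t * a) * (1 + u * b) * (t * u) * (P * R))| ≤
      (1 - t ^ 2) * (1 - u ^ 2) / 4 * (80 * |θ| * (P ^ 2 + R ^ 2)) := by
  obtain ⟨p1, p2, p3, p4⟩ := inv_near hθ ht hb
  obtain ⟨q1, q2, q3, q4⟩ := inv_near hθ hu ha
  have hn : 1 + θ * t * b ≠ 0 := one_add_ne (abs_mul_le_of_le ht hθ) hb
  have hm : 1 + θ * u * a ≠ 0 := one_add_ne (abs_mul_le_of_le hu hθ) ha
  set ν := (1 - θ ^ 2) / (1 + θ * t * b) with hν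
  set μ := (1 - θ ^ 2) / (1 + θ * u * a) with hμ
  set x := pairMean θ t b
  set y := pairMean θ u a
  have e : pairRank θ t u a b (P * (1 + θ * t * b)) (R * (1 + θ * u * a)) =
      (1 - t ^ 2) * (1 - u ^ 2) / 4 * ((1 + t * a) * (1 + u * b) *
        ((1 + θ * a * b) * ((x * y) * (ν * μ))) * (P * R)) := by
    rw [pairRank, pairMean_var hn hb, pairMean_var hm ha, pairWeight, hν, hμ]
    exact rank_shape hn hm
  have hE : 0 ≤ (1 - t ^ 2) * (1 - u ^ 2) / 4 := by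
    have := (sq_le_one_iff_abs_le_one t).2 ht
    have := (sq_le_one_iff_abs_le_one u).2 hu
    exact div_nonneg (mul_nonneg (by linarith) (by linarith)) (by norm_num)
  rw [e, ← mul_sub, abs_mul, abs_of_nonneg hE]
  refine mul_le_mul_of_nonneg_left ?_ hE
  have hxy : |x * y - t * u| ≤ 8 * |θ| := by
    linarith [abs_sub_mul_le (q4.trans (by norm_num)) (ht.trans (by norm_num)) p2 q2]
  have hnm : |ν * μ - 1 * 1| ≤ 8 * |θ| := by
    linarith [abs_sub_mul_le (q3.trans (by norm_num)) (by norm_num : |(1:ℝ)| ≤ 2) p1 q1]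
  have hnm2 : |ν * μ| ≤ 2 := by
    rw [abs_mul]; exact (mul_le_mul p3 q3 (abs_nonneg _) (by norm_num)).trans (by norm_num)
  have hk : |x * y * (ν * μ) - t * u * 1| ≤ 32 * |θ| := by
    have := abs_sub_mul_le hnm2 ((abs_tu_le ht hu).trans (by norm_num)) hxy
      (by simpa using hnm : |ν * μ - 1| ≤ 8 * |θ|)
    linarith
  have hab : |θ * a * b| ≤ |θ| := by
    rcases ha with rfl | rfl <;> rcases hb with rfl | rfl <;> simp
  have hl : |(1 + θ * a * b) * (x * y * (ν * μ)) - t * u| ≤ 40 * |θ| := by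
    rw [show (1 + θ * a * b) * (x * y * (ν * μ)) - t * u =
      (x * y * (ν * μ) - t * u * 1) + θ * a * b * (x * y * (ν * μ)) by ring]
    refine (abs_add_le _ _).trans ?_
    rw [abs_mul (θ * a * b)]
    have h5 : |x * y * (ν * μ)| ≤ 8 := by
      rw [abs_mul, abs_mul]
      exact (mul_le_mul (mul_le_mul p4 q4 (abs_nonneg _) (by norm_num)) hnm2 (abs_nonneg _)
        (by norm_num)).trans (by norm_num)
    linarith [mul_le_mul hab h5 (abs_nonneg _) (abs_nonneg θ)]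
  have hw : |(1 + t * a) * (1 + u * b)| ≤ 4 := by
    rw [abs_mul]
    have r1 : |1 + t * a| ≤ 2 := by
      rcases ha with rfl | rfl <;> rw [abs_le] <;> constructor <;>
        linarith [(abs_le.1 ht).1, (abs_le.1 ht).2]
    have r2 : |1 + u * b| ≤ 2 := by
      rcases hb with rfl | rfl <;> rw [abs_le] <;> constructor <;>
        linarith [(abs_le.1 hu).1, (abs_le.1 hu).2]
    linarith [mul_le_mul r1 r2 (abs_nonneg _) zero_le_two]
  rw [show (1 + t * a) * (1 + u * b) * ((1 + θ * a * b) * (x * y * (ν * μ))) * (P * R) -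
      (1 + t * a) * (1 + u * b) * (t * u) * (P * R) =
    (1 + t * a) * (1 + u * b) * ((1 + θ * a * b) * (x * y * (ν * μ)) - t * u) * (P * R) by ring,
    abs_mul, abs_mul ((1 + t * a) * (1 + u * b)), abs_mul P]
  have h2 : |P| * |R| ≤ (P ^ 2 + R ^ 2) / 2 := by
    linarith [two_mul_le_add_sq |P| |R|, sq_abs P, sq_abs R]
  calc _ ≤ 4 * (40 * |θ|) * ((P ^ 2 + R ^ 2) / 2) :=
        mul_le_mul (mul_le_mul hw hl (abs_nonneg _) (by norm_num)) h2 (by positivity) (by positivity)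
    _ = _ := by ring

theorem pairMass_side {θ t u P : ℝ} (hθ : |θ| ≤ 1 / 20) (ht : |t| ≤ 1) (hu : |u| ≤ 1) {b : ℝ}
    (hb : b = 1 ∨ b = -1) :
    (1 - t ^ 2) * (1 - u ^ 2) * P ^ 2 ≤ 5 *
      ((pairWeight θ t u 1 b + pairWeight θ t u (-1) b) *
        ((1 - pairMean θ t b ^ 2) * (P * (1 + θ * t * b)) ^ 2) / 4) := by
  have h := abs_mul_le_of_le ht hθ
  have hn : 19 / 20 ≤ 1 + θ * t * b := by
    rcases hb with rfl | rfl <;> linarith [(abs_le.1 h).1, (abs_le.1 h).2]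
  have e : (pairWeight θ t u 1 b + pairWeight θ t u (-1) b) *
      ((1 - pairMean θ t b ^ 2) * (P * (1 + θ * t * b)) ^ 2) / 4 =
      (1 + u * b) * (1 + θ * t * b) * (1 - θ ^ 2) / 2 * ((1 - t ^ 2) * P ^ 2) := by
    rw [pairMean_var (one_add_ne h hb) hb,
      show pairWeight θ t u 1 b + pairWeight θ t u (-1) b = 2 * (1 + θ * t * b) * (1 + u * b) by
        simp only [pairWeight]; ring]
    rw [mass_shape (one_add_ne h hb)]
  rw [e]
  have ht0 : 0 ≤ (1 - t ^ 2) * P ^ 2 :=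
    mul_nonneg (sub_nonneg.2 ((sq_le_one_iff_abs_le_one t).2 ht)) (sq_nonneg _)
  have hub : 1 - u ^ 2 ≤ 2 * (1 + u * b) ∧ 0 ≤ 1 + u * b := by
    obtain ⟨l, r⟩ := abs_le.1 hu
    rcases hb with rfl | rfl <;> constructor <;> nlinarith
  have hs : 9 / 10 ≤ 1 - θ ^ 2 := by linarith [(abs_le.1 (abs_sq_le hθ)).2]
  calc (1 - t ^ 2) * (1 - u ^ 2) * P ^ 2 = (1 - u ^ 2) * ((1 - t ^ 2) * P ^ 2) := by ring
    _ ≤ 2 * (1 + u * b) * ((1 - t ^ 2) * P ^ 2) := mul_le_mul_of_nonneg_right hub.1 ht0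
    _ ≤ 5 * ((1 + u * b) * (1 + θ * t * b) * (1 - θ ^ 2) / 2) * ((1 - t ^ 2) * P ^ 2) := by
        refine mul_le_mul_of_nonneg_right ?_ ht0
        have h85 : (4 : ℝ) / 5 ≤ (1 + θ * t * b) * (1 - θ ^ 2) := by nlinarith
        linarith [mul_le_mul_of_nonneg_left h85 hub.2]
    _ = _ := by ring

theorem pairWeight_nonneg {θ t u a b : ℝ} (hθ : |θ| ≤ 1 / 20) (ht : |t| ≤ 1) (hu : |u| ≤ 1)
    (ha : a = 1 ∨ a = -1) (hb : b = 1 ∨ b = -1) : 0 ≤ pairWeight θ t u a b := by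
  obtain ⟨a1, a2⟩ := abs_le.1 hθ
  obtain ⟨b1, b2⟩ := abs_le.1 ht
  obtain ⟨c1, c2⟩ := abs_le.1 hu
  rw [pairWeight]
  rcases ha with rfl | rfl <;> rcases hb with rfl | rfl <;>
    refine mul_nonneg (mul_nonneg ?_ ?_) ?_ <;> linarith

/-- The squared mixed difference. -/
theorem pairHess_le {θ t u Δ w : ℝ} (hθ : |θ| ≤ 1 / 20) (ht : |t| ≤ 1) (hu : |u| ≤ 1)
    (hΔ : Δ = 2 * w) :
    pairHess θ t u 1 1 Δ + pairHess θ t u 1 (-1) Δ + pairHess θ t u (-1) 1 Δ +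
      pairHess θ t u (-1) (-1) Δ ≤ (1 - t ^ 2) * (1 - u ^ 2) * (7 / 5 * w ^ 2) := by
  set E := (1 - t ^ 2) * (1 - u ^ 2) with hE
  have p : (1 : ℝ) = 1 ∨ (1 : ℝ) = -1 := Or.inl rfl
  have q : (-1 : ℝ) = 1 ∨ (-1 : ℝ) = -1 := Or.inr rfl
  have w11 := pairWeight_nonneg hθ ht hu p p
  have w10 := pairWeight_nonneg hθ ht hu p q
  have w01 := pairWeight_nonneg hθ ht hu q p
  have w00 := pairWeight_nonneg hθ ht hu q q
  have hE0 : 0 ≤ E := mul_nonneg (sub_nonneg.2 ((sq_le_one_iff_abs_le_one t).2 ht))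
    (sub_nonneg.2 ((sq_le_one_iff_abs_le_one u).2 hu))
  have hv : ∀ {x z : ℝ}, |x| ≤ 1 → (z = 1 ∨ z = -1) →
      0 ≤ 1 - pairMean θ x z ^ 2 ∧ 1 - pairMean θ x z ^ 2 ≤ (1 - x ^ 2) * (111 / 100) := by
    intro x z hx hz
    have h := abs_mul_le_of_le hx hθ
    have hn : 19 / 20 ≤ 1 + θ * x * z := by
      rcases hz with rfl | rfl <;> linarith [(abs_le.1 h).1, (abs_le.1 h).2]
    rw [pairMean_var (one_add_ne h hz) hz]
    have h0 : 0 ≤ 1 - x ^ 2 := sub_nonneg.2 ((sq_le_one_iff_abs_le_one x).2 hx)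
    have hs : 0 ≤ 1 - θ ^ 2 := by linarith [(abs_le.1 (abs_sq_le hθ)).2]
    refine ⟨div_nonneg (mul_nonneg h0 hs) (sq_nonneg _), ?_⟩
    rw [mul_div_assoc]
    refine mul_le_mul_of_nonneg_left ?_ h0
    rw [div_le_iff₀ (by positivity)]
    nlinarith
  have hk : ∀ {a b : ℝ}, (a = 1 ∨ a = -1) → (b = 1 ∨ b = -1) → 0 ≤ pairWeight θ t u a b →
      pairHess θ t u a b Δ ≤
        pairWeight θ t u a b * (E * (12321 / 10000)) * w ^ 2 / 4 := by
    intro a b ha hb h0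
    obtain ⟨x1, x2⟩ := hv ht hb
    obtain ⟨y1, y2⟩ := hv hu ha
    rw [pairHess, show Δ ^ 2 = 4 * w ^ 2 by rw [hΔ]; ring]
    have h1 := mul_le_mul x2 y2 y1 (x1.trans x2)
    have h2 := mul_le_mul_of_nonneg_right (mul_le_mul_of_nonneg_left h1 h0) (sq_nonneg w)
    linarith
  have hsumw : pairWeight θ t u 1 1 + pairWeight θ t u 1 (-1) + pairWeight θ t u (-1) 1 +
      pairWeight θ t u (-1) (-1) ≤ 4 * (21 / 20) := by
    have e : pairWeight θ t u 1 1 + pairWeight θ t u 1 (-1) + pairWeight θ t u (-1) 1 +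
        pairWeight θ t u (-1) (-1) = 4 * (1 + θ * (t * u)) := by
      simp only [pairWeight]; ring
    rw [e]
    linarith [(abs_le.1 (abs_mul_le_of_le (abs_tu_le ht hu) hθ)).2]
  have k5 := mul_le_mul_of_nonneg_right (mul_le_mul_of_nonneg_right hsumw
    (show 0 ≤ E * (144 / 100) by positivity)) (sq_nonneg w)
  linarith [hk p p w11, hk p q w10, hk q p w01, hk q q w00,
    mul_nonneg hE0 (sq_nonneg w)]

theorem ratio_near {θ a b : ℝ} (hθ : θ ^ 2 ≤ 1 / 400) (ha : 0 ≤ a) (ha' : a ≤ θ ^ 2) (hb : 0 ≤ b)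
    (hb' : b ≤ θ ^ 2) :
    0 < (1 - a) * (1 - b) ∧ |(1 - θ ^ 2) / ((1 - a) * (1 - b)) - 1| ≤ 3 * θ ^ 2 := by
  have hab : a * b ≤ 1 / 400 * θ ^ 2 := mul_le_mul (ha'.trans hθ) hb' hb (by norm_num)
  have hD : (99 : ℝ) / 100 ≤ (1 - a) * (1 - b) := by linarith [mul_nonneg ha hb]
  have hpos : (0 : ℝ) < (1 - a) * (1 - b) := by linarith
  refine ⟨hpos, ?_⟩
  rw [div_sub_one hpos.ne', abs_div, abs_of_pos hpos, div_le_iff₀ hpos]
  have h2 := mul_le_mul_of_nonneg_left hD (show 0 ≤ 3 * θ ^ 2 by positivity)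
  refine le_trans ?_ h2
  rw [abs_le]
  constructor <;> linarith [mul_nonneg ha hb]

theorem poly_scaled {θ t u S T w r Z : ℝ} (hθ : |θ| ≤ 1 / 20) (ht : |t| ≤ 1) (hu : |u| ≤ 1)
    (hr : |r - 1| ≤ 3 * θ ^ 2) (hS : S ^ 2 ≤ 2 * Z) (hT : T ^ 2 ≤ 2 * Z) (hw : w ^ 2 ≤ 2 * Z) :
    pairPoly θ t u S T w - 18 * θ ^ 2 * w ^ 2 - 3 * θ ^ 2 * (θ ^ 2 * (40 * Z)) ≤
      r * pairPoly θ t u S T w := by
  obtain ⟨hc, hA, hB⟩ := coef_bounds hθ ht hu
  have hp := abs_tu_le ht hu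
  have hm : |t ^ 2 + u ^ 2 - 1| ≤ 1 := by
    have := (sq_le_one_iff_abs_le_one t).2 ht
    have := (sq_le_one_iff_abs_le_one u).2 hu
    exact abs_le.2 ⟨by linarith [sq_nonneg t, sq_nonneg u], by linarith⟩
  have hqq : |(t * u) ^ 2| ≤ 1 := by rw [abs_pow]; exact pow_le_one₀ (abs_nonneg _) hp
  have hcC : |coefC θ t u| ≤ 6 := by
    obtain ⟨-, x⟩ := abs_le.1 (abs_mul_le_of_le hp hθ)
    obtain ⟨y, -⟩ := abs_le.1 (abs_mul_le_of_le hm (abs_sq_le hθ))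
    obtain ⟨z, -⟩ := abs_le.1 (abs_mul_le_of_le hp (abs_cube_le hθ))
    obtain ⟨-, k⟩ := abs_le.1 (abs_mul_le_of_le hqq (abs_quart_le hθ))
    obtain ⟨-, q⟩ := abs_le.1 (abs_sq_le hθ)
    refine abs_le.2 ⟨by linarith, ?_⟩
    simp only [coefC]
    linarith only [x, y, z, k, q, sq_nonneg θ]
  have h1 : ∀ k c X Y : ℝ, |k| ≤ c → X ^ 2 ≤ 2 * Z → Y ^ 2 ≤ 2 * Z → |k * (X * Y)| ≤ c * (2 * Z) :=
    fun k c X Y hk hX hY => by
      rw [abs_mul]
      refine mul_le_mul hk ?_ (abs_nonneg _) ((abs_nonneg k).trans hk)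
      rw [abs_mul]
      linarith [two_mul_le_add_sq |X| |Y|, sq_abs X, sq_abs Y]
  have hpoly : |pairPoly θ t u S T w - coefC θ t u * w ^ 2| ≤ θ ^ 2 * (40 * Z) := by
    rw [show pairPoly θ t u S T w - coefC θ t u * w ^ 2 = θ ^ 2 * (t * u * coefA θ t u * (S * T) +
      t * coefB θ t u * (S * w) + u * coefB θ t u * (T * w)) by simp only [pairPoly]; ring,
      abs_mul, abs_of_nonneg (sq_nonneg θ)]
    refine mul_le_mul_of_nonneg_left ((abs_add_three _ _ _).trans ?_) (sq_nonneg θ)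
    have z1 := h1 (t * u * coefA θ t u) (23 / 10) S T (by
      rw [abs_mul]; simpa using mul_le_mul hp hA (abs_nonneg _) zero_le_one) hS hT
    have z2 := h1 (t * coefB θ t u) 5 S w (by
      rw [abs_mul]; simpa using mul_le_mul ht hB (abs_nonneg _) zero_le_one) hS hw
    have z3 := h1 (u * coefB θ t u) 5 T w (by
      rw [abs_mul]; simpa using mul_le_mul hu hB (abs_nonneg _) zero_le_one) hT hw
    linarith [sq_nonneg S]
  have hb1 : |(r - 1) * (coefC θ t u * w ^ 2)| ≤ 3 * θ ^ 2 * (6 * w ^ 2) := by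
    rw [abs_mul, abs_mul, abs_of_nonneg (sq_nonneg w)]
    exact mul_le_mul hr (mul_le_mul_of_nonneg_right hcC (sq_nonneg _)) (by positivity) (by positivity)
  have hb2 : |(r - 1) * (pairPoly θ t u S T w - coefC θ t u * w ^ 2)| ≤
      3 * θ ^ 2 * (θ ^ 2 * (40 * Z)) := by
    rw [abs_mul]; exact mul_le_mul hr hpoly (abs_nonneg _) (by positivity)
  linarith only [(abs_le.1 hb1).1, (abs_le.1 hb2).1]

theorem pairWeight_swap (θ t u a b : ℝ) : pairWeight θ t u a b = pairWeight θ u t b a := by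
  simp only [pairWeight]; ring

theorem pair_norms {θ t u P Q R V S T w Z : ℝ} (hθt : |θ * t| ≤ 1 / 20) (_hθu : |θ * u| ≤ 1 / 20)
    (hS : S = P + Q) (hT : T = R + V) (hw : w = (P * (1 + θ * t) - Q * (1 - θ * t)) / 2)
    (hZ : Z = P ^ 2 + Q ^ 2 + R ^ 2 + V ^ 2) :
    S ^ 2 ≤ 2 * Z ∧ T ^ 2 ≤ 2 * Z ∧ w ^ 2 ≤ 2 * Z := by
  obtain ⟨a1, a2⟩ := abs_le.1 hθt
  subst hS hT hw hZ
  refine ⟨by linarith [sq_nonneg (P - Q), sq_nonneg R, sq_nonneg V],
    by linarith [sq_nonneg (R - V), sq_nonneg P, sq_nonneg Q], ?_⟩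
  have h1 : (1 + θ * t) ^ 2 ≤ 2 := by nlinarith
  have h2 : (1 - θ * t) ^ 2 ≤ 2 := by nlinarith
  linarith [mul_le_mul_of_nonneg_left h1 (sq_nonneg P), mul_le_mul_of_nonneg_left h2 (sq_nonneg Q),
    sq_nonneg (P * (1 + θ * t) + Q * (1 - θ * t)), sq_nonneg P, sq_nonneg Q, sq_nonneg R,
    sq_nonneg V]

theorem combine {θ E r p L S T w Z X Y H M : ℝ} (hθ : |θ| ≤ 1 / 20) (hE : 0 ≤ E) (hZ : 0 ≤ Z)
    (hS : S ^ 2 ≤ 2 * Z) (hT : T ^ 2 ≤ 2 * Z) (hw : w ^ 2 ≤ 2 * Z)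
    (hmain : 3 * w ^ 2 - 45 * |θ| ^ 3 * (S ^ 2 + T ^ 2 + w ^ 2) ≤ p + 2 * θ ^ 2 * L)
    (hrp : p - 18 * θ ^ 2 * w ^ 2 - 3 * θ ^ 2 * (θ ^ 2 * (40 * Z)) ≤ r * p)
    (hY : E / 4 * L - E / 4 * (160 * |θ| * Z) ≤ Y) (hX : X = E / 4 * (r * p))
    (hH : H ≤ E * (7 / 5 * w ^ 2)) (hMZ : E * Z ≤ 5 * M) :
    H / 2 ≤ X + 2 * θ ^ 2 * Y + 2000 * |θ| ^ 3 * M := by
  have hθ0 : 0 ≤ |θ| := abs_nonneg θ
  have hsq : θ ^ 2 = |θ| ^ 2 := (sq_abs θ).symm
  rw [hsq] at hmain hrp ⊢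
  generalize |θ| = a at hθ hθ0 hmain hrp hY ⊢
  have h2Y := mul_le_mul_of_nonneg_left hY (show 0 ≤ 2 * a ^ 2 by positivity)
  have e2 : 45 * a ^ 3 * (S ^ 2 + T ^ 2 + w ^ 2) ≤ 45 * a ^ 3 * (6 * Z) :=
    mul_le_mul_of_nonneg_left (by linarith) (by positivity)
  have e3 : 3 * a ^ 2 * (a ^ 2 * (40 * Z)) ≤ 6 * (a ^ 3 * Z) := by
    linarith [mul_le_mul_of_nonneg_left hθ (show 0 ≤ 120 * (a ^ 3 * Z) by positivity)]
  have e4 : 18 * a ^ 2 * w ^ 2 ≤ 1 / 10 * w ^ 2 := by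
    refine mul_le_mul_of_nonneg_right ?_ (sq_nonneg _)
    linarith [show a ^ 2 ≤ (1 / 20 : ℝ) ^ 2 from pow_le_pow_left₀ hθ0 hθ 2]
  have e5 := mul_le_mul_of_nonneg_left (show 29 / 10 * w ^ 2 - 276 * (a ^ 3 * Z) ≤
    r * p + 2 * a ^ 2 * L by linarith) (show 0 ≤ E / 4 by positivity)
  have low : E / 4 * (29 / 10 * w ^ 2) - E * (160 * (a ^ 3 * Z)) ≤ X + 2 * a ^ 2 * Y := by
    rw [hX]
    linarith [mul_nonneg hE (mul_nonneg (pow_nonneg hθ0 3) hZ)]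
  have hM := mul_le_mul_of_nonneg_left hMZ (show 0 ≤ 160 * a ^ 3 by positivity)
  have hM0 : 0 ≤ a ^ 3 * M :=
    mul_nonneg (pow_nonneg hθ0 3) (by linarith [mul_nonneg hE hZ])
  linarith [mul_nonneg hE (sq_nonneg w)]

/-- The sharp two-spin inequality. -/
theorem pair_sharp {θ t u A₁ A₀ B₁ B₀ : ℝ} (hθ : |θ| ≤ 1 / 20) (ht : |t| < 1) (hu : |u| < 1)
    (hAB : A₁ - A₀ = B₁ - B₀) :
    (pairHess θ t u 1 1 (A₁ - A₀) + pairHess θ t u 1 (-1) (A₁ - A₀) +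
        pairHess θ t u (-1) 1 (A₁ - A₀) + pairHess θ t u (-1) (-1) (A₁ - A₀)) / 2 ≤
      (pairCross θ t u 1 1 A₁ B₁ + pairCross θ t u 1 (-1) A₀ B₁ +
          pairCross θ t u (-1) 1 A₁ B₀ + pairCross θ t u (-1) (-1) A₀ B₀) +
        2 * θ ^ 2 * (pairRank θ t u 1 1 A₁ B₁ + pairRank θ t u 1 (-1) A₀ B₁ +
          pairRank θ t u (-1) 1 A₁ B₀ + pairRank θ t u (-1) (-1) A₀ B₀) +
        2000 * |θ| ^ 3 * (pairMass θ t u 1 1 A₁ B₁ + pairMass θ t u 1 (-1) A₀ B₁ +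
          pairMass θ t u (-1) 1 A₁ B₀ + pairMass θ t u (-1) (-1) A₀ B₀) := by
  have hθt : |θ * t| ≤ 1 / 20 := abs_mul_le_of_le ht.le hθ
  have hθu : |θ * u| ≤ 1 / 20 := abs_mul_le_of_le hu.le hθ
  obtain ⟨a1, a2⟩ := abs_le.1 hθt
  obtain ⟨b1, b2⟩ := abs_le.1 hθu
  have hs : 0 < 1 - θ ^ 2 := by linarith [(abs_le.1 (abs_sq_le hθ)).2]
  have p : (1 : ℝ) = 1 ∨ (1 : ℝ) = -1 := Or.inl rfl
  have q : (-1 : ℝ) = 1 ∨ (-1 : ℝ) = -1 := Or.inr rfl
  obtain ⟨P, rfl⟩ : ∃ P, A₁ = P * (1 + θ * t * 1) :=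
    ⟨A₁ / (1 + θ * t * 1), by rw [div_mul_cancel₀]; linarith⟩
  obtain ⟨Q, rfl⟩ : ∃ Q, A₀ = Q * (1 + θ * t * (-1)) :=
    ⟨A₀ / (1 + θ * t * (-1)), by rw [div_mul_cancel₀]; linarith⟩
  obtain ⟨R, rfl⟩ : ∃ R, B₁ = R * (1 + θ * u * 1) :=
    ⟨B₁ / (1 + θ * u * 1), by rw [div_mul_cancel₀]; linarith⟩
  obtain ⟨V, rfl⟩ : ∃ V, B₀ = V * (1 + θ * u * (-1)) :=
    ⟨B₀ / (1 + θ * u * (-1)), by rw [div_mul_cancel₀]; linarith⟩
  have c11 := pairCross_eq (P := P) (R := R) hs.ne' hθt hθu p p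
  have c10 := pairCross_eq (P := Q) (R := R) hs.ne' hθt hθu p q
  have c01 := pairCross_eq (P := P) (R := V) hs.ne' hθt hθu q p
  have c00 := pairCross_eq (P := Q) (R := V) hs.ne' hθt hθu q q
  have r11 := abs_le.1 (pairRank_near (P := P) (R := R) hθ ht.le hu.le p p)
  have r10 := abs_le.1 (pairRank_near (P := Q) (R := R) hθ ht.le hu.le p q)
  have r01 := abs_le.1 (pairRank_near (P := P) (R := V) hθ ht.le hu.le q p)
  have r00 := abs_le.1 (pairRank_near (P := Q) (R := V) hθ ht.le hu.le q q)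
  have m1 := pairMass_side (P := P) hθ ht.le hu.le p
  have m0 := pairMass_side (P := Q) hθ ht.le hu.le q
  have n1 := pairMass_side (P := R) hθ hu.le ht.le p
  have n0 := pairMass_side (P := V) hθ hu.le ht.le q
  simp only [mul_one, mul_neg, ← sub_eq_add_neg] at c11 c10 c01 c00 r11 r10 r01 r00 m1 m0 n1 n0 hAB ⊢
  set E := (1 - t ^ 2) * (1 - u ^ 2) with hE
  set D := (1 - (θ * t) ^ 2) * (1 - (θ * u) ^ 2) with hD
  set S := P + Q with hS
  set T := R + V with hT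
  set w := (P * (1 + θ * t) - Q * (1 - θ * t)) / 2 with hw
  have hsum := crossSum_eq hAB
  have hE0 : 0 ≤ E := by
    have := (sq_lt_one_iff_abs_lt_one t).2 ht
    have := (sq_lt_one_iff_abs_lt_one u).2 hu
    exact mul_nonneg (by linarith) (by linarith)
  have hθ2 : θ ^ 2 ≤ 1 / 400 := (abs_le.1 (abs_sq_le hθ)).2
  have hq1 : (θ * t) ^ 2 ≤ θ ^ 2 := by
    rw [mul_pow]; exact mul_le_of_le_one_right (sq_nonneg _) ((sq_le_one_iff_abs_le_one t).2 ht.le)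
  have hq2 : (θ * u) ^ 2 ≤ θ ^ 2 := by
    rw [mul_pow]; exact mul_le_of_le_one_right (sq_nonneg _) ((sq_le_one_iff_abs_le_one u).2 hu.le)
  obtain ⟨hDpos, hr1⟩ := ratio_near hθ2 (sq_nonneg (θ * t)) hq1 (sq_nonneg (θ * u)) hq2
  rw [← hD] at hDpos hr1
  set r := (1 - θ ^ 2) / D with hr
  generalize hX : pairCross θ t u 1 1 (P * (1 + θ * t)) (R * (1 + θ * u)) +
    pairCross θ t u 1 (-1) (Q * (1 - θ * t)) (R * (1 + θ * u)) +
    pairCross θ t u (-1) 1 (P * (1 + θ * t)) (V * (1 - θ * u)) +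
    pairCross θ t u (-1) (-1) (Q * (1 - θ * t)) (V * (1 - θ * u)) = X
  have hX' : X = E / 4 * (r * pairPoly θ t u S T w) := by
    have : D * X = E * (1 - θ ^ 2) / 4 * pairPoly θ t u S T w := by
      rw [← hX, mul_add, mul_add, mul_add, c11, c10, c01, c00, ← hsum]; ring
    rw [hr]
    field_simp
    linarith
  generalize hY : pairRank θ t u 1 1 (P * (1 + θ * t)) (R * (1 + θ * u)) +
    pairRank θ t u 1 (-1) (Q * (1 - θ * t)) (R * (1 + θ * u)) +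
    pairRank θ t u (-1) 1 (P * (1 + θ * t)) (V * (1 - θ * u)) +
    pairRank θ t u (-1) (-1) (Q * (1 - θ * t)) (V * (1 - θ * u)) = Y
  set Z := P ^ 2 + Q ^ 2 + R ^ 2 + V ^ 2 with hZ
  set L := t * u * ((S + u * (2 * w - θ * t * S)) * (T + t * (2 * w - θ * u * T))) with hL
  have hRV : R - V = 2 * w - θ * u * T := by rw [hw, hT]; linarith
  have hPQ : P - Q = 2 * w - θ * t * S := by rw [hw, hS]; ring
  have hY' : E / 4 * L - E / 4 * (160 * |θ| * Z) ≤ Y := by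
    have eL : (1 + t) * (1 + u) * (t * u) * (P * R) + (1 + t) * (1 - u) * (t * u) * (Q * R) +
        (1 - t) * (1 + u) * (t * u) * (P * V) + (1 - t) * (1 - u) * (t * u) * (Q * V) = L := by
      rw [hL, ← hPQ, ← hRV, hS, hT]; ring
    rw [← hY, ← eL, hZ]
    linarith [r11.1, r10.1, r01.1, r00.1]
  obtain ⟨hS2, hT2, hw2⟩ := pair_norms (w := w) hθt hθu hS hT hw hZ
  have hrp := poly_scaled (S := S) (T := T) (w := w) hθ ht.le hu.le hr1 hS2 hT2 hw2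
  have hmain := poly_main (S := S) (T := T) (w := w) hθ ht.le hu.le
  have hH := pairHess_le (w := w) hθ ht.le hu.le
    (show (P * (1 + θ * t) - Q * (1 - θ * t)) = 2 * w by rw [hw]; ring)
  generalize hM : pairMass θ t u 1 1 (P * (1 + θ * t)) (R * (1 + θ * u)) +
    pairMass θ t u 1 (-1) (Q * (1 - θ * t)) (R * (1 + θ * u)) +
    pairMass θ t u (-1) 1 (P * (1 + θ * t)) (V * (1 - θ * u)) +
    pairMass θ t u (-1) (-1) (Q * (1 - θ * t)) (V * (1 - θ * u)) = M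
  have hMZ : E * Z ≤ 5 * M := by
    rw [hZ, ← hM]
    simp only [pairMass, pairWeight_swap θ u t] at m1 m0 n1 n0 ⊢
    rw [hE]
    linarith only [m1, m0, n1, n0]
  exact combine (S := S) (T := T) (w := w) hθ hE0 (by rw [hZ]; positivity) hS2 hT2 hw2 hmain hrp
    hY' hX' hH hMZ

end Vale.Agent.P150.Beyond
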